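/-
Row 239, package LC.  FILE LC/Loc0.lean (part of subtask LC.VAL-a, ONE OWNER).
The localisation of `𝓞 E` at a prime, and the fact that it is a valuation ring.
-/
import Claimed.Agent.R239.Defs

set_option autoImplicit false

namespace Claimed.Agent.R239

open NumberField
open scoped Pointwise

section Val

variable {E : Type*} [Field E]

/-- The localisation of `𝓞 E` at the prime `P`, as a subring of `E`. -/
def lcLoc (P : Ideal (𝓞 E)) [P.IsPrime] : Subring E where
  carrier := {x | ∃ a s : 𝓞 E, s ∉ P ∧ x * (s : E) = (a : E)}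
  mul_mem' := by
    rintro x y ⟨a, s, hs, h1⟩ ⟨b, t, ht, h2⟩
    refine ⟨a * b, s * t, fun h => ?_, ?_⟩
    · rcases (‹P.IsPrime›.mem_or_mem h) with h | h
      · exact hs h
      · exact ht h
    · push_cast
      linear_combination (y * (t : E)) * h1 + (a : E) * h2
  one_mem' := ⟨1, 1, fun h => ‹P.IsPrime›.ne_top ((Ideal.eq_top_iff_one P).2 h), by simp⟩
  add_mem' := by
    rintro x y ⟨a, s, hs, h1⟩ ⟨b, t, ht, h2⟩
    refine ⟨a * t + b * s, s * t, fun h => ?_, ?_⟩
    · rcases (‹P.IsPrime›.mem_or_mem h) with h | h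
      · exact hs h
      · exact ht h
    · push_cast
      linear_combination (t : E) * h1 + (s : E) * h2
  zero_mem' := ⟨0, 1, fun h => ‹P.IsPrime›.ne_top ((Ideal.eq_top_iff_one P).2 h), by simp⟩
  neg_mem' := by
    rintro x ⟨a, s, hs, h1⟩
    exact ⟨-a, s, hs, by push_cast; linear_combination -h1⟩

open Polynomial in
/-- Kaplansky's `u, u⁻¹` lemma for `𝓞 E`: a root of a polynomial over `𝓞 E` one of whose coefficients
is not in `P`. -/
theorem lc_loc_total_aux (P : Ideal (𝓞 E)) [P.IsPrime] (x : E) :
    ∀ (n : ℕ) (f : (𝓞 E)[X]), f.natDegree ≤ n → aeval x f = 0 → (∃ k, f.coeff k ∉ P) →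
      x ∈ lcLoc P ∨ x⁻¹ ∈ lcLoc P := by
  intro n
  induction n with
  | zero =>
    rintro f hf h0 ⟨k, hk⟩
    exfalso
    have hC := Polynomial.eq_C_of_natDegree_le_zero hf
    have h1 : f.coeff 0 = 0 := by
      rw [hC, aeval_C] at h0
      exact (RingOfIntegers.coe_eq_zero_iff).1 h0
    apply hk
    rw [hC, h1, map_zero, coeff_zero]
    exact P.zero_mem
  | succ n ih =>
    rintro f hf h0 ⟨k, hk⟩
    by_cases hdeg : f.natDegree ≤ n
    · exact ih f hdeg h0 ⟨k, hk⟩
    have hdeg' : f.natDegree = n + 1 := by omega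
    have hint : IsIntegral ℤ (f.leadingCoeff • x) :=
      isIntegral_trans _ (isIntegral_leadingCoeff_smul f x h0)
    obtain ⟨b, hb⟩ : ∃ b : 𝓞 E, (b : E) = (f.leadingCoeff : E) * x :=
      ⟨⟨f.leadingCoeff • x, hint⟩, by
        show f.leadingCoeff • x = _
        exact Algebra.smul_def _ _⟩
    by_cases ha : f.leadingCoeff ∈ P
    · by_cases hbP : b ∈ P
      · apply ih (f.eraseLead + C b * X ^ n)
        · refine (natDegree_add_le _ _).trans (max_le ?_ ?_)
          · exact (eraseLead_natDegree_le f).trans (by omega)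
          · exact natDegree_C_mul_X_pow_le b n
        · have h1 := eraseLead_add_C_mul_X_pow f
          have h2 : aeval x f.eraseLead + (f.leadingCoeff : E) * x ^ (n + 1) = 0 := by
            rw [← h0]
            conv_rhs => rw [← h1]
            rw [map_add, map_mul, aeval_C, map_pow, aeval_X, hdeg']
          rw [map_add, map_mul, aeval_C, map_pow, aeval_X]
          show aeval x f.eraseLead + (b : E) * x ^ n = 0
          rw [hb]
          linear_combination h2
        · refine ⟨k, fun hmem => hk ?_⟩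
          have hkn : k ≠ f.natDegree := by
            rintro rfl
            exact hk ha
          rw [coeff_add, eraseLead_coeff, if_neg hkn, coeff_C_mul_X_pow] at hmem
          split_ifs at hmem
          · exact (P.add_mem_iff_left hbP).1 hmem
          · simpa using hmem
      · right
        refine ⟨f.leadingCoeff, b, hbP, ?_⟩
        have hx : x ≠ 0 := by
          rintro rfl
          apply hbP
          rw [mul_zero] at hb
          rw [(RingOfIntegers.coe_eq_zero_iff).1 hb]
          exact P.zero_mem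
        rw [hb]
        field_simp
    · left
      exact ⟨b, f.leadingCoeff, ha, by rw [hb]; ring⟩

open Polynomial in
/-- LEAF `lc_loc_total`.  `x` or `x⁻¹` is `P`-integral.  Sketch: `K = ℚ(x)` is a number field,
`p = P ∩ 𝓞 K` is a nonzero prime, `(𝓞 K)_p` is a DVR with fraction field `K`, so `x` or `x⁻¹` is of
the form `a / s`, `a s ∈ 𝓞 K`, `s ∉ p`; map everything to `E`.
(Proof given here: `x` is a root of a primitive integer polynomial + Kaplansky's lemma.) -/
theorem lc_loc_total [CharZero E] [Algebra.IsAlgebraic ℚ E] (P : Ideal (𝓞 E)) [P.IsMaximal] (x : E) :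
    x ∈ lcLoc P ∨ x⁻¹ ∈ lcLoc P := by
  obtain ⟨f, hf0, hfx⟩ := (IsFractionRing.isAlgebraic_iff ℤ ℚ E).2
    (Algebra.IsAlgebraic.isAlgebraic (R := ℚ) x)
  have hprim := f.isPrimitive_primPart
  have hx := aeval_primPart_eq_zero hf0 hfx
  refine lc_loc_total_aux P x _ (f.primPart.map (algebraMap ℤ (𝓞 E))) le_rfl ?_ ?_
  · rw [aeval_map_algebraMap]
    exact hx
  · by_contra hcon
    simp only [not_exists, not_not, coeff_map] at hcon
    obtain ⟨d, hd⟩ := (IsPrincipalIdealRing.principal (P.comap (algebraMap ℤ (𝓞 E)))).principal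
    have hdvd : C d ∣ f.primPart := by
      rw [C_dvd_iff_dvd_coeff]
      intro i
      have : f.primPart.coeff i ∈ P.comap (algebraMap ℤ (𝓞 E)) := hcon i
      rw [hd] at this
      exact Ideal.mem_span_singleton.1 this
    have hu := hprim d hdvd
    have htop : P.comap (algebraMap ℤ (𝓞 E)) = ⊤ := by
      rw [hd]
      exact Ideal.span_singleton_eq_top.2 hu
    have h1 : (1 : ℤ) ∈ P.comap (algebraMap ℤ (𝓞 E)) := by
      rw [htop]
      trivial
    apply ‹P.IsMaximal›.ne_top
    rw [Ideal.eq_top_iff_one]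
    simpa using h1

end Val

end Claimed.Agent.R239
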