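/-
Row 239, package LC (local correspondence, Thm 2.4').  Owner: helper75.
BASIC VOCABULARY of the package: radical closure, the valuation attached to a prime of `E`,
norm forms of Kummer extensions, local norms.
-/
import Claimed.Agent.R239.LC.Loc0

set_option autoImplicit false

namespace Claimed.Agent.R239

open NumberField
open scoped Pointwise

/-- What LC uses of `SolvablyClosed E`: all radicals and all roots of unity are in `E`. -/
structure RadClosed (E : Type*) [Field E] : Prop where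
  root : ∀ n : ℕ, 0 < n → ∀ x : E, ∃ y : E, y ^ n = x
  prim : ∀ n : ℕ, 0 < n → ∃ ζ : E, IsPrimitiveRoot ζ n

section Val

variable {E : Type*} [Field E]

/-- The valuation ring of the prime `P` of `E`. -/
def lcVS [CharZero E] [Algebra.IsAlgebraic ℚ E] (P : Ideal (𝓞 E)) [P.IsMaximal] :
    ValuationSubring E :=
  { lcLoc P with mem_or_inv_mem' := lc_loc_total P }

/-- The valuation `v_P` of `E` (multiplicative notation: `v_P x ≤ 1` iff `x` is `P`-integral). -/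
noncomputable abbrev lcv [CharZero E] [Algebra.IsAlgebraic ℚ E] (P : Ideal (𝓞 E)) [P.IsMaximal] :
    Valuation E (lcVS P).ValueGroup := (lcVS P).valuation

end Val

section Norm

variable {E : Type*} [Field E]

/-- The norm form of `k(α)/k`, `α ^ ℓ ∈ k`, `ζ` a primitive `ℓ`-th root of unity in `k`:
`lcNF ℓ ζ α c = ∏_{i<ℓ} ∑_{j<ℓ} c_j (ζ^i α)^j = N_{k(α)/k} (∑ c_j α^j)` (when `α ∉ k`). -/
def lcNF (ℓ : ℕ) (ζ α : E) (c : ℕ → E) : E :=
  ∏ i ∈ Finset.range ℓ, ∑ j ∈ Finset.range ℓ, c j * (ζ ^ i * α) ^ j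

variable {F : Type*} [Field F] [Algebra F E]

/-- `b` is a value of the norm form of `α` with coefficients in the fixed field of `Z`. -/
def lcIsNorm (ℓ : ℕ) (Z : Subgroup Gal(E/F)) (ζ α b : E) : Prop :=
  ∃ c : ℕ → E, (∀ j, c j ∈ fld Z) ∧ lcNF ℓ ζ α c = b

variable [CharZero E] [Algebra.IsAlgebraic ℚ E]

/-- `b` is a LOCAL norm at `P` from `M_U(α)`: it is `P`-adically approximated by values of the norm
form with coefficients in `M_U`. -/
def lcLocNorm (ℓ : ℕ) (U : Subgroup Gal(E/F)) (P : Ideal (𝓞 E)) [P.IsMaximal] (ζ α b : E) : Prop :=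
  ∀ t : E, t ≠ 0 → ∃ c : ℕ → E, (∀ j, c j ∈ fld U) ∧ lcv P (lcNF ℓ ζ α c - b) ≤ lcv P t

end Norm

section Grp

variable {G : Type*} [Group G] [TopologicalSpace G] [IsTopologicalGroup G]

/-- the closed subgroup topologically generated by `τ` -/
abbrev lcCl (τ : G) : Subgroup G := (Subgroup.zpowers τ).topologicalClosure

/-- the closed subgroup topologically generated by `τ` and `σ` -/
abbrev lcCl2 (τ σ : G) : Subgroup G := (Subgroup.closure {τ, σ}).topologicalClosure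

/-- `x` has order prime to `ℓ` in every finite quotient. -/
def IsProL' (ℓ : ℕ) (x : G) : Prop :=
  ∀ V : Subgroup G, IsOpen (V : Set G) → ∃ m : ℕ, 0 < m ∧ m.Coprime ℓ ∧ x ^ m ∈ V

/-- The shape of the `ℓ`-Sylow subgroup `ℤ_ℓ ⋊ ℤ_ℓ` of a local Galois group away from `ℓ`:
`τ`, `σ` pro-`ℓ`, `σ τ σ⁻¹ = τ ^ u` with `u ≡ 1 mod ℓ`, `u ≠ 1`. -/
structure LCPair (ℓ : ℕ) (τ σ : G) : Prop where
  proτ : IsProL ℓ τ
  proσ : IsProL ℓ σ
  rel : ∃ x ∈ lcCl τ, σ * τ * σ⁻¹ = τ * x ^ ℓ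
  ne : σ * τ * σ⁻¹ ≠ τ

end Grp

/-! ## The two inputs from class field theory, in `E`-internal form -/

section

variable (ℓ : ℕ) (N E : Type*) [Field N] [NumberField N] [Field E] [Algebra N E] [IsGalois N E]
  [CharZero E] [Algebra.IsAlgebraic ℚ E]

/-- HASSE NORM THEOREM for Kummer extensions of degree `ℓ` of the number fields `K_U ⊆ E`. -/
def LCHnt : Prop :=
  ∀ U : Subgroup Gal(E/N), IsOpen (U : Set Gal(E/N)) → ∀ ζ α b : E, IsPrimitiveRoot ζ ℓ →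
    ζ ∈ fld U → α ≠ 0 → α ^ ℓ ∈ fld U → b ≠ 0 → b ∈ fld U →
    (∀ (P : Ideal (𝓞 E)) [P.IsMaximal], lcLocNorm ℓ U P ζ α b) → lcIsNorm ℓ U ζ α b

end

section

variable (ℓ : ℕ) (N E : Type*) [Field N] [NumberField N] [Field E] [Algebra N E] [IsGalois N E]
  [CharZero E] [Algebra.IsAlgebraic ℚ E]

/-- "the norm group of `α` over the fixed field of `Z` has index exactly `ℓ`", for all `α`. -/
def lcLNI (Z : Subgroup Gal(E/N)) (ζ : E) : Prop :=
  ∀ α : E, α ≠ 0 → α ^ ℓ ∈ fld Z → α ∉ fld Z →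
    ∃ b₀ ∈ fld Z, b₀ ≠ 0 ∧ ¬ lcIsNorm ℓ Z ζ α b₀ ∧
      ∀ b ∈ fld Z, b ≠ 0 → ∃ i < ℓ, lcIsNorm ℓ Z ζ α (b * b₀ ^ i)

end

section

variable (ℓ : ℕ) (N E : Type*) [Field N] [NumberField N] [Field E] [Algebra N E] [IsGalois N E]
  [CharZero E] [Algebra.IsAlgebraic ℚ E]

/-- LOCAL NORM INDEX `= ℓ` for non-split Kummer extensions of degree `ℓ`, at every prime. -/
def LCLni : Prop :=
  ∀ U : Subgroup Gal(E/N), IsOpen (U : Set Gal(E/N)) → ∀ (P : Ideal (𝓞 E)) [P.IsMaximal],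
    ∀ ζ α : E, IsPrimitiveRoot ζ ℓ → ζ ∈ fld U → α ≠ 0 → α ^ ℓ ∈ fld U →
    α ∉ fld (U ⊓ decomp N P) →
    ∃ b₀ ∈ fld U, b₀ ≠ 0 ∧ ¬ lcLocNorm ℓ U P ζ α b₀ ∧
      ∀ b ∈ fld U, b ≠ 0 → ∃ i < ℓ, lcLocNorm ℓ U P ζ α (b * b₀ ^ i)

end

end Claimed.Agent.R239
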