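/-
Row 239, package LC (local correspondence, Thm 2.4').  Sub-captain: helper75.
FILE LC/PROF_a.lean = subtask LC.PROF-a.  ONE OWNER (see table subtask; owner: helper199); the owner replaces every sorry IN PLACE
(statements are frozen: ask helper75 before changing one) and may add private helper lemmas / helper files
LC/PROF_a_*.lean.  You may import further LC files that do not (transitively) import this one.
Notation of the sketches: G' = Gal(E/N), v_P = lcv P, D_P = decomp N P, I_P = inert N P, cl(τ) = lcCl τ,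
K_U = fld U, K_U^h = fld (U ⊓ D_P) (henselisation of K_U at P inside E).  Labels (P4, V3, L1, ...) refer to
the doc-strings of the other LC files; index: LC/Chain.lean.
-/
import Claimed.Agent.R239.LC.Basic

set_option autoImplicit false

namespace Claimed.Agent.R239

open NumberField
open scoped Pointwise

/-! ### general tools on profinite groups (public: usable in PROF_b, PROF_c, PROF_d, ...) -/

section tools

variable {G : Type*} [Group G] [TopologicalSpace G] [IsTopologicalGroup G] [CompactSpace G]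
  [TotallyDisconnectedSpace G]

/-- T1: every neighbourhood of `1` contains an open normal subgroup. -/
theorem prof_exists_normal {U : Set G} (hU : IsOpen U) (h1 : (1 : G) ∈ U) :
    ∃ W : Subgroup G, W.Normal ∧ IsOpen (W : Set G) ∧ (W : Set G) ⊆ U := by
  obtain ⟨H, hH⟩ := ProfiniteGrp.exist_openNormalSubgroup_sub_open_nhds_of_one hU h1
  exact ⟨H.toSubgroup, H.isNormal', H.isOpen', hH⟩

/-- T1': every open subgroup contains an open normal subgroup. -/
theorem prof_exists_normal_le {V : Subgroup G} (hV : IsOpen (V : Set G)) :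
    ∃ W : Subgroup G, W.Normal ∧ IsOpen (W : Set G) ∧ W ≤ V :=
  prof_exists_normal hV V.one_mem

/-- T2: closure in terms of open normal subgroups. -/
theorem prof_mem_closure_iff {S : Set G} {y : G} :
    y ∈ closure S ↔
      ∀ W : Subgroup G, W.Normal → IsOpen (W : Set G) → ∃ s ∈ S, y⁻¹ * s ∈ W := by
  rw [mem_closure_iff]
  constructor
  · intro h W _ hW
    have ho : IsOpen ((fun g => y⁻¹ * g) ⁻¹' (W : Set G)) := hW.preimage (continuous_const_mul _)
    obtain ⟨s, hs1, hs2⟩ := h _ ho (by simp)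
    exact ⟨s, hs2, hs1⟩
  · intro h o ho hy
    have ho' : IsOpen ((fun g => y * g) ⁻¹' o) := ho.preimage (continuous_const_mul _)
    obtain ⟨W, hWn, hWo, hWs⟩ := prof_exists_normal ho' (by simpa using hy)
    obtain ⟨s, hs, hsW⟩ := h W hWn hWo
    refine ⟨s, ?_, hs⟩
    have := hWs hsW
    simpa using this

/-- T3: an element of `cl τ` is a power of `τ` modulo every open normal subgroup. -/
theorem prof_cl_approx_zpow {τ x : G} (hx : x ∈ lcCl τ) {W : Subgroup G} (hWn : W.Normal)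
    (hW : IsOpen (W : Set G)) : ∃ n : ℤ, x⁻¹ * τ ^ n ∈ W := by
  have hx' : x ∈ closure ((Subgroup.zpowers τ : Subgroup G) : Set G) := hx
  obtain ⟨s, hs, hsW⟩ := prof_mem_closure_iff.1 hx' W hWn hW
  obtain ⟨n, rfl⟩ := Subgroup.mem_zpowers_iff.1 hs
  exact ⟨n, hsW⟩

/-- every element has a positive power in a given open subgroup. -/
theorem prof_exists_pow_mem (τ : G) {W : Subgroup G} (hW : IsOpen (W : Set G)) :
    ∃ m : ℕ, 0 < m ∧ τ ^ m ∈ W := by
  have : Finite (G ⧸ W) := W.quotient_finite_of_isOpen hW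
  have : W.FiniteIndex := Subgroup.finiteIndex_of_finite_quotient
  exact Subgroup.exists_pow_mem_of_index_ne_zero Subgroup.FiniteIndex.index_ne_zero τ |>.imp
    fun m hm => ⟨hm.1, hm.2.2⟩

/-- T3': the same with a natural exponent. -/
theorem prof_cl_approx {τ x : G} (hx : x ∈ lcCl τ) {W : Subgroup G} (hWn : W.Normal)
    (hW : IsOpen (W : Set G)) : ∃ n : ℕ, x⁻¹ * τ ^ n ∈ W := by
  obtain ⟨n, hn⟩ := prof_cl_approx_zpow hx hWn hW
  obtain ⟨m, hm0, hm⟩ := prof_exists_pow_mem τ hW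
  -- `n = (n % m) + m * (n / m)`
  refine ⟨(n % (m : ℤ)).toNat, ?_⟩
  have hm0' : (m : ℤ) ≠ 0 := by exact_mod_cast hm0.ne'
  have h1 : ((n % (m : ℤ)).toNat : ℤ) = n % (m : ℤ) := Int.toNat_of_nonneg (Int.emod_nonneg _ hm0')
  have h2 : τ ^ (n % (m : ℤ)).toNat = τ ^ n * ((τ ^ m) ^ (n / (m : ℤ)))⁻¹ := by
    rw [← zpow_natCast τ (n % (m : ℤ)).toNat, h1, ← zpow_natCast τ m, ← zpow_mul, ← zpow_neg,
      ← zpow_add]
    congr 1
    have := Int.emod_add_mul_ediv n m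
    linarith
  rw [h2, ← mul_assoc]
  exact W.mul_mem hn (W.inv_mem (W.zpow_mem hm _))

theorem prof_self_mem_cl (τ : G) : τ ∈ lcCl τ :=
  Subgroup.le_topologicalClosure _ (Subgroup.mem_zpowers τ)

theorem prof_cl_isClosed (τ : G) : IsClosed ((lcCl τ : Subgroup G) : Set G) :=
  Subgroup.isClosed_topologicalClosure _

/-- `cl x ≤ cl τ` for `x ∈ cl τ`. -/
theorem prof_cl_le {τ x : G} (hx : x ∈ lcCl τ) : lcCl x ≤ lcCl τ :=
  Subgroup.topologicalClosure_minimal _ ((Subgroup.zpowers_le).2 hx) (prof_cl_isClosed τ)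

/-- congruences modulo a normal subgroup can be raised to powers. -/
theorem prof_pow_congr {W : Subgroup G} (hWn : W.Normal) {a b : G} (h : a⁻¹ * b ∈ W) (m : ℕ) :
    (a ^ m)⁻¹ * b ^ m ∈ W := by
  have := hWn
  have h1 : (QuotientGroup.mk a : G ⧸ W) = QuotientGroup.mk b := QuotientGroup.eq.2 h
  apply QuotientGroup.eq.1
  rw [QuotientGroup.mk_pow, QuotientGroup.mk_pow, h1]

end tools

section

variable {G : Type*} [Group G] [TopologicalSpace G] [IsTopologicalGroup G] [CompactSpace G]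
  [TotallyDisconnectedSpace G] [T2Space G]
variable {ℓ : ℕ} [Fact ℓ.Prime]

/-- P1. Sketch: preimage of an open subgroup is an open subgroup. -/
theorem prof_isProL_map {G' : Type*} [Group G'] [TopologicalSpace G'] (φ : G →* G')
    (hφ : Continuous φ) {τ : G} (h : IsProL ℓ τ) : IsProL ℓ (φ τ) := by
  intro V hV
  obtain ⟨k, hk⟩ := h (V.comap φ) (hV.preimage hφ)
  refine ⟨k, ?_⟩
  rw [← map_pow]
  exact hk

end

section

variable {G : Type*} [Group G] [TopologicalSpace G] [IsTopologicalGroup G] [CompactSpace G]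
  [TotallyDisconnectedSpace G] [T2Space G]
variable {ℓ : ℕ} [Fact ℓ.Prime]

/-- P2. Sketch: V open contains an open normal W; mod W, x is a power of τ. -/
theorem prof_isProL_of_mem_cl {τ x : G} (h : IsProL ℓ τ) (hx : x ∈ lcCl τ) : IsProL ℓ x := by
  intro V hV
  obtain ⟨W, hWn, hWo, hWV⟩ := prof_exists_normal_le hV
  obtain ⟨n, hn⟩ := prof_cl_approx hx hWn hWo
  obtain ⟨k, hk⟩ := h W hWo
  refine ⟨k, hWV ?_⟩
  have h1 := prof_pow_congr hWn hn (ℓ ^ k)
  have h2 : (τ ^ n) ^ ℓ ^ k ∈ W := by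
    rw [← pow_mul, mul_comm, pow_mul]
    exact W.pow_mem hk n
  have h3 : x ^ ℓ ^ k = (τ ^ n) ^ ℓ ^ k * ((x ^ ℓ ^ k)⁻¹ * (τ ^ n) ^ ℓ ^ k)⁻¹ := by group
  rw [h3]
  exact W.mul_mem h2 (W.inv_mem h1)

end

section

variable {G : Type*} [Group G] [TopologicalSpace G] [IsTopologicalGroup G] [CompactSpace G]
  [TotallyDisconnectedSpace G] [T2Space G]
variable {ℓ : ℕ} [Fact ℓ.Prime]

/-- P3. `cl(τ)` is abelian. -/
theorem prof_cl_comm {τ x y : G} (hx : x ∈ lcCl τ) (hy : y ∈ lcCl τ) : x * y = y * x := by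
  have hs : ∀ a b : Subgroup.zpowers τ, a * b = b * a := by
    rintro ⟨a, ha⟩ ⟨b, hb⟩
    obtain ⟨m, rfl⟩ := Subgroup.mem_zpowers_iff.1 ha
    obtain ⟨n, rfl⟩ := Subgroup.mem_zpowers_iff.1 hb
    exact Subtype.ext (Commute.zpow_zpow_self τ m n)
  have := (Subgroup.commGroupTopologicalClosure (Subgroup.zpowers τ) hs).mul_comm ⟨x, hx⟩ ⟨y, hy⟩
  exact congrArg Subtype.val this

end

section

variable {G : Type*} [Group G] [TopologicalSpace G] [IsTopologicalGroup G] [CompactSpace G]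
  [TotallyDisconnectedSpace G] [T2Space G]
variable {ℓ : ℕ} [Fact ℓ.Prime]

/-- P4 (closed subgroups of a procyclic pro-ℓ group).  Sketch: pick V open normal with x ∉ V,
`ℓ^n₀` = order of τ mod V.  For W ≤ V open normal, x ≡ τ^c mod W with v_ℓ(c) < n₀ independent of W,
so `<x> = <τ^(ℓ^j)>` mod W; intersect over W (cl(x) is closed). -/
theorem prof_pow_mem_cl {τ x : G} (h : IsProL ℓ τ) (hx : x ∈ lcCl τ) (hx1 : x ≠ 1) :
    ∃ k : ℕ, τ ^ ℓ ^ k ∈ lcCl x := by
  have hℓ : ℓ.Prime := Fact.out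
  obtain ⟨V, hVn, hVo, hVx⟩ := prof_exists_normal (U := {x}ᶜ) isOpen_compl_singleton
    (by simpa using hx1.symm)
  have hxV : x ∉ V := fun hxV => hVx hxV rfl
  obtain ⟨n₀, hn₀⟩ := h V hVo
  refine ⟨n₀, ?_⟩
  show τ ^ ℓ ^ n₀ ∈ closure ((Subgroup.zpowers x : Subgroup G) : Set G)
  rw [prof_mem_closure_iff]
  intro W₀ hW₀n hW₀o
  -- pass to `W = W₀ ⊓ V`
  have hWn : (W₀ ⊓ V).Normal := by
    have := hW₀n
    have := hVn
    infer_instance
  have hWo : IsOpen ((W₀ ⊓ V : Subgroup G) : Set G) := by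
    rw [Subgroup.coe_inf]
    exact hW₀o.inter hVo
  obtain ⟨c, hc⟩ := prof_cl_approx hx hWn hWo
  obtain ⟨N, hN⟩ := h (W₀ ⊓ V) hWo
  have hc0 : c ≠ 0 := by
    rintro rfl
    rw [pow_zero, mul_one] at hc
    exact hxV (V.inv_mem_iff.1 hc.2)
  obtain ⟨j, c', hc', rfl⟩ := Nat.exists_eq_pow_mul_and_not_dvd hc0 ℓ hℓ.ne_one
  have hj : j < n₀ := by
    by_contra hj
    rw [not_lt] at hj
    apply hxV
    have h1 : τ ^ (ℓ ^ j * c') ∈ V := by
      obtain ⟨d, rfl⟩ := Nat.exists_eq_add_of_le hj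
      rw [pow_add, mul_assoc, pow_mul]
      exact V.pow_mem hn₀ _
    have h2 : x = τ ^ (ℓ ^ j * c') * (x⁻¹ * τ ^ (ℓ ^ j * c'))⁻¹ := by group
    rw [h2]
    exact V.mul_mem h1 (V.inv_mem hc.2)
  -- invert `c'` modulo `ℓ ^ (N + 1)`
  have hcop : Nat.Coprime c' (ℓ ^ (N + 1)) :=
    Nat.Coprime.pow_right _ ((Nat.Prime.coprime_iff_not_dvd hℓ).2 hc').symm
  obtain ⟨d, -, hd⟩ := Nat.exists_mul_mod_eq_one_of_coprime hcop
    (Nat.one_lt_pow (Nat.succ_ne_zero N) hℓ.one_lt)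
  refine ⟨x ^ (d * ℓ ^ (n₀ - j)), Subgroup.mem_zpowers_iff.2 ⟨(d * ℓ ^ (n₀ - j) : ℕ), by
    rw [zpow_natCast]⟩, ?_⟩
  -- work in the quotient by `W = W₀ ⊓ V`
  have := hWn
  have hq : (QuotientGroup.mk x : G ⧸ (W₀ ⊓ V)) = QuotientGroup.mk (τ ^ (ℓ ^ j * c')) :=
    QuotientGroup.eq.2 hc
  have hτN : (QuotientGroup.mk τ : G ⧸ (W₀ ⊓ V)) ^ ℓ ^ (N + 1) = 1 := by
    rw [← QuotientGroup.mk_pow, QuotientGroup.eq_one_iff, pow_succ, pow_mul]
    exact Subgroup.pow_mem _ hN _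
  have key : (QuotientGroup.mk (τ ^ ℓ ^ n₀) : G ⧸ (W₀ ⊓ V))
      = QuotientGroup.mk (x ^ (d * ℓ ^ (n₀ - j))) := by
    rw [QuotientGroup.mk_pow, QuotientGroup.mk_pow, hq, QuotientGroup.mk_pow, ← pow_mul]
    have e1 : ℓ ^ j * c' * (d * ℓ ^ (n₀ - j)) = (c' * d) * ℓ ^ n₀ := by
      have : ℓ ^ n₀ = ℓ ^ j * ℓ ^ (n₀ - j) := by
        rw [← pow_add]
        congr 1
        omega
      rw [this]
      ring
    rw [e1, pow_mul, pow_eq_pow_mod (c' * d) hτN, hd, pow_one]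
  exact (QuotientGroup.eq.1 key).1

end

section

variable {G : Type*} [Group G] [TopologicalSpace G] [IsTopologicalGroup G] [CompactSpace G]
  [TotallyDisconnectedSpace G] [T2Space G]
variable {ℓ : ℕ} [Fact ℓ.Prime]

/-- P10.  Sketch: `{x^ℓ : x ∈ cl τ}` is a closed subgroup (compact image) containing `τ^ℓ`, of
index ≤ ℓ in `cl τ` with coset representatives `τ^i`; `c` separates these. -/
theorem prof_lth_power {τ y : G} (hτ : IsProL ℓ τ) (hy : y ∈ lcCl τ)
    (c : lcCl τ →* Multiplicative (ZMod ℓ)) (hc : Continuous c)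
    (h1 : ∀ h : τ ∈ lcCl τ, c ⟨τ, h⟩ ≠ 1) (h2 : c ⟨y, hy⟩ = 1) :
    ∃ x ∈ lcCl τ, y = x ^ ℓ := by
  have hℓ : ℓ.Prime := Fact.out
  -- the set of `ℓ`-th powers is closed
  have hcomp : IsCompact ((fun x : G => x ^ ℓ) '' ((lcCl τ : Subgroup G) : Set G)) :=
    (prof_cl_isClosed τ).isCompact.image (continuous_pow ℓ)
  have hmem : y ∈ closure ((fun x : G => x ^ ℓ) '' ((lcCl τ : Subgroup G) : Set G)) := by
    rw [prof_mem_closure_iff]
    intro W hWn hWo
    -- an open normal subgroup on which `c` is trivial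
    have hker : IsOpen (c ⁻¹' {1}) := (isOpen_discrete _).preimage hc
    obtain ⟨U, hUo, hU⟩ := isOpen_induced_iff.1 hker
    have h1U : (1 : G) ∈ U := by
      have : (1 : lcCl τ) ∈ Subtype.val ⁻¹' U := by rw [hU]; simp
      exact this
    obtain ⟨W₁, hW₁n, hW₁o, hW₁U⟩ := prof_exists_normal hUo h1U
    have hW'n : (W ⊓ W₁).Normal := by
      have := hWn
      have := hW₁n
      infer_instance
    have hW'o : IsOpen ((W ⊓ W₁ : Subgroup G) : Set G) := by
      rw [Subgroup.coe_inf]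
      exact hWo.inter hW₁o
    obtain ⟨n, hn⟩ := prof_cl_approx hy hW'n hW'o
    have hτm := prof_self_mem_cl τ
    have hz : y⁻¹ * τ ^ n ∈ lcCl τ :=
      (lcCl τ).mul_mem ((lcCl τ).inv_mem hy) ((lcCl τ).pow_mem hτm n)
    have hcz : c ⟨y⁻¹ * τ ^ n, hz⟩ = 1 := by
      have : (⟨y⁻¹ * τ ^ n, hz⟩ : lcCl τ) ∈ Subtype.val ⁻¹' U := hW₁U hn.2
      rw [hU] at this
      exact this
    have hsplit : (⟨y⁻¹ * τ ^ n, hz⟩ : lcCl τ) = (⟨y, hy⟩ : lcCl τ)⁻¹ * (⟨τ, hτm⟩ : lcCl τ) ^ n :=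
      rfl
    rw [hsplit, map_mul, map_inv, h2, inv_one, one_mul, map_pow] at hcz
    -- the order of `c τ` is `ℓ`
    have hord : orderOf (c ⟨τ, hτm⟩) = ℓ := by
      apply orderOf_eq_prime _ (h1 hτm)
      have := pow_card_eq_one' (x := c ⟨τ, hτm⟩)
      rwa [Nat.card_eq_fintype_card, Fintype.card_multiplicative, ZMod.card] at this
    obtain ⟨m, rfl⟩ : ℓ ∣ n := hord ▸ orderOf_dvd_of_pow_eq_one hcz
    refine ⟨(τ ^ m) ^ ℓ, ⟨τ ^ m, (lcCl τ).pow_mem hτm m, rfl⟩, ?_⟩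
    rw [← pow_mul, mul_comm m ℓ]
    exact hn.1
  rw [hcomp.isClosed.closure_eq] at hmem
  obtain ⟨x, hx, hxy⟩ := hmem
  exact ⟨x, hx, hxy.symm⟩

end

end Claimed.Agent.R239
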