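/-
Row 239, package LC (local correspondence, Thm 2.4').  Sub-captain: helper75.
FILE LC/PROF_b.lean = subtask LC.PROF-b.  ONE OWNER (see table subtask; owner: helper199); the owner replaces every sorry IN PLACE
(statements are frozen: ask helper75 before changing one) and may add private helper lemmas / helper files
LC/PROF_b_*.lean.  You may import further LC files that do not (transitively) import this one.
Notation of the sketches: G' = Gal(E/N), v_P = lcv P, D_P = decomp N P, I_P = inert N P, cl(τ) = lcCl τ,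
K_U = fld U, K_U^h = fld (U ⊓ D_P) (henselisation of K_U at P inside E).  Labels (P4, V3, L1, ...) refer to
the doc-strings of the other LC files; index: LC/Chain.lean.
-/
import Claimed.Agent.R239.LC.PROF_a

set_option autoImplicit false

namespace Claimed.Agent.R239

open NumberField
open scoped Pointwise

section

variable {G : Type*} [Group G] [TopologicalSpace G] [IsTopologicalGroup G] [CompactSpace G]
  [TotallyDisconnectedSpace G] [T2Space G]
variable {ℓ : ℕ} [Fact ℓ.Prime]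

/-- the finite level of P5: Bezout in the finite cyclic group generated by `g` mod `W`. -/
theorem prof_lpart_level (ℓ : ℕ) [Fact ℓ.Prime] (g : G) {W : Subgroup G}
    (hWo : IsOpen (W : Set G)) :
    ∃ n : ℤ, (∃ k : ℕ, (g ^ n) ^ ℓ ^ k ∈ W) ∧
      ∃ m : ℕ, 0 < m ∧ m.Coprime ℓ ∧ ((g ^ n)⁻¹ * g) ^ m ∈ W := by
  have hℓ : ℓ.Prime := Fact.out
  obtain ⟨N, hN0, hN⟩ := prof_exists_pow_mem g hWo
  obtain ⟨a, m, hm, rfl⟩ := Nat.exists_eq_pow_mul_and_not_dvd hN0.ne' ℓ hℓ.ne_one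
  have hm0 : 0 < m := Nat.pos_of_ne_zero (by rintro rfl; exact hm (dvd_zero _))
  have hcop : m.Coprime ℓ := ((Nat.Prime.coprime_iff_not_dvd hℓ).2 hm).symm
  have hcop' : Nat.gcd (ℓ ^ a) m = 1 := (Nat.Coprime.pow_right a hcop).symm
  have hbez := Nat.gcd_eq_gcd_ab (ℓ ^ a) m
  rw [hcop', Nat.cast_one] at hbez
  set u := Nat.gcdA (ℓ ^ a) m
  set v := Nat.gcdB (ℓ ^ a) m
  refine ⟨m * v, ⟨a, ?_⟩, m, hm0, hcop, ?_⟩
  · have e : (g ^ ((m : ℤ) * v)) ^ ℓ ^ a = (g ^ (ℓ ^ a * m)) ^ v := by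
      rw [← zpow_natCast, ← zpow_mul, ← zpow_natCast g, ← zpow_mul]
      congr 1
      push_cast
      ring
    rw [e]
    exact W.zpow_mem hN v
  · have e : ((g ^ ((m : ℤ) * v))⁻¹ * g) ^ m = (g ^ (ℓ ^ a * m)) ^ u := by
      have e1 : (g ^ ((m : ℤ) * v))⁻¹ * g = g ^ (((ℓ ^ a : ℕ) : ℤ) * u) := by
        rw [← zpow_neg, ← zpow_add_one]
        congr 1
        linarith
      rw [e1, ← zpow_natCast, ← zpow_mul, ← zpow_natCast g, ← zpow_mul]
      congr 1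
      push_cast
      ring
    rw [e]
    exact W.zpow_mem hN u

/-- P5 (ℓ-part).  Sketch: `n_k = m_k ^ (ℓ^(k-1) (ℓ-1))`, `m_k` = prime-to-ℓ part of `k!`;
`g ^ n_k` converges (eventually constant mod every open normal subgroup) to `g'`; `g'' = g'⁻¹ g`.
(Proof given here: Bezout mod every open normal subgroup + compactness of `cl g`.) -/
theorem prof_lpart (ℓ : ℕ) [Fact ℓ.Prime] (g : G) :
    ∃ g' ∈ lcCl g, ∃ g'' ∈ lcCl g, g = g' * g'' ∧ IsProL ℓ g' ∧ IsProL' ℓ g'' := by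
  let C : {W : Subgroup G // W.Normal ∧ IsOpen (W : Set G)} → Set G := fun W =>
    {x | x ∈ lcCl g ∧ (∃ k : ℕ, x ^ ℓ ^ k ∈ W.1) ∧
      ∃ m : ℕ, 0 < m ∧ m.Coprime ℓ ∧ (x⁻¹ * g) ^ m ∈ W.1}
  have : Nonempty {W : Subgroup G // W.Normal ∧ IsOpen (W : Set G)} :=
    ⟨⟨⊤, inferInstance, isOpen_univ⟩⟩
  have hne : ∀ W, (C W).Nonempty := fun W => by
    obtain ⟨n, h1, h2⟩ := prof_lpart_level ℓ g W.2.2
    exact ⟨g ^ n, (lcCl g).zpow_mem (prof_self_mem_cl g) n, h1, h2⟩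
  have hcl : ∀ W, IsClosed (C W) := fun W => by
    have := W.2.1
    have : DiscreteTopology (G ⧸ W.1) := QuotientGroup.discreteTopology W.2.2
    have hS1 : IsClosed ((fun x : G => (QuotientGroup.mk x : G ⧸ W.1)) ⁻¹'
        {q | ∃ k : ℕ, q ^ ℓ ^ k = 1}) :=
      (isClosed_discrete _).preimage QuotientGroup.continuous_mk
    have hS2 : IsClosed ((fun x : G => (QuotientGroup.mk (x⁻¹ * g) : G ⧸ W.1)) ⁻¹'
        {q | ∃ m : ℕ, 0 < m ∧ m.Coprime ℓ ∧ q ^ m = 1}) := by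
      refine (isClosed_discrete _).preimage (QuotientGroup.continuous_mk.comp ?_)
      fun_prop
    have e : C W = (lcCl g : Set G) ∩ (((fun x : G => (QuotientGroup.mk x : G ⧸ W.1)) ⁻¹'
        {q | ∃ k : ℕ, q ^ ℓ ^ k = 1}) ∩
        ((fun x : G => (QuotientGroup.mk (x⁻¹ * g) : G ⧸ W.1)) ⁻¹'
        {q | ∃ m : ℕ, 0 < m ∧ m.Coprime ℓ ∧ q ^ m = 1})) := by
      ext x
      constructor
      · rintro ⟨hx, ⟨k, hk⟩, m, hm0, hm, hxm⟩
        refine ⟨hx, ⟨k, ?_⟩, m, hm0, hm, ?_⟩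
        · show (QuotientGroup.mk x : G ⧸ W.1) ^ ℓ ^ k = 1
          rw [← QuotientGroup.mk_pow]
          exact (QuotientGroup.eq_one_iff _).2 hk
        · show (QuotientGroup.mk (x⁻¹ * g) : G ⧸ W.1) ^ m = 1
          rw [← QuotientGroup.mk_pow]
          exact (QuotientGroup.eq_one_iff _).2 hxm
      · rintro ⟨hx, ⟨k, hk⟩, m, hm0, hm, hxm⟩
        refine ⟨hx, ⟨k, ?_⟩, m, hm0, hm, ?_⟩
        · apply (QuotientGroup.eq_one_iff _).1
          rw [QuotientGroup.mk_pow]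
          exact hk
        · apply (QuotientGroup.eq_one_iff _).1
          rw [QuotientGroup.mk_pow]
          exact hxm
    rw [e]
    exact (prof_cl_isClosed g).inter (hS1.inter hS2)
  have hdir : Directed (· ⊇ ·) C := by
    intro W₁ W₂
    have := W₁.2.1
    have := W₂.2.1
    refine ⟨⟨W₁.1 ⊓ W₂.1, inferInstance, ?_⟩, ?_, ?_⟩
    · rw [Subgroup.coe_inf]
      exact W₁.2.2.inter W₂.2.2
    · rintro x ⟨hx, ⟨k, hk⟩, m, hm0, hm, hxm⟩
      exact ⟨hx, ⟨k, hk.1⟩, m, hm0, hm, hxm.1⟩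
    · rintro x ⟨hx, ⟨k, hk⟩, m, hm0, hm, hxm⟩
      exact ⟨hx, ⟨k, hk.2⟩, m, hm0, hm, hxm.2⟩
  obtain ⟨x, hx⟩ := IsCompact.nonempty_iInter_of_directed_nonempty_isCompact_isClosed C hdir hne
    (fun W => (hcl W).isCompact) hcl
  rw [Set.mem_iInter] at hx
  have hxg : x ∈ lcCl g := (hx ⟨⊤, inferInstance, isOpen_univ⟩).1
  refine ⟨x, hxg, x⁻¹ * g, (lcCl g).mul_mem ((lcCl g).inv_mem hxg) (prof_self_mem_cl g),
    (mul_inv_cancel_left x g).symm, ?_, ?_⟩
  · intro V hV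
    obtain ⟨W, hWn, hWo, hWV⟩ := prof_exists_normal_le hV
    obtain ⟨k, hk⟩ := (hx ⟨W, hWn, hWo⟩).2.1
    exact ⟨k, hWV hk⟩
  · intro V hV
    obtain ⟨W, hWn, hWo, hWV⟩ := prof_exists_normal_le hV
    obtain ⟨m, hm0, hm, hxm⟩ := (hx ⟨W, hWn, hWo⟩).2.2
    exact ⟨m, hm0, hm, hWV hxm⟩

end

end Claimed.Agent.R239
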