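/-
Row 239, package LC (local correspondence, Thm 2.4').  Sub-captain: helper75.
FILE LC/KUM_a.lean = subtask LC.KUM-a.  ONE OWNER (see table subtask); the owner replaces every sorry IN PLACE
(statements are frozen: ask helper75 before changing one) and may add private helper lemmas / helper files
LC/KUM_a_*.lean.  You may import further LC files that do not (transitively) import this one.
Notation of the sketches: G' = Gal(E/N), v_P = lcv P, D_P = decomp N P, I_P = inert N P, cl(τ) = lcCl τ,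
K_U = fld U, K_U^h = fld (U ⊓ D_P) (henselisation of K_U at P inside E).  Labels (P4, V3, L1, ...) refer to
the doc-strings of the other LC files; index: LC/Chain.lean.
-/
import Claimed.Agent.R239.LC.Basic

set_option autoImplicit false

namespace Claimed.Agent.R239

open NumberField
open scoped Pointwise

section Helpers

theorem lc_kuma_pow_eq_iff {E : Type*} [Field E] {ℓ : ℕ} {ζ : E} (hζ : IsPrimitiveRoot ζ ℓ)
    (hℓ : 0 < ℓ) (n m : ℕ) : ζ ^ n = ζ ^ m ↔ (n : ZMod ℓ) = (m : ZMod ℓ) := by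
  rw [ZMod.natCast_eq_natCast_iff]
  have h1 : ∀ k : ℕ, ζ ^ (k % ℓ) = ζ ^ k := by
    intro k
    have := pow_mod_orderOf ζ k
    rwa [← hζ.eq_orderOf] at this
  constructor
  · intro h
    rw [← h1 n, ← h1 m] at h
    exact hζ.pow_inj (Nat.mod_lt _ hℓ) (Nat.mod_lt _ hℓ) h
  · intro h
    rw [← h1 n, ← h1 m]
    exact congrArg _ h

theorem lc_kuma_pow_val {E : Type*} [Field E] {ℓ : ℕ} [NeZero ℓ] {ζ : E} (hζ : IsPrimitiveRoot ζ ℓ)
    (n : ℕ) : ζ ^ ((n : ZMod ℓ)).val = ζ ^ n := by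
  rw [lc_kuma_pow_eq_iff hζ (Nat.pos_of_ne_zero (NeZero.ne ℓ))]
  simp

theorem lc_kuma_stab_isOpen {N E : Type*} [Field N] [Field E] [Algebra N E] [IsGalois N E] (x : E) :
    IsOpen {g : Gal(E/N) | g x = x} := by
  haveI : FiniteDimensional N (IntermediateField.adjoin N {x}) :=
    IntermediateField.adjoin.finiteDimensional (Algebra.IsIntegral.isIntegral x)
  have h1 := IntermediateField.fixingSubgroup_isOpen (IntermediateField.adjoin N {x})
  have h2 : {g : Gal(E/N) | g x = x}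
      = ((IntermediateField.adjoin N {x}).fixingSubgroup : Set Gal(E/N)) := by
    ext g
    simp only [Set.mem_setOf_eq, SetLike.mem_coe, IntermediateField.mem_fixingSubgroup_iff]
    constructor
    · intro hg y hy
      have hle : IntermediateField.adjoin N {x} ≤ IntermediateField.fixedField (Subgroup.zpowers g) := by
        rw [IntermediateField.adjoin_simple_le_iff, IntermediateField.mem_fixedField_iff]
        rintro _ ⟨k, rfl⟩
        have h3 : g ∈ MulAction.stabilizer Gal(E/N) x := hg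
        exact (Subgroup.zpow_mem _ h3 k : g ^ k ∈ MulAction.stabilizer Gal(E/N) x)
      exact (IntermediateField.mem_fixedField_iff _ _).1 (hle hy) g (Subgroup.mem_zpowers g)
    · intro hg
      exact hg x (IntermediateField.mem_adjoin_simple_self N x)
  rw [h2]
  exact h1

theorem lc_kuma_sum_shift {M : Type*} [AddCommGroup M] (f : ℕ → M) (ℓ : ℕ)
    (hf : ∀ i, f (i + ℓ) = f i) (m : ℕ) :
    ∑ i ∈ Finset.range ℓ, f (i + m) = ∑ i ∈ Finset.range ℓ, f i := by
  induction m with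
  | zero => simp
  | succ m ih =>
    rw [← ih]
    have h1 : ∑ i ∈ Finset.range (ℓ + 1), f (i + m)
        = ∑ i ∈ Finset.range ℓ, f (i + m) + f (ℓ + m) := Finset.sum_range_succ _ _
    have h2 : ∑ i ∈ Finset.range (ℓ + 1), f (i + m)
        = ∑ i ∈ Finset.range ℓ, f (i + 1 + m) + f (0 + m) := Finset.sum_range_succ' _ _
    have h3 : f (ℓ + m) = f (0 + m) := by
      rw [zero_add, add_comm]; exact hf m
    have h4 : ∑ i ∈ Finset.range ℓ, f (i + (m + 1)) = ∑ i ∈ Finset.range ℓ, f (i + 1 + m) :=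
      Finset.sum_congr rfl fun i _ => by congr 1; omega
    rw [h4]
    rw [h1, h3] at h2
    exact (add_right_cancel h2).symm

end Helpers

section

variable {N E : Type*} [Field N] [NumberField N] [Field E] [Algebra N E] [IsGalois N E]
variable {ℓ : ℕ} [Fact ℓ.Prime]

/-- K1.  Sketch: `c = 1`: `α = 1`.  Else pick `s` with `c s` a generator, `x` with trivial
stabiliser issues avoided by Dedekind independence: `α = ∑_{i<ℓ} ζ^(-i c(s)) s^i x ≠ 0` for some
`x ∈ fld (ker c)`; `ker c` is open in `H`. -/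
theorem kum_exists {H : Subgroup Gal(E/N)} (hH : IsClosed (H : Set Gal(E/N))) {ζ : E}
    (hζ : IsPrimitiveRoot ζ ℓ) (hζH : ζ ∈ fld H) (c : H →* Multiplicative (ZMod ℓ))
    (hc : Continuous c) :
    ∃ α : E, α ≠ 0 ∧ α ^ ℓ ∈ fld H ∧
      ∀ h : H, h.1 α = ζ ^ (Multiplicative.toAdd (c h)).val * α := by
  classical
  have hp : ℓ.Prime := Fact.out
  haveI : NeZero ℓ := ⟨hp.ne_zero⟩
  have hζ0 : ζ ≠ 0 := hζ.ne_zero hp.ne_zero
  by_cases htriv : ∀ h, c h = 1
  · refine ⟨1, one_ne_zero, by rw [one_pow]; exact one_mem _, fun h => ?_⟩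
    rw [htriv h]
    simp
  push Not at htriv
  obtain ⟨h₀, hh₀⟩ := htriv
  set m₀ : ZMod ℓ := Multiplicative.toAdd (c h₀) with hm₀
  have hm₀0 : m₀ ≠ 0 := fun h => hh₀ (by
    have : Multiplicative.ofAdd m₀ = Multiplicative.ofAdd 0 := by rw [h]
    simpa [hm₀] using this)
  let s : H := h₀ ^ (m₀⁻¹).val
  have hs : Multiplicative.toAdd (c s) = 1 := by
    change Multiplicative.toAdd (c (h₀ ^ (m₀⁻¹).val)) = 1
    rw [map_pow, toAdd_pow, nsmul_eq_mul, ZMod.natCast_zmod_val, ← hm₀, inv_mul_cancel₀ hm₀0]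
  have hspow : ∀ n : ℕ, Multiplicative.toAdd (c (s ^ n)) = (n : ZMod ℓ) := by
    intro n
    rw [map_pow, toAdd_pow, hs, nsmul_eq_mul, mul_one]
  -- the kernel, as a closed subgroup of the Galois group
  let Kc : Subgroup Gal(E/N) := c.ker.map H.subtype
  have hKc : IsClosed (Kc : Set Gal(E/N)) := by
    have h1 : IsClosed (c.ker : Set H) := by
      have : (c.ker : Set H) = c ⁻¹' {1} := by
        ext h; simp [MonoidHom.mem_ker]
      rw [this]
      exact isClosed_singleton.preimage hc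
    have h2 : (Kc : Set Gal(E/N)) = Subtype.val '' (c.ker : Set H) := by
      simp [Kc, Subgroup.coe_map]
    rw [h2]
    exact hH.isClosedEmbedding_subtypeVal.isClosedMap _ h1
  have hfix : (fld Kc).fixingSubgroup = Kc :=
    InfiniteGalois.fixingSubgroup_fixedField (⟨Kc, hKc⟩ : ClosedSubgroup Gal(E/N))
  have hker_fix : ∀ g : H, c g = 1 → ∀ x ∈ fld Kc, g.1 x = x := by
    intro g hg x hx
    exact (IntermediateField.mem_fixedField_iff _ _).1 hx g.1 ⟨g, hg, rfl⟩
  -- Dedekind independence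
  let φ : Fin ℓ → (fld Kc →* E) := fun i =>
    { toFun := fun x => (s.1 ^ (i : ℕ)) x.1
      map_one' := by simp
      map_mul' := by intro x y; simp }
  have hφinj : Function.Injective φ := by
    intro i j hij
    have h1 : ∀ x ∈ fld Kc, (s.1 ^ (i : ℕ)) x = (s.1 ^ (j : ℕ)) x := fun x hx =>
      DFunLike.congr_fun hij (⟨x, hx⟩ : fld Kc)
    have h2 : (s.1 ^ (j : ℕ))⁻¹ * s.1 ^ (i : ℕ) ∈ (fld Kc).fixingSubgroup := by
      rw [IntermediateField.mem_fixingSubgroup_iff]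
      intro x hx
      rw [AlgEquiv.mul_apply, h1 x hx]
      exact AlgEquiv.symm_apply_apply _ _
    rw [hfix] at h2
    obtain ⟨k, hk, hk'⟩ := h2
    have h3 : k = (s ^ (j : ℕ))⁻¹ * s ^ (i : ℕ) := Subtype.ext hk'
    have h4 : c ((s ^ (j : ℕ))⁻¹ * s ^ (i : ℕ)) = 1 := by rw [← h3]; exact hk
    have h5 : Multiplicative.toAdd (c ((s ^ (j : ℕ))⁻¹ * s ^ (i : ℕ))) = 0 := by rw [h4]; rfl
    rw [map_mul c, map_inv c, toAdd_mul, toAdd_inv, hspow, hspow] at h5
    have h6 : ((i : ℕ) : ZMod ℓ) = ((j : ℕ) : ZMod ℓ) := by linear_combination h5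
    have h7 := congrArg ZMod.val h6
    rw [ZMod.val_natCast_of_lt i.2, ZMod.val_natCast_of_lt j.2] at h7
    exact Fin.ext h7
  have hli : LinearIndependent E (fun i : Fin ℓ => (φ i : fld Kc → E)) :=
    (linearIndependent_monoidHom (fld Kc) E).comp φ hφinj
  have hex : ∃ x : fld Kc, ∑ i : Fin ℓ, (ζ⁻¹) ^ (i : ℕ) * (s.1 ^ (i : ℕ)) x.1 ≠ 0 := by
    by_contra hcon
    push Not at hcon
    have h1 : ∑ i : Fin ℓ, ((ζ⁻¹) ^ (i : ℕ)) • (φ i : fld Kc → E) = 0 := by
      funext x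
      rw [Finset.sum_apply]
      exact hcon x
    have h2 := (Fintype.linearIndependent_iff.1 hli) _ h1 ⟨0, hp.pos⟩
    simp at h2
  obtain ⟨x, hx⟩ := hex
  let f : ℕ → E := fun i => (ζ⁻¹) ^ i * (s.1 ^ i) x.1
  rw [Fin.sum_univ_eq_sum_range f ℓ] at hx
  have hper : ∀ i, f (i + ℓ) = f i := by
    intro i
    have h1 : (s.1 ^ ℓ) x.1 = x.1 := by
      refine hker_fix (s ^ ℓ) ?_ x.1 x.2
      have : Multiplicative.toAdd (c (s ^ ℓ)) = 0 := by rw [hspow]; simp
      exact this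
    change (ζ⁻¹) ^ (i + ℓ) * (s.1 ^ (i + ℓ)) x.1 = (ζ⁻¹) ^ i * (s.1 ^ i) x.1
    rw [pow_add, pow_add, AlgEquiv.mul_apply, h1, inv_pow ζ ℓ, hζ.pow_eq_one, inv_one, mul_one]
  have hζH' := (IntermediateField.mem_fixedField_iff _ _).1 hζH
  have hact : ∀ h : H, h.1 (∑ i ∈ Finset.range ℓ, f i)
      = ζ ^ (Multiplicative.toAdd (c h)).val * ∑ i ∈ Finset.range ℓ, f i := by
    intro h
    set m : ℕ := (Multiplicative.toAdd (c h)).val with hm
    have hmc : (m : ZMod ℓ) = Multiplicative.toAdd (c h) := ZMod.natCast_zmod_val _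
    have h1 : ∀ i : ℕ, h.1 ((s.1 ^ i) x.1) = (s.1 ^ (i + m)) x.1 := by
      intro i
      have h2 : c ((s ^ (i + m))⁻¹ * h * s ^ i) = 1 := by
        have : Multiplicative.toAdd (c ((s ^ (i + m))⁻¹ * h * s ^ i)) = 0 := by
          rw [map_mul c, map_mul c, map_inv c, toAdd_mul, toAdd_mul, toAdd_inv, hspow, hspow, ← hmc]
          push_cast
          ring
        exact this
      have h3 := hker_fix _ h2 x.1 x.2
      have h4 : (s.1 ^ (i + m))⁻¹ (h.1 ((s.1 ^ i) x.1)) = x.1 := h3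
      have h5 := congrArg (s.1 ^ (i + m)) h4
      rwa [← AlgEquiv.mul_apply, mul_inv_cancel, AlgEquiv.one_apply] at h5
    have h6 : ∀ i ∈ Finset.range ℓ, h.1 (f i) = ζ ^ m * f (i + m) := by
      intro i _
      change h.1 ((ζ⁻¹) ^ i * (s.1 ^ i) x.1) = ζ ^ m * ((ζ⁻¹) ^ (i + m) * (s.1 ^ (i + m)) x.1)
      rw [map_mul, map_pow, map_inv₀, hζH' h.1 h.2, h1 i]
      have h7 : ζ ^ m * (ζ⁻¹) ^ (i + m) = (ζ⁻¹) ^ i := by
        rw [pow_add, inv_pow ζ m]
        field_simp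
      rw [← mul_assoc, h7]
    rw [map_sum, Finset.sum_congr rfl h6, ← Finset.mul_sum, lc_kuma_sum_shift f ℓ hper m]
  refine ⟨∑ i ∈ Finset.range ℓ, f i, hx, ?_, hact⟩
  rw [IntermediateField.mem_fixedField_iff]
  intro g hg
  rw [map_pow, hact ⟨g, hg⟩, mul_pow, pow_right_comm, hζ.pow_eq_one, one_pow, one_mul]

end

section

variable {N E : Type*} [Field N] [NumberField N] [Field E] [Algebra N E] [IsGalois N E]
variable {ℓ : ℕ} [Fact ℓ.Prime]

/-- K2.  Sketch: `h α / α` is an `ℓ`-th root of unity; multiplicative since `ζ` is fixed;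
continuous since the stabiliser of `α` is open. -/
theorem kum_char {H : Subgroup Gal(E/N)} {ζ : E} (hζ : IsPrimitiveRoot ζ ℓ) (hζH : ζ ∈ fld H)
    {α : E} (hα : α ≠ 0) (hαH : α ^ ℓ ∈ fld H) :
    ∃ c : H →* Multiplicative (ZMod ℓ), Continuous c ∧
      ∀ h : H, h.1 α = ζ ^ (Multiplicative.toAdd (c h)).val * α := by
  have hp : ℓ.Prime := Fact.out
  haveI : NeZero ℓ := ⟨hp.ne_zero⟩
  rw [IntermediateField.mem_fixedField_iff] at hζH hαH
  have hex : ∀ h : H, ∃ i < ℓ, ζ ^ i = h.1 α / α := by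
    intro h
    refine hζ.eq_pow_of_pow_eq_one ?_
    rw [div_pow, ← map_pow, hαH h.1 h.2, div_self (pow_ne_zero _ hα)]
  choose idx hidx1 hidx2 using hex
  have hact : ∀ h : H, h.1 α = ζ ^ idx h * α := by
    intro h
    rw [hidx2 h, div_mul_cancel₀ _ hα]
  have hmul : ∀ h h' : H, (idx (h * h') : ZMod ℓ) = (idx h : ZMod ℓ) + (idx h' : ZMod ℓ) := by
    intro h h'
    have h1 : ζ ^ idx (h * h') * α = ζ ^ (idx h + idx h') * α := by
      rw [← hact (h * h')]
      change h.1 (h'.1 α) = _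
      rw [hact h', map_mul, map_pow, hζH h.1 h.2, hact h, pow_add]
      ring
    have h2 := mul_right_cancel₀ hα h1
    rw [lc_kuma_pow_eq_iff hζ hp.pos] at h2
    rw [h2]
    push_cast
    rfl
  let c : H →* Multiplicative (ZMod ℓ) :=
    MonoidHom.mk' (fun h => Multiplicative.ofAdd (idx h : ZMod ℓ)) (fun h h' => by
      rw [hmul h h']; rfl)
  have hc : ∀ h : H, Multiplicative.toAdd (c h) = (idx h : ZMod ℓ) := fun h => rfl
  refine ⟨c, ?_, fun h => ?_⟩
  · refine continuous_of_continuousAt_one c ?_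
    have hopen : IsOpen {h : H | h.1 α = α} :=
      (lc_kuma_stab_isOpen (N := N) α).preimage continuous_subtype_val
    have hmem : {h : H | h.1 α = α} ∈ nhds (1 : H) := hopen.mem_nhds (by simp)
    refine Filter.Tendsto.congr' ?_ tendsto_const_nhds
    filter_upwards [hmem] with h hh
    have h1 : ζ ^ idx h = ζ ^ 0 := by
      rw [hidx2 h, hh, div_self hα, pow_zero]
    have h2 : idx h = 0 := hζ.pow_inj (hidx1 h) hp.pos h1
    rw [map_one]
    change (1 : Multiplicative (ZMod ℓ)) = Multiplicative.ofAdd (idx h : ZMod ℓ)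
    rw [h2]
    simp
  · rw [hc, ZMod.val_natCast_of_lt (hidx1 h)]
    exact hact h

end

section

variable {N E : Type*} [Field N] [NumberField N] [Field E] [Algebra N E] [IsGalois N E]
variable {ℓ : ℕ} [Fact ℓ.Prime]

/-- K3.  Sketch: `h ζ = ζ^a`; `h^(ℓ^k)` fixes `ζ`, so `a^(ℓ^k) = 1 = a^(ℓ-1)` in `(ℤ/ℓ)ˣ`. -/
theorem kum_zeta_fixed {h : Gal(E/N)} (hh : IsProL ℓ h) {ζ : E} (hζ : ζ ^ ℓ = 1) : h ζ = ζ := by
  have hp : ℓ.Prime := Fact.out
  haveI : NeZero ℓ := ⟨hp.ne_zero⟩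
  by_cases h1 : ζ = 1
  · rw [h1, map_one]
  have hprim : IsPrimitiveRoot ζ ℓ := by
    have := IsPrimitiveRoot.orderOf ζ
    rwa [orderOf_eq_prime hζ h1] at this
  obtain ⟨a, _, hha⟩ := hprim.eq_pow_of_pow_eq_one (ξ := h ζ) (by rw [← map_pow, hζ, map_one])
  have hpow : ∀ n : ℕ, (h ^ n) ζ = ζ ^ (a ^ n) := by
    intro n
    induction n with
    | zero => simp
    | succ n ih =>
      rw [pow_succ', AlgEquiv.mul_apply, ih, map_pow, ← hha, ← pow_mul, pow_succ']
  let V : Subgroup Gal(E/N) := MulAction.stabilizer Gal(E/N) ζ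
  have hV : IsOpen (V : Set Gal(E/N)) := lc_kuma_stab_isOpen ζ
  obtain ⟨k, hk⟩ := hh V hV
  have hk' : (h ^ ℓ ^ k) ζ = ζ := hk
  rw [hpow] at hk'
  have h2 : ζ ^ (a ^ ℓ ^ k) = ζ ^ 1 := by rw [hk', pow_one]
  rw [lc_kuma_pow_eq_iff hprim hp.pos] at h2
  push_cast at h2
  rw [ZMod.pow_card_pow] at h2
  have h3 : ζ ^ a = ζ ^ 1 := by
    rw [lc_kuma_pow_eq_iff hprim hp.pos]
    push_cast
    exact h2
  rw [← hha, h3, pow_one]

end

end Claimed.Agent.R239
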