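/-
Row 239, package LC (local correspondence, Thm 2.4').  Sub-captain: helper75.
FILE LC/VAL_a.lean = subtask LC.VAL-a.  ONE OWNER (see table subtask; owner: helper199); the owner replaces every sorry IN PLACE
(statements are frozen: ask helper75 before changing one) and may add private helper lemmas / helper files
LC/VAL_a_*.lean.  You may import further LC files that do not (transitively) import this one.
Notation of the sketches: G' = Gal(E/N), v_P = lcv P, D_P = decomp N P, I_P = inert N P, cl(τ) = lcCl τ,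
K_U = fld U, K_U^h = fld (U ⊓ D_P) (henselisation of K_U at P inside E).  Labels (P4, V3, L1, ...) refer to
the doc-strings of the other LC files; index: LC/Chain.lean.
-/
import Claimed.Agent.R239.LC.Basic

set_option autoImplicit false

namespace Claimed.Agent.R239

open NumberField
open scoped Pointwise

section

variable {N E : Type*} [Field N] [NumberField N] [Field E] [Algebra N E] [IsGalois N E]
  [CharZero E] [Algebra.IsAlgebraic ℚ E]
variable (P : Ideal (𝓞 E)) [P.IsMaximal]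

/-- V0: `v_P x ≤ 1` iff `x` lies in the localisation. -/
theorem lc_val_le_one_iff (x : E) : lcv P x ≤ 1 ↔ x ∈ lcLoc P :=
  (lcVS P).valuation_le_one_iff x

/-- V0': comparison of values. -/
theorem lc_val_le_iff {x y : E} (hy : y ≠ 0) : lcv P x ≤ lcv P y ↔ x / y ∈ lcLoc P := by
  rw [← lc_val_le_one_iff, map_div₀, div_le_one₀ (zero_lt_iff.2 ((lcv P).ne_zero_iff.2 hy))]

theorem lc_one_notMem : (1 : 𝓞 E) ∉ P := fun h =>
  ‹P.IsMaximal›.ne_top ((Ideal.eq_top_iff_one P).2 h)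

/-- V1. -/
theorem lc_val_le_one (y : 𝓞 E) : lcv P (y : E) ≤ 1 :=
  (lc_val_le_one_iff P _).2 ⟨y, 1, lc_one_notMem P, by simp⟩

end

section

variable {N E : Type*} [Field N] [NumberField N] [Field E] [Algebra N E] [IsGalois N E]
  [CharZero E] [Algebra.IsAlgebraic ℚ E]
variable (P : Ideal (𝓞 E)) [P.IsMaximal]

/-- V2.  Sketch: `y ∈ P` iff `y` is not a unit of the localisation. -/
theorem lc_val_lt_one_iff (y : 𝓞 E) : lcv P (y : E) < 1 ↔ y ∈ P := by
  constructor
  · intro h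
    by_contra hy
    have hy0 : (y : E) ≠ 0 := by
      intro h0
      apply hy
      rw [(RingOfIntegers.coe_eq_zero_iff).1 h0]
      exact P.zero_mem
    have h1 : lcv P ((y : E)⁻¹) ≤ 1 :=
      (lc_val_le_one_iff P _).2 ⟨1, y, hy, by rw [inv_mul_cancel₀ hy0]; simp⟩
    rw [map_inv₀, inv_le_one₀ (zero_lt_iff.2 ((lcv P).ne_zero_iff.2 hy0))] at h1
    exact absurd h (not_lt.2 h1)
  · intro hy
    by_contra h
    rw [not_lt] at h
    have hy0 : (y : E) ≠ 0 := by
      intro h0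
      rw [h0, map_zero] at h
      exact absurd h (not_le.2 zero_lt_one)
    have h1 : lcv P ((y : E)⁻¹) ≤ 1 := by
      rw [map_inv₀]
      exact inv_le_one_of_one_le₀ h
    obtain ⟨a, s, hs, has⟩ := (lc_val_le_one_iff P _).1 h1
    apply hs
    have : s = a * y := by
      apply RingOfIntegers.ext
      have e : ((a * y : 𝓞 E) : E) = (a : E) * (y : E) := map_mul _ _ _
      rw [e, ← has]
      field_simp
    rw [this]
    exact P.mul_mem_left a hy

/-- `v_P y = 1` for integers `y ∉ P`. -/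
theorem lc_val_eq_one {y : 𝓞 E} (hy : y ∉ P) : lcv P (y : E) = 1 :=
  le_antisymm (lc_val_le_one P y) (not_lt.1 fun h => hy ((lc_val_lt_one_iff P y).1 h))

end

section

variable {N E : Type*} [Field N] [NumberField N] [Field E] [Algebra N E] [IsGalois N E]
  [CharZero E] [Algebra.IsAlgebraic ℚ E]
variable (P : Ideal (𝓞 E)) [P.IsMaximal]

/-- V6 (residue characteristic). -/
theorem lc_exists_over : ∃ p : ℕ, p.Prime ∧ Over P p := by
  have hmax : (P.comap (algebraMap ℤ (𝓞 E))).IsMaximal :=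
    Ideal.isMaximal_comap_of_isIntegral_of_isMaximal P
  obtain ⟨d, hd⟩ := (IsPrincipalIdealRing.principal (P.comap (algebraMap ℤ (𝓞 E)))).principal
  have hd' : P.comap (algebraMap ℤ (𝓞 E)) = Ideal.span {d} := hd
  have hd0 : d ≠ 0 := by
    rintro rfl
    rw [Ideal.span_singleton_eq_bot.2 rfl] at hd'
    rw [hd'] at hmax
    exact Int.not_isField (Ring.isField_iff_maximal_bot.2 hmax)
  have hprime : Prime d := by
    rw [← Ideal.span_singleton_prime hd0, ← hd']
    exact hmax.isPrime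
  refine ⟨d.natAbs, Int.prime_iff_natAbs_prime.1 hprime, ?_⟩
  have hmem : (d.natAbs : ℤ) ∈ P.comap (algebraMap ℤ (𝓞 E)) := by
    rw [hd', Ideal.mem_span_singleton]
    exact Int.dvd_natAbs.2 dvd_rfl
  have h2 : algebraMap ℤ (𝓞 E) (d.natAbs : ℤ) ∈ P := hmem
  rw [Over]
  simpa using h2

end

section

variable {N E : Type*} [Field N] [NumberField N] [Field E] [Algebra N E] [IsGalois N E]
  [CharZero E] [Algebra.IsAlgebraic ℚ E]
variable (P : Ideal (𝓞 E)) [P.IsMaximal]

theorem lc_val_ne_zero {x : E} (hx : x ≠ 0) : lcv P x ≠ 0 := (lcv P).ne_zero_iff.2 hx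

theorem lc_val_pos {x : E} (hx : x ≠ 0) : 0 < lcv P x := zero_lt_iff.2 (lc_val_ne_zero P hx)

/-- the residue characteristic has value `< 1`. -/
theorem lc_val_over_lt_one {p : ℕ} (hp : Over P p) : lcv P (p : E) < 1 := by
  have := (lc_val_lt_one_iff P (p : 𝓞 E)).2 hp
  simpa using this

/-- natural numbers prime to the residue characteristic are units. -/
theorem lc_val_natCast_eq_one {p : ℕ} (hp : Over P p) {a : ℕ} (ha : a.Coprime p) :
    lcv P (a : E) = 1 := by
  have h : (a : 𝓞 E) ∉ P := by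
    intro hmem
    apply lc_one_notMem P
    have hbez := Nat.gcd_eq_gcd_ab a p
    rw [ha, Nat.cast_one] at hbez
    have e : (1 : 𝓞 E) = (a : 𝓞 E) * ((Nat.gcdA a p : ℤ) : 𝓞 E) + (p : 𝓞 E) * ((Nat.gcdB a p : ℤ) : 𝓞 E) := by
      have := congrArg (Int.cast : ℤ → 𝓞 E) hbez
      push_cast at this
      exact this
    rw [e]
    exact P.add_mem (P.mul_mem_right _ hmem) (P.mul_mem_right _ hp)
  have := lc_val_eq_one P h
  simpa using this

/-- the value of a nonzero integer is a power of the value of `p`. -/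
theorem lc_val_intCast {p : ℕ} (hpp : p.Prime) (hp : Over P p) {a : ℤ} (ha : a ≠ 0) :
    ∃ k : ℕ, lcv P (a : E) = lcv P (p : E) ^ k := by
  obtain ⟨k, m, hm, hkm⟩ := Nat.exists_eq_pow_mul_and_not_dvd (Int.natAbs_ne_zero.2 ha) p hpp.ne_one
  refine ⟨k, ?_⟩
  have h1 : lcv P (a : E) = lcv P ((a.natAbs : ℕ) : E) := by
    rcases Int.natAbs_eq a with h | h
    · conv_lhs => rw [h]
      simp
    · conv_lhs => rw [h]
      simp
  rw [h1, hkm]
  push_cast
  rw [map_mul, map_pow, lc_val_natCast_eq_one P hp ((Nat.Prime.coprime_iff_not_dvd hpp).2 hm).symm,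
    mul_one]

open Polynomial in
/-- V3 for `π = p`. -/
theorem lc_val_commens_over {p : ℕ} (hpp : p.Prime) (hp : Over P p) {x : E} (hx : x ≠ 0) :
    ∃ s : ℕ, 0 < s ∧ ∃ r : ℤ, lcv P x ^ s = lcv P (p : E) ^ r := by
  obtain ⟨f, hf0, hfx⟩ := (IsFractionRing.isAlgebraic_iff ℤ ℚ E).2
    (Algebra.IsAlgebraic.isAlgebraic (R := ℚ) x)
  have hp0 : lcv P (p : E) ≠ 0 := lc_val_ne_zero P (Nat.cast_ne_zero.2 hpp.ne_zero)
  have hx0 : lcv P x ≠ 0 := lc_val_ne_zero P hx
  have hsum : ∑ i ∈ f.support, ((f.coeff i : ℤ) : E) * x ^ i = 0 := by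
    rw [← hfx, aeval_def, eval₂_eq_sum, sum_def]
    simp
  have hne : f.support.Nonempty := nonempty_support_iff.2 hf0
  obtain ⟨i, hi, hmax⟩ := Finset.exists_max_image f.support
    (fun i => lcv P (((f.coeff i : ℤ) : E) * x ^ i)) hne
  have hTi : lcv P (((f.coeff i : ℤ) : E) * x ^ i) ≠ 0 :=
    lc_val_ne_zero P (mul_ne_zero (Int.cast_ne_zero.2 (mem_support_iff.1 hi)) (pow_ne_zero _ hx))
  obtain ⟨j, hj, hji, hjeq⟩ : ∃ j ∈ f.support, j ≠ i ∧
      lcv P (((f.coeff j : ℤ) : E) * x ^ j) = lcv P (((f.coeff i : ℤ) : E) * x ^ i) := by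
    by_contra hcon
    have hlt : lcv P (∑ j ∈ f.support.erase i, ((f.coeff j : ℤ) : E) * x ^ j)
        < lcv P (((f.coeff i : ℤ) : E) * x ^ i) := by
      apply Valuation.map_sum_lt _ hTi
      intro j hj
      exact lt_of_le_of_ne (hmax j (Finset.mem_of_mem_erase hj)) fun h =>
        hcon ⟨j, Finset.mem_of_mem_erase hj, Finset.ne_of_mem_erase hj, h⟩
    have e : ∑ j ∈ f.support.erase i, ((f.coeff j : ℤ) : E) * x ^ j
        = - (((f.coeff i : ℤ) : E) * x ^ i) := by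
      rw [← Finset.add_sum_erase _ _ hi] at hsum
      linear_combination hsum
    rw [e, Valuation.map_neg] at hlt
    exact lt_irrefl _ hlt
  obtain ⟨ki, hki⟩ := lc_val_intCast P hpp hp (mem_support_iff.1 hi)
  obtain ⟨kj, hkj⟩ := lc_val_intCast P hpp hp (mem_support_iff.1 hj)
  rw [map_mul, map_mul, map_pow, map_pow, hki, hkj] at hjeq
  rcases lt_or_gt_of_ne hji with h | h
  · refine ⟨i - j, by omega, (kj : ℤ) - ki, ?_⟩
    rw [pow_sub₀ _ hx0 h.le, zpow_sub₀ hp0, zpow_natCast, zpow_natCast, div_eq_mul_inv,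
      mul_inv_eq_iff_eq_mul₀ (pow_ne_zero _ hx0), eq_comm, mul_right_comm,
      mul_inv_eq_iff_eq_mul₀ (pow_ne_zero _ hp0), hjeq, mul_comm]
  · refine ⟨j - i, by omega, (ki : ℤ) - kj, ?_⟩
    rw [pow_sub₀ _ hx0 h.le, zpow_sub₀ hp0, zpow_natCast, zpow_natCast, div_eq_mul_inv,
      mul_inv_eq_iff_eq_mul₀ (pow_ne_zero _ hx0), eq_comm, mul_right_comm,
      mul_inv_eq_iff_eq_mul₀ (pow_ne_zero _ hp0), ← hjeq, mul_comm]

/-- V3 (value group has rational rank one).  Sketch: in the number field `K = ℚ(π, x)` with the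
prime `p = P ∩ K`: `s = ord_p π`, `r = ord_p x`; `x^s / π^r` is a `p`-unit.
(Proof given here: two terms of an integer equation of `x` have the same value, so a power of `v x`
is a power of `v p`; the same for `π`.) -/
theorem lc_val_commens {π x : E} (hπ : lcv P π < 1) (hπ0 : π ≠ 0) (hx : x ≠ 0) :
    ∃ s : ℕ, 0 < s ∧ ∃ r : ℤ, lcv P (x ^ s) = lcv P (π ^ r) := by
  obtain ⟨p, hpp, hp⟩ := lc_exists_over P
  obtain ⟨s, hs, r, hr⟩ := lc_val_commens_over P hpp hp hx
  obtain ⟨s', hs', r', hr'⟩ := lc_val_commens_over P hpp hp hπ0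
  have hp0 : lcv P (p : E) ≠ 0 := lc_val_ne_zero P (Nat.cast_ne_zero.2 hpp.ne_zero)
  have hp1 : lcv P (p : E) < 1 := lc_val_over_lt_one P hp
  have hr'pos : 0 < r' := by
    by_contra hcon
    rw [not_lt] at hcon
    have h1 : lcv P π ^ s' < 1 := pow_lt_one₀ zero_le hπ hs'.ne'
    rw [hr'] at h1
    obtain ⟨n, hn⟩ := Int.eq_ofNat_of_zero_le (neg_nonneg.2 hcon)
    have h2 : r' = -(n : ℤ) := by omega
    rw [h2, zpow_neg, zpow_natCast] at h1
    have h3 : lcv P (p : E) ^ n ≤ 1 := pow_le_one₀ zero_le hp1.le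
    have h4 : 1 ≤ (lcv P (p : E) ^ n)⁻¹ := (one_le_inv₀ (zero_lt_iff.2 (pow_ne_zero _ hp0))).2 h3
    exact absurd h1 (not_lt.2 h4)
  obtain ⟨n, rfl⟩ := Int.eq_ofNat_of_zero_le hr'pos.le
  have hn : 0 < n := by exact_mod_cast hr'pos
  refine ⟨s * n, Nat.mul_pos hs hn, (s' : ℤ) * r, ?_⟩
  rw [map_pow, map_zpow₀, pow_mul, hr, zpow_mul, zpow_natCast, hr', ← zpow_natCast, ← zpow_mul,
    ← zpow_mul, mul_comm]

end

section

variable {N E : Type*} [Field N] [NumberField N] [Field E] [Algebra N E] [IsGalois N E]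
  [CharZero E] [Algebra.IsAlgebraic ℚ E]
variable (P : Ideal (𝓞 E)) [P.IsMaximal]

/-- V4 (archimedean).  Sketch: from V3. -/
theorem lc_val_arch {π t : E} (hπ : lcv P π < 1) (ht : t ≠ 0) :
    ∃ n : ℕ, lcv P (π ^ n) ≤ lcv P t := by
  by_cases hπ0 : π = 0
  · exact ⟨1, by rw [hπ0]; simp⟩
  obtain ⟨s, hs, r, hr⟩ := lc_val_commens P hπ hπ0 ht
  rcases le_or_gt 1 (lcv P t) with h1 | h1
  · exact ⟨0, by simpa using h1⟩
  refine ⟨r.toNat, ?_⟩
  have h2 : lcv P t ^ s ≤ lcv P t := pow_le_of_le_one zero_le h1.le hs.ne'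
  have h3 : lcv P π ^ (r.toNat : ℤ) ≤ lcv P π ^ r :=
    zpow_le_zpow_right_of_le_one₀ (lc_val_pos P hπ0) hπ.le (Int.self_le_toNat r)
  rw [map_pow, map_zpow₀] at hr
  rw [map_pow, ← zpow_natCast]
  exact h3.trans (hr ▸ h2)

end

section

variable {N E : Type*} [Field N] [NumberField N] [Field E] [Algebra N E] [IsGalois N E]
  [CharZero E] [Algebra.IsAlgebraic ℚ E]
variable (P : Ideal (𝓞 E)) [P.IsMaximal]

/-- the decomposition group preserves the localisation. -/
theorem lc_loc_galois {g : Gal(E/N)} (hg : g ∈ decomp N P) {x : E} (hx : x ∈ lcLoc P) :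
    g x ∈ lcLoc P := by
  obtain ⟨a, s, hs, h⟩ := hx
  have hg' : g • P = P := hg
  refine ⟨g • a, g • s, ?_, ?_⟩
  · rw [← hg', Ideal.smul_mem_pointwise_smul_iff]
    exact hs
  · show g x * g (s : E) = g (a : E)
    rw [← map_mul, h]

/-- V5.  Sketch: `g` maps `lcLoc P` onto itself, so `v(x) ≤ v(y) ↔ v(gx) ≤ v(gy)`; if
`v(gx) < v(x)` then with V3 (`π = p`, fixed by `g`) `v(p)^r = v(g x)^s < v(x)^s = v(p)^r`. -/
theorem lc_val_galois {g : Gal(E/N)} (hg : g ∈ decomp N P) (x : E) : lcv P (g x) = lcv P x := by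
  by_cases hx : x = 0
  · rw [hx, map_zero]
  obtain ⟨p, hpp, hp⟩ := lc_exists_over P
  obtain ⟨s, hs, r, hr⟩ := lc_val_commens_over P hpp hp hx
  have hp0 : (p : E) ≠ 0 := Nat.cast_ne_zero.2 hpp.ne_zero
  have hgx : g x ≠ 0 := (map_ne_zero g).2 hx
  have hgp : g ((p : E) ^ r) = (p : E) ^ r := by rw [map_zpow₀, map_natCast]
  have h1 : x ^ s / (p : E) ^ r ∈ lcLoc P := by
    rw [← lc_val_le_iff P (zpow_ne_zero _ hp0), map_pow, map_zpow₀, hr]
  have h2 : (p : E) ^ r / x ^ s ∈ lcLoc P := by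
    rw [← lc_val_le_iff P (pow_ne_zero _ hx), map_pow, map_zpow₀, hr]
  have h3 := lc_loc_galois P hg h1
  have h4 := lc_loc_galois P hg h2
  rw [map_div₀, map_pow, hgp, ← lc_val_le_iff P (zpow_ne_zero _ hp0), map_pow, map_zpow₀] at h3
  rw [map_div₀, map_pow, hgp, ← lc_val_le_iff P (pow_ne_zero _ hgx), map_pow, map_zpow₀] at h4
  have h5 : lcv P (g x) ^ s = lcv P x ^ s := by rw [hr]; exact le_antisymm h3 h4
  exact (pow_left_inj₀ zero_le zero_le hs.ne').1 h5

end

end Claimed.Agent.R239
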