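/-
Row 239, package LC (local correspondence, Thm 2.4').  Sub-captain: helper75.
FILE LC/LOC_a.lean = subtask LC.LOC-a.  ONE OWNER (see table subtask); the owner replaces every sorry IN PLACE
(statements are frozen: ask helper75 before changing one) and may add private helper lemmas / helper files
LC/LOC_a_*.lean.  You may import further LC files that do not (transitively) import this one.
Notation of the sketches: G' = Gal(E/N), v_P = lcv P, D_P = decomp N P, I_P = inert N P, cl(τ) = lcCl τ,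
K_U = fld U, K_U^h = fld (U ⊓ D_P) (henselisation of K_U at P inside E).  Labels (P4, V3, L1, ...) refer to
the doc-strings of the other LC files; index: LC/Chain.lean.
-/
import Claimed.Agent.R239.LC.VAL_a

set_option autoImplicit false

namespace Claimed.Agent.R239

open NumberField
open scoped Pointwise

section general
variable {E Γ : Type*} [Field E] [LinearOrderedCommGroupWithZero Γ] (V : Valuation E Γ)
  {ℓ : ℕ} [Fact ℓ.Prime]

private lemma loca_val_root_one {μ : E} (h : μ ^ ℓ = 1) : V μ = 1 := by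
  have h1 : V μ ^ ℓ = 1 := by rw [← map_pow, h, map_one]
  exact (pow_eq_one_iff_left (Fact.out : ℓ.Prime).ne_zero).1 h1

private lemma loca_val_one_sub_pow_le {x : E} (hx : V x ≤ 1) (k : ℕ) : V (1 - x ^ k) ≤ V (1 - x) := by
  rw [← mul_neg_geom_sum x k, map_mul]
  refine mul_le_of_le_one_right' ?_
  refine V.map_sum_le (fun i _ => ?_)
  rw [map_pow]
  exact pow_le_one' hx i

private lemma loca_val_one_sub_eq {ζ μ : E} (hζ : IsPrimitiveRoot ζ ℓ) (hμ : IsPrimitiveRoot μ ℓ) :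
    V (1 - μ) = V (1 - ζ) := by
  have hpos : 0 < ℓ := (Fact.out : ℓ.Prime).pos
  have : NeZero ℓ := ⟨hpos.ne'⟩
  obtain ⟨k, -, hk⟩ := hζ.eq_pow_of_pow_eq_one hμ.pow_eq_one
  obtain ⟨j, -, hj⟩ := hμ.eq_pow_of_pow_eq_one hζ.pow_eq_one
  refine le_antisymm ?_ ?_
  · rw [← hk]; exact loca_val_one_sub_pow_le V (loca_val_root_one V hζ.pow_eq_one).le k
  · rw [← hj]; exact loca_val_one_sub_pow_le V (loca_val_root_one V hμ.pow_eq_one).le j

private lemma loca_prim_of_ne_one {μ : E} (h : μ ^ ℓ = 1) (h1 : μ ≠ 1) : IsPrimitiveRoot μ ℓ := by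
  have hp : ℓ.Prime := Fact.out
  exact isPrimitiveRoot_of_mem_nthRootsFinset hp
    ((Polynomial.mem_nthRootsFinset hp.pos 1).2 h) h1

private lemma loca_val_pow_eq {ζ : E} (hζ : IsPrimitiveRoot ζ ℓ) : V (1 - ζ) ^ (ℓ - 1) = V (ℓ : E) := by
  have h1 : (ℓ : E) = ∏ μ ∈ primitiveRoots ℓ E, (1 - μ) := by
    have := Polynomial.cyclotomic_eq_prod_X_sub_primitiveRoots hζ
    have h2 := congrArg (Polynomial.eval 1) this
    rw [Polynomial.eval_one_cyclotomic_prime, Polynomial.eval_prod] at h2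
    simpa using h2
  rw [h1, map_prod]
  rw [Finset.prod_congr rfl (fun μ hμ => loca_val_one_sub_eq V hζ
    ((mem_primitiveRoots (Fact.out : ℓ.Prime).pos).1 hμ))]
  rw [Finset.prod_const, hζ.card_primitiveRoots, Nat.totient_prime Fact.out]

/-- existence of a root close to `1` -/
private lemma loca_exists_close {ζ η u : E} (hζ : IsPrimitiveRoot ζ ℓ) (hη : η ^ ℓ = u)
    (hclose : V (u - 1) < V (ℓ : E) ^ 2) : ∃ c : E, c ^ ℓ = u ∧ V (1 - c) < V (1 - ζ) := by
  have hp : ℓ.Prime := Fact.out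
  by_contra hcon
  push Not at hcon
  have h1 : (1 : E) ^ ℓ - η ^ ℓ = ∏ μ ∈ Polynomial.nthRootsFinset ℓ (1 : E), (1 - μ * η) :=
    hζ.pow_sub_pow_eq_prod_sub_mul 1 η hp.pos
  rw [one_pow, hη] at h1
  have h2 : V (1 - ζ) ^ ℓ ≤ V (1 - u) := by
    rw [h1, map_prod]
    have hcard : V (1 - ζ) ^ ℓ = V (1 - ζ) ^ (Polynomial.nthRootsFinset ℓ (1 : E)).card := by
      rw [hζ.card_nthRootsFinset]
    rw [hcard]
    refine Finset.pow_card_le_prod (N := Γ) _ _ _ (fun μ hμ => ?_)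
    refine hcon (μ * η) ?_
    rw [mul_pow, hη, (Polynomial.mem_nthRootsFinset hp.pos 1).1 hμ, one_mul]
  have hr1 : V (1 - ζ) ≤ 1 := by
    refine le_trans (V.map_sub _ _) (max_le (by simp) (loca_val_root_one V hζ.pow_eq_one).le)
  have h3 : V (ℓ : E) ^ 2 ≤ V (1 - ζ) ^ ℓ := by
    rw [← loca_val_pow_eq V hζ, ← pow_mul]
    refine pow_le_pow_right_of_le_one' hr1 ?_
    have := hp.two_le
    obtain ⟨m, rfl⟩ : ∃ m, ℓ = m + 2 := ⟨ℓ - 2, by omega⟩
    simp
    omega
  rw [V.map_sub_swap] at hclose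
  exact absurd (lt_of_lt_of_le hclose (h3.trans h2)) (lt_irrefl _)

/-- uniqueness of the root close to `1` -/
private lemma loca_unique_close {ζ c c' : E} (hζ : IsPrimitiveRoot ζ ℓ) (hcc : c' ^ ℓ = c ^ ℓ)
    (hc : V (1 - c) < V (1 - ζ)) (hc' : V (1 - c') < V (1 - ζ)) : c' = c := by
  have hr1 : V (1 - ζ) ≤ 1 := by
    refine le_trans (V.map_sub _ _) (max_le (by simp) (loca_val_root_one V hζ.pow_eq_one).le)
  have hVc : V c = 1 := by
    have : c = 1 - (1 - c) := by ring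
    rw [this]
    exact V.map_one_sub_of_lt (lt_of_lt_of_le hc hr1)
  have hc0 : c ≠ 0 := by
    intro h
    rw [h] at hVc
    simp at hVc
  by_contra hne
  have hμ : IsPrimitiveRoot (c' / c) ℓ := by
    refine loca_prim_of_ne_one ?_ ?_
    · rw [div_pow, hcc, div_self (pow_ne_zero _ hc0)]
    · intro h
      exact hne ((div_eq_one_iff_eq hc0).1 h)
  have h1 : V (1 - c' / c) = V (1 - ζ) := loca_val_one_sub_eq V hζ hμ
  have h2 : 1 - c' = (1 - c) + c * (1 - c' / c) := by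
    field_simp
    ring
  have h3 : V (c * (1 - c' / c)) = V (1 - ζ) := by rw [map_mul, hVc, one_mul, h1]
  have h4 : V (1 - c') = V (1 - ζ) := by
    rw [h2, V.map_add_eq_of_lt_right (by rw [h3]; exact hc), h3]
  rw [h4] at hc'
  exact lt_irrefl _ hc'

end general

section

variable {N E : Type*} [Field N] [NumberField N] [Field E] [Algebra N E] [IsGalois N E]
  [CharZero E] [Algebra.IsAlgebraic ℚ E]
variable {ℓ : ℕ} [Fact ℓ.Prime]
variable (P : Ideal (𝓞 E)) [P.IsMaximal]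

/-- L1 (Hensel for `X^ℓ - u`).  Sketch: `η^ℓ = u`, `ζ` primitive, `λ = 1 - ζ`, `v(λ)^(ℓ-1) = v(ℓ)`.
`∏_i (1 - η ζ^i) = 1 - u`; if all `v(1 - η ζ^i) ≥ v(λ)` then `v(1-u) ≥ v(λ)^ℓ ≥ v(ℓ)^2`.  So some
root `c = η ζ^i` has `v(1-c) < v(λ)`; it is the only one (`v(c ζ^k - c) = v(λ)`); `Z` preserves `v`
(V5) and permutes the roots, so it fixes `c`. -/
theorem lc_hensel_root (hE : RadClosed E) {Z : Subgroup Gal(E/N)} (hZ : Z ≤ decomp N P) {u : E}
    (hu : u ∈ fld Z) (hclose : lcv P (u - 1) < lcv P (ℓ : E) ^ 2) :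
    ∃ c ∈ fld Z, c ^ ℓ = u := by
  have hp : ℓ.Prime := Fact.out
  obtain ⟨ζ, hζ⟩ := hE.prim ℓ hp.pos
  obtain ⟨η, hη⟩ := hE.root ℓ hp.pos u
  obtain ⟨c, hcu, hc⟩ := loca_exists_close (lcv P) hζ hη hclose
  refine ⟨c, ?_, hcu⟩
  rw [fld, IntermediateField.mem_fixedField_iff]
  intro g hg
  have hgu : g u = u := by
    rw [fld, IntermediateField.mem_fixedField_iff] at hu
    exact hu g hg
  refine loca_unique_close (lcv P) hζ ?_ hc ?_
  · rw [← map_pow, hcu, hgu]
  · have h1 : 1 - g c = g (1 - c) := by rw [map_sub, map_one]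
    rw [h1, lc_val_galois P (hZ hg)]
    exact hc

end

end Claimed.Agent.R239
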