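/-
Row 239, package LC (local correspondence, Thm 2.4').  Sub-captain: helper75.
FILE LC/PROF_c.lean = subtask LC.PROF-c.  ONE OWNER (see table subtask; owner: helper199); the owner replaces every sorry IN PLACE
(statements are frozen: ask helper75 before changing one) and may add private helper lemmas / helper files
LC/PROF_c_*.lean.  You may import further LC files that do not (transitively) import this one.
Notation of the sketches: G' = Gal(E/N), v_P = lcv P, D_P = decomp N P, I_P = inert N P, cl(τ) = lcCl τ,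
K_U = fld U, K_U^h = fld (U ⊓ D_P) (henselisation of K_U at P inside E).  Labels (P4, V3, L1, ...) refer to
the doc-strings of the other LC files; index: LC/Chain.lean.
-/
import Claimed.Agent.R239.LC.PROF_a

set_option autoImplicit false

namespace Claimed.Agent.R239

open NumberField
open scoped Pointwise

/-! ### finite group tools -/

section finite

variable {ℓ : ℕ} [Fact ℓ.Prime]

theorem prof_isPGroup_zpowers {Q : Type*} [Group Q] {g : Q} {k : ℕ} (h : g ^ ℓ ^ k = 1) :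
    IsPGroup ℓ (Subgroup.zpowers g) := by
  rintro ⟨x, hx⟩
  obtain ⟨n, rfl⟩ := Subgroup.mem_zpowers_iff.1 hx
  refine ⟨k, Subtype.ext ?_⟩
  show (g ^ n) ^ ℓ ^ k = 1
  rw [← zpow_natCast, ← zpow_mul, mul_comm, zpow_mul, zpow_natCast, h, one_zpow]

theorem prof_card_mult_zmod : Nat.card (Multiplicative (ZMod ℓ)) = ℓ := by
  rw [Nat.card_eq_fintype_card, Fintype.card_multiplicative, ZMod.card]

/-- a proper subgroup of a finite `ℓ`-group is killed by a non-trivial character of order `ℓ`. -/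
theorem prof_pgroup_char {Q : Type*} [Group Q] [Finite Q] (hQ : IsPGroup ℓ Q) (Z : Subgroup Q)
    (hZ : Z ≠ ⊤) : ∃ c : Q →* Multiplicative (ZMod ℓ), c ≠ 1 ∧ ∀ z ∈ Z, c z = 1 := by
  have hℓ : ℓ.Prime := Fact.out
  obtain ⟨m, hm⟩ := IsPGroup.iff_card.1 hQ
  obtain ⟨n, hn⟩ := IsPGroup.iff_card.1 (hQ.to_subgroup Z)
  have hnm : n < m := by
    by_contra hcon
    rw [not_lt] at hcon
    apply hZ
    apply Subgroup.eq_top_of_le_card
    rw [hm, hn]
    exact Nat.pow_le_pow_right hℓ.pos hcon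
  obtain ⟨K, hK, hZK⟩ := Sylow.exists_subgroup_card_pow_prime_le ℓ (m := m - 1)
    (by rw [hm]; exact pow_dvd_pow ℓ (Nat.sub_le m 1)) Z hn (by omega)
  have hidx : K.index = ℓ := by
    have h1 := K.card_mul_index
    rw [hK, hm] at h1
    have h2 : ℓ ^ m = ℓ ^ (m - 1) * ℓ := by
      rw [← pow_succ]
      congr 1
      omega
    rw [h2] at h1
    exact Nat.eq_of_mul_eq_mul_left (pow_pos hℓ.pos _) h1
  have hKn : K.Normal := by
    apply Subgroup.normal_of_index_eq_minFac_card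
    rw [hidx, hm, hℓ.pow_minFac (by omega)]
  have hcard : Nat.card (Q ⧸ K) = ℓ := by rw [← Subgroup.index_eq_card, hidx]
  let e : Q ⧸ K ≃* Multiplicative (ZMod ℓ) := mulEquivOfPrimeCardEq (p := ℓ) hcard
    prof_card_mult_zmod
  refine ⟨e.toMonoidHom.comp (QuotientGroup.mk' K), ?_, ?_⟩
  · intro hc
    have hKtop : K = ⊤ := by
      rw [eq_top_iff]
      intro q _
      have h1 : e (QuotientGroup.mk' K q) = 1 := DFunLike.congr_fun hc q
      have h2 : QuotientGroup.mk' K q = 1 := by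
        rw [← e.map_one] at h1
        exact e.injective h1
      exact (QuotientGroup.eq_one_iff q).1 h2
    rw [hKtop, Subgroup.index_top] at hidx
    exact hℓ.one_lt.ne hidx
  · intro z hz
    show e (QuotientGroup.mk' K z) = 1
    rw [show QuotientGroup.mk' K z = 1 from (QuotientGroup.eq_one_iff z).2 (hZK hz), e.map_one]

end finite

section

variable {G : Type*} [Group G] [TopologicalSpace G] [IsTopologicalGroup G] [CompactSpace G]
  [TotallyDisconnectedSpace G] [T2Space G]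
variable {ℓ : ℕ} [Fact ℓ.Prime]

/-- P6.  Sketch: mod an open normal W the image of `cl2` is `<τ̄><σ̄>`, `σ̄` normalises `<τ̄>`:
`IsPGroup.to_sup_of_normal_right'`. -/
theorem prof_isProL_cl2 {τ σ : G} (hτ : IsProL ℓ τ) (hσ : IsProL ℓ σ)
    (hn : σ * τ * σ⁻¹ ∈ lcCl τ) {h : G} (hh : h ∈ lcCl2 τ σ) : IsProL ℓ h := by
  intro V hV
  obtain ⟨W, hWn, hWo, hWV⟩ := prof_exists_normal_le hV
  have := hWn
  have : Finite (G ⧸ W) := W.quotient_finite_of_isOpen hWo
  have hh' : h ∈ closure ((Subgroup.closure {τ, σ} : Subgroup G) : Set G) := hh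
  obtain ⟨s, hs, hsW⟩ := prof_mem_closure_iff.1 hh' W hWn hWo
  obtain ⟨k₁, hk₁⟩ := hτ W hWo
  obtain ⟨k₂, hk₂⟩ := hσ W hWo
  have hqτ : (QuotientGroup.mk' W τ) ^ ℓ ^ k₁ = 1 := by
    rw [← map_pow]
    exact (QuotientGroup.eq_one_iff _).2 hk₁
  have hqσ : (QuotientGroup.mk' W σ) ^ ℓ ^ k₂ = 1 := by
    rw [← map_pow]
    exact (QuotientGroup.eq_one_iff _).2 hk₂
  have hK := prof_isPGroup_zpowers hqτ
  have hH := prof_isPGroup_zpowers hqσ
  obtain ⟨n', hn'⟩ := prof_cl_approx hn hWn hWo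
  have hconj : QuotientGroup.mk' W σ * QuotientGroup.mk' W τ * (QuotientGroup.mk' W σ)⁻¹
      = (QuotientGroup.mk' W τ) ^ n' := by
    rw [← map_inv, ← map_mul, ← map_mul, ← map_pow]
    exact QuotientGroup.eq.2 hn'
  have hnorm : Subgroup.zpowers (QuotientGroup.mk' W σ)
      ≤ Subgroup.normalizer (Subgroup.zpowers (QuotientGroup.mk' W τ) : Set (G ⧸ W)) := by
    rw [Subgroup.zpowers_le]
    apply Subgroup.mem_normalizer_fintype
    intro x hx
    obtain ⟨m, rfl⟩ := Subgroup.mem_zpowers_iff.1 hx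
    rw [← conj_zpow, hconj]
    exact Subgroup.zpow_mem _ (Subgroup.pow_mem _ (Subgroup.mem_zpowers _) _) _
  have hsup := IsPGroup.to_sup_of_normal_right' hH hK hnorm
  have hle : Subgroup.closure {τ, σ} ≤ (Subgroup.zpowers (QuotientGroup.mk' W σ)
      ⊔ Subgroup.zpowers (QuotientGroup.mk' W τ)).comap (QuotientGroup.mk' W) := by
    rw [Subgroup.closure_le]
    rintro x (rfl | rfl)
    · exact (le_sup_right : _ ≤ Subgroup.zpowers (QuotientGroup.mk' W σ)
        ⊔ Subgroup.zpowers (QuotientGroup.mk' W x)) (Subgroup.mem_zpowers _)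
    · exact (le_sup_left : _ ≤ Subgroup.zpowers (QuotientGroup.mk' W x)
        ⊔ Subgroup.zpowers (QuotientGroup.mk' W τ)) (Subgroup.mem_zpowers _)
  obtain ⟨k, hk⟩ := hsup ⟨QuotientGroup.mk' W s, hle hs⟩
  have hk' : (QuotientGroup.mk' W s) ^ ℓ ^ k = 1 := congrArg Subtype.val hk
  refine ⟨k, hWV ?_⟩
  have hhs : QuotientGroup.mk' W h = QuotientGroup.mk' W s := QuotientGroup.eq.2 hsW
  rw [← hhs, ← map_pow] at hk'
  exact (QuotientGroup.eq_one_iff _).1 hk'

end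

section

variable {G : Type*} [Group G] [TopologicalSpace G] [IsTopologicalGroup G] [CompactSpace G]
  [TotallyDisconnectedSpace G] [T2Space G]
variable {ℓ : ℕ} [Fact ℓ.Prime]

/-- P7 (Frattini / Burnside basis).  Sketch: Z closed, Z ≠ H gives W open normal in G with
`Z W ∩ H ≠ H`; `H/(H ∩ W)` is a finite ℓ-group, a proper subgroup lies in a normal subgroup of
index ℓ (nilpotent => normaliser condition => coatoms are normal; simple ℓ-group has order ℓ). -/
theorem prof_frattini {H Z : Subgroup G} (hH : IsClosed (H : Set G)) (hZ : IsClosed (Z : Set G))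
    (hpro : ∀ h ∈ H, IsProL ℓ h) (hZH : Z ≤ H) (hne : Z ≠ H) :
    ∃ c : H →* Multiplicative (ZMod ℓ), Continuous c ∧ c ≠ 1 ∧ ∀ z : H, z.1 ∈ Z → c z = 1 := by
  obtain ⟨h₀, hh₀, hh₀Z⟩ : ∃ h₀ ∈ H, h₀ ∉ Z := by
    by_contra hcon
    apply hne
    refine le_antisymm hZH fun x hx => ?_
    by_contra hxZ
    exact hcon ⟨x, hx, hxZ⟩
  have hcl : ¬ h₀ ∈ closure (Z : Set G) := by rwa [hZ.closure_eq]
  rw [prof_mem_closure_iff] at hcl
  simp only [not_forall, not_exists, not_and] at hcl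
  obtain ⟨W, hWn, hWo, hW⟩ := hcl
  have := hWn
  have : Finite (G ⧸ W) := W.quotient_finite_of_isOpen hWo
  have : DiscreteTopology (G ⧸ W) := QuotientGroup.discreteTopology hWo
  let π : H →* G ⧸ W := (QuotientGroup.mk' W).comp H.subtype
  have hπc : Continuous π := QuotientGroup.continuous_mk.comp continuous_subtype_val
  have hQ : IsPGroup ℓ π.range := by
    rintro ⟨_, ⟨h, rfl⟩⟩
    obtain ⟨k, hk⟩ := hpro h.1 h.2 W hWo
    refine ⟨k, Subtype.ext ?_⟩
    show (π h) ^ ℓ ^ k = 1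
    rw [← map_pow]
    exact (QuotientGroup.eq_one_iff _).2 hk
  have hZb : (Z.subgroupOf H).map π.rangeRestrict ≠ ⊤ := by
    intro htop
    have hmem : π.rangeRestrict ⟨h₀, hh₀⟩ ∈ (Z.subgroupOf H).map π.rangeRestrict := by
      rw [htop]
      exact Subgroup.mem_top _
    obtain ⟨z, hz, hzeq⟩ := Subgroup.mem_map.1 hmem
    have h1 : π z = π ⟨h₀, hh₀⟩ := congrArg Subtype.val hzeq
    have h2 : h₀⁻¹ * z.1 ∈ W := QuotientGroup.eq.1 h1.symm
    exact hW z.1 (Subgroup.mem_subgroupOf.1 hz) h2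
  obtain ⟨c, hc1, hcZ⟩ := prof_pgroup_char hQ _ hZb
  refine ⟨c.comp π.rangeRestrict, ?_, ?_, ?_⟩
  · have h1 : Continuous π.rangeRestrict := hπc.subtype_mk _
    exact (continuous_of_discreteTopology (f := c)).comp h1
  · intro hcomp
    apply hc1
    ext ⟨_, ⟨h, rfl⟩⟩
    exact congrArg _ (DFunLike.congr_fun hcomp h)
  · intro z hz
    exact hcZ _ (Subgroup.mem_map.2 ⟨z, Subgroup.mem_subgroupOf.2 hz, rfl⟩)

end

section

variable {G : Type*} [Group G] [TopologicalSpace G] [IsTopologicalGroup G] [CompactSpace G]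
  [TotallyDisconnectedSpace G] [T2Space G]
variable {ℓ : ℕ} [Fact ℓ.Prime]

theorem prof_left_mem_cl2 (τ σ : G) : τ ∈ lcCl2 τ σ :=
  Subgroup.le_topologicalClosure _ (Subgroup.subset_closure (by simp))

theorem prof_right_mem_cl2 (τ σ : G) : σ ∈ lcCl2 τ σ :=
  Subgroup.le_topologicalClosure _ (Subgroup.subset_closure (by simp))

theorem prof_cl2_isClosed (τ σ : G) : IsClosed ((lcCl2 τ σ : Subgroup G) : Set G) :=
  Subgroup.isClosed_topologicalClosure _

/-- two continuous homomorphisms on `cl2 τ σ` which agree at `τ` and `σ` are equal. -/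
theorem prof_cl2_hom_ext {M : Type*} [Group M] [TopologicalSpace M] [T2Space M] {τ σ : G}
    (c d : lcCl2 τ σ →* M) (hc : Continuous c) (hd : Continuous d)
    (h1 : c ⟨τ, prof_left_mem_cl2 τ σ⟩ = d ⟨τ, prof_left_mem_cl2 τ σ⟩)
    (h2 : c ⟨σ, prof_right_mem_cl2 τ σ⟩ = d ⟨σ, prof_right_mem_cl2 τ σ⟩) : c = d := by
  have hcl : IsClosed (((c.eqLocus d).map (lcCl2 τ σ).subtype : Subgroup G) : Set G) := by
    have h3 : IsClosed ((c.eqLocus d : Subgroup (lcCl2 τ σ)) : Set (lcCl2 τ σ)) :=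
      isClosed_eq hc hd
    exact (prof_cl2_isClosed τ σ).isClosedEmbedding_subtypeVal.isClosedMap _ h3
  have hle : lcCl2 τ σ ≤ (c.eqLocus d).map (lcCl2 τ σ).subtype := by
    refine Subgroup.topologicalClosure_minimal _ ?_ hcl
    rw [Subgroup.closure_le]
    rintro x (rfl | rfl)
    · exact ⟨⟨x, prof_left_mem_cl2 x σ⟩, h1, rfl⟩
    · exact ⟨⟨x, prof_right_mem_cl2 τ x⟩, h2, rfl⟩
  ext ⟨x, hx⟩
  obtain ⟨y, hy, hyx⟩ := hle hx
  have : y = ⟨x, hx⟩ := Subtype.ext hyx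
  rw [← this]
  exact hy

/-- P8.  Sketch: `cl2 τ σ` is not abelian (`LCPair.ne`), so it is neither `cl τ` nor `cl σ`;
apply P7 to `Z = cl σ` resp. `Z = cl τ`; a character killing τ and σ is trivial by density. -/
theorem prof_pair_chars {τ σ : G} (h : LCPair ℓ τ σ) :
    ∃ ca cb : lcCl2 τ σ →* Multiplicative (ZMod ℓ), Continuous ca ∧ Continuous cb ∧
      (∀ hτ : τ ∈ lcCl2 τ σ, ca ⟨τ, hτ⟩ = 1 ∧ cb ⟨τ, hτ⟩ ≠ 1) ∧
      (∀ hσ : σ ∈ lcCl2 τ σ, ca ⟨σ, hσ⟩ ≠ 1 ∧ cb ⟨σ, hσ⟩ = 1) := by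
  have hτm := prof_left_mem_cl2 τ σ
  have hσm := prof_right_mem_cl2 τ σ
  have hn : σ * τ * σ⁻¹ ∈ lcCl τ := by
    obtain ⟨x, hx, hrel⟩ := h.rel
    rw [hrel]
    exact (lcCl τ).mul_mem (prof_self_mem_cl τ) ((lcCl τ).pow_mem hx ℓ)
  have hpro : ∀ g ∈ lcCl2 τ σ, IsProL ℓ g := fun g hg => prof_isProL_cl2 h.proτ h.proσ hn hg
  have hcomm : ¬ σ * τ = τ * σ := by
    intro e
    apply h.ne
    rw [e, mul_inv_cancel_right]
  have hleτ : lcCl τ ≤ lcCl2 τ σ :=
    Subgroup.topologicalClosure_minimal _ (Subgroup.zpowers_le.2 hτm) (prof_cl2_isClosed τ σ)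
  have hleσ : lcCl σ ≤ lcCl2 τ σ :=
    Subgroup.topologicalClosure_minimal _ (Subgroup.zpowers_le.2 hσm) (prof_cl2_isClosed τ σ)
  have hneτ : lcCl τ ≠ lcCl2 τ σ := by
    intro e
    exact hcomm (prof_cl_comm (τ := τ) (e ▸ hσm) (e ▸ hτm))
  have hneσ : lcCl σ ≠ lcCl2 τ σ := by
    intro e
    exact hcomm (prof_cl_comm (τ := σ) (e ▸ hσm) (e ▸ hτm))
  obtain ⟨ca, hcac, hca1, hcaZ⟩ := prof_frattini (prof_cl2_isClosed τ σ) (prof_cl_isClosed τ) hpro
    hleτ hneτ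
  obtain ⟨cb, hcbc, hcb1, hcbZ⟩ := prof_frattini (prof_cl2_isClosed τ σ) (prof_cl_isClosed σ) hpro
    hleσ hneσ
  refine ⟨ca, cb, hcac, hcbc, fun hτ => ⟨hcaZ _ (prof_self_mem_cl τ), fun e => ?_⟩,
    fun hσ => ⟨fun e => ?_, hcbZ _ (prof_self_mem_cl σ)⟩⟩
  · exact hcb1 (prof_cl2_hom_ext cb 1 hcbc continuous_const e (hcbZ _ (prof_self_mem_cl σ)))
  · exact hca1 (prof_cl2_hom_ext ca 1 hcac continuous_const (hcaZ _ (prof_self_mem_cl τ)) e)

end

section

variable {G : Type*} [Group G] [TopologicalSpace G] [IsTopologicalGroup G] [CompactSpace G]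
  [TotallyDisconnectedSpace G] [T2Space G]
variable {ℓ : ℕ} [Fact ℓ.Prime]

/-- P9.  Sketch: values at τ, σ determine a continuous character of `cl2 τ σ`; solve a 2×2
triangular system over `ZMod ℓ`. -/
theorem prof_pair_span {τ σ : G} (ca cb c : lcCl2 τ σ →* Multiplicative (ZMod ℓ))
    (hca : Continuous ca) (hcb : Continuous cb) (hc : Continuous c)
    (h1 : ∀ hτ : τ ∈ lcCl2 τ σ, ca ⟨τ, hτ⟩ = 1 ∧ cb ⟨τ, hτ⟩ ≠ 1)
    (h2 : ∀ hσ : σ ∈ lcCl2 τ σ, ca ⟨σ, hσ⟩ ≠ 1 ∧ cb ⟨σ, hσ⟩ = 1) :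
    ∃ i j : ℕ, ∀ h, c h = ca h ^ i * cb h ^ j := by
  have hτm := prof_left_mem_cl2 τ σ
  have hσm := prof_right_mem_cl2 τ σ
  obtain ⟨i, hi⟩ := mem_powers_of_prime_card (p := ℓ) prof_card_mult_zmod (h2 hσm).1
    (g' := c ⟨σ, hσm⟩)
  obtain ⟨j, hj⟩ := mem_powers_of_prime_card (p := ℓ) prof_card_mult_zmod (h1 hτm).2
    (g' := c ⟨τ, hτm⟩)
  refine ⟨i, j, ?_⟩
  have hd : Continuous (ca ^ i * cb ^ j : lcCl2 τ σ →* Multiplicative (ZMod ℓ)) := by
    have : (⇑(ca ^ i * cb ^ j : lcCl2 τ σ →* Multiplicative (ZMod ℓ)))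
        = (fun p : Multiplicative (ZMod ℓ) × Multiplicative (ZMod ℓ) => p.1 ^ i * p.2 ^ j)
          ∘ fun h => (ca h, cb h) := by
      funext h
      simp
    rw [this]
    exact continuous_of_discreteTopology.comp (hca.prodMk hcb)
  have key := prof_cl2_hom_ext c (ca ^ i * cb ^ j) hc hd
    (by simp [(h1 hτm).1, ← hj]) (by simp [(h2 hσm).2, ← hi])
  intro h
  rw [key]
  simp

end

end Claimed.Agent.R239
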