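/-
Row 239, package LC (local correspondence, Thm 2.4').  Sub-captain: helper75.
FILE LC/VAL_b.lean = subtask LC.VAL-b.  ONE OWNER (see table subtask; owner: helper199); the owner replaces every sorry IN PLACE
(statements are frozen: ask helper75 before changing one) and may add private helper lemmas / helper files
LC/VAL_b_*.lean.  You may import further LC files that do not (transitively) import this one.
Notation of the sketches: G' = Gal(E/N), v_P = lcv P, D_P = decomp N P, I_P = inert N P, cl(τ) = lcCl τ,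
K_U = fld U, K_U^h = fld (U ⊓ D_P) (henselisation of K_U at P inside E).  Labels (P4, V3, L1, ...) refer to
the doc-strings of the other LC files; index: LC/Chain.lean.
-/
import Claimed.Agent.R239.LC.VAL_a

set_option autoImplicit false

namespace Claimed.Agent.R239

open NumberField
open scoped Pointwise

section

variable {N E : Type*} [Field N] [Field E] [Algebra N E] [Algebra.IsIntegral N E]

/-- the stabiliser of an integer of `E` is an open subgroup. -/
theorem lc_stabilizer_isOpen (y : 𝓞 E) :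
    IsOpen (MulAction.stabilizer Gal(E/N) y : Set Gal(E/N)) := by
  have h := stabilizer_isOpen_of_isIntegral (K := N) (y : E)
  have e : (MulAction.stabilizer Gal(E/N) y : Set Gal(E/N))
      = (MulAction.stabilizer Gal(E/N) (y : E) : Set Gal(E/N)) := by
    ext g
    simp only [SetLike.mem_coe, MulAction.mem_stabilizer_iff]
    constructor
    · intro hg
      exact congrArg (fun z : 𝓞 E => (z : E)) hg
    · intro hg
      exact RingOfIntegers.ext hg
  rw [e]
  exact h

/-- for every predicate `S` on `𝓞 E` and `y`, the set `{g | g • y ∈ S}` is closed. -/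
theorem lc_isClosed_smul_mem (y : 𝓞 E) (S : Set (𝓞 E)) :
    IsClosed {g : Gal(E/N) | g • y ∈ S} := by
  let _ : TopologicalSpace (𝓞 E) := ⊥
  have : DiscreteTopology (𝓞 E) := ⟨rfl⟩
  have : ContinuousSMul Gal(E/N) (𝓞 E) :=
    continuousSMul_iff_stabilizer_isOpen.2 lc_stabilizer_isOpen
  exact (isClosed_discrete S).preimage (continuous_id.smul continuous_const)

end

section

variable {N E : Type*} [Field N] [NumberField N] [Field E] [Algebra N E] [IsGalois N E]
  [CharZero E] [Algebra.IsAlgebraic ℚ E]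
variable (P : Ideal (𝓞 E)) [P.IsMaximal]

/-- V7a. Sketch: `D_P = ⋂_y {g : g y ∈ P ↔ y ∈ P}`, each condition is clopen. -/
theorem lc_decomp_isClosed : IsClosed (decomp N P : Set Gal(E/N)) := by
  have e : (decomp N P : Set Gal(E/N))
      = ⋂ y : 𝓞 E, (fun g : Gal(E/N) => g⁻¹) ⁻¹' {g : Gal(E/N) | g • y ∈ {z | z ∈ P ↔ y ∈ P}} := by
    ext g
    simp only [SetLike.mem_coe, MulAction.mem_stabilizer_iff, Set.mem_iInter, Set.mem_preimage,
      Set.mem_ofPred_eq]
    constructor
    · intro hg y
      rw [← Ideal.mem_pointwise_smul_iff_inv_smul_mem, hg]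
    · intro h
      ext y
      rw [Ideal.mem_pointwise_smul_iff_inv_smul_mem]
      exact h y
  rw [e]
  exact isClosed_iInter fun y => (lc_isClosed_smul_mem y _).preimage continuous_inv

end

section

variable {N E : Type*} [Field N] [NumberField N] [Field E] [Algebra N E] [IsGalois N E]
  [CharZero E] [Algebra.IsAlgebraic ℚ E]
variable (P : Ideal (𝓞 E)) [P.IsMaximal]

/-- V7b. -/
theorem lc_inert_isClosed : IsClosed (inert N P : Set Gal(E/N)) := by
  have e : (inert N P : Set Gal(E/N))
      = ⋂ y : 𝓞 E, {g : Gal(E/N) | g • y ∈ {z | z - y ∈ P}} := by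
    ext g
    simp only [SetLike.mem_coe, Set.mem_iInter, Set.mem_ofPred_eq]
    exact Iff.rfl
  rw [e]
  exact isClosed_iInter fun y => lc_isClosed_smul_mem y _

end

section

variable {N E : Type*} [Field N] [NumberField N] [Field E] [Algebra N E] [IsGalois N E]
  [CharZero E] [Algebra.IsAlgebraic ℚ E]
variable (P : Ideal (𝓞 E)) [P.IsMaximal]

/-- V7c. -/
theorem lc_inert_le_decomp : inert N P ≤ decomp N P :=
  Ideal.inertia_le_stabilizer P

end

section

variable {N E : Type*} [Field N] [NumberField N] [Field E] [Algebra N E] [IsGalois N E]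
  [CharZero E] [Algebra.IsAlgebraic ℚ E]
variable (P : Ideal (𝓞 E)) [P.IsMaximal]

/-- V7d. -/
theorem lc_inert_normal {g h : Gal(E/N)} (hg : g ∈ decomp N P) (hh : h ∈ inert N P) :
    g * h * g⁻¹ ∈ inert N P := by
  intro x
  have hg' : g • P = P := hg
  have h1 : h • (g⁻¹ • x) - g⁻¹ • x ∈ P := hh (g⁻¹ • x)
  have h2 : g • (h • (g⁻¹ • x) - g⁻¹ • x) ∈ g • P := Ideal.smul_mem_pointwise_smul_iff.2 h1
  rw [hg', smul_sub, smul_inv_smul] at h2
  show (g * h * g⁻¹) • x - x ∈ P
  rw [mul_smul, mul_smul]
  exact h2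

end

section

variable {N E : Type*} [Field N] [NumberField N] [Field E] [Algebra N E] [IsGalois N E]
  [CharZero E] [Algebra.IsAlgebraic ℚ E]
variable (P : Ideal (𝓞 E)) [P.IsMaximal]

/-- V8 (transitivity for closed subgroups).  Sketch:
`Algebra.IsInvariant.exists_smul_of_under_eq_of_profinite` for the profinite group `Z` acting on
`𝓞 E` with invariants `𝓞 (fld Z)`. -/
theorem lc_transitive {Z : Subgroup Gal(E/N)} (hZ : IsClosed (Z : Set Gal(E/N)))
    (Q : Ideal (𝓞 E)) [Q.IsMaximal]
    (h : ∀ y : 𝓞 E, (y : E) ∈ fld Z → (y ∈ P ↔ y ∈ Q)) : ∃ g ∈ Z, Q = g • P := by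
  let _ : TopologicalSpace (𝓞 E) := ⊥
  have : DiscreteTopology (𝓞 E) := ⟨rfl⟩
  have : ContinuousSMul Gal(E/N) (𝓞 E) :=
    continuousSMul_iff_stabilizer_isOpen.2 lc_stabilizer_isOpen
  have : CompactSpace Z := isCompact_iff_compactSpace.1 hZ.isCompact
  have : SMulCommClass Z (𝓞 (fld Z)) (𝓞 E) := by
    constructor
    intro g a b
    rw [Algebra.smul_def, Algebra.smul_def, smul_mul']
    congr 1
    apply RingOfIntegers.ext
    exact (a : fld Z).2 g
  have : Algebra.IsInvariant (𝓞 (fld Z)) (𝓞 E) Z := by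
    constructor
    intro b hb
    have hb' : (b : E) ∈ fld Z := by
      rw [IntermediateField.mem_fixedField_iff]
      intro g hg
      exact congrArg (fun z : 𝓞 E => (z : E)) (hb ⟨g, hg⟩)
    have hint : IsIntegral ℤ (⟨(b : E), hb'⟩ : fld Z) :=
      (isIntegral_algebraMap_iff (algebraMap (fld Z) E).injective).1 (RingOfIntegers.isIntegral_coe b)
    exact ⟨⟨⟨(b : E), hb'⟩, hint⟩, RingOfIntegers.ext rfl⟩
  obtain ⟨g, hg⟩ := Algebra.IsInvariant.exists_smul_of_under_eq_of_profinite
    (A := 𝓞 (fld Z)) (G := Z) P Q (by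
      ext a
      exact h (algebraMap (𝓞 (fld Z)) (𝓞 E) a) (a : fld Z).2)
  exact ⟨g.1, g.2, hg⟩

end

end Claimed.Agent.R239
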