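/-
Row 239, package LC (local correspondence, Thm 2.4').  Sub-captain: helper75.
FILE LC/VAL_c.lean = subtask LC.VAL-c.  ONE OWNER (see table subtask; owner: helper199); the owner replaces every sorry IN PLACE
(statements are frozen: ask helper75 before changing one) and may add private helper lemmas / helper files
LC/VAL_c_*.lean.  You may import further LC files that do not (transitively) import this one.
Notation of the sketches: G' = Gal(E/N), v_P = lcv P, D_P = decomp N P, I_P = inert N P, cl(τ) = lcCl τ,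
K_U = fld U, K_U^h = fld (U ⊓ D_P) (henselisation of K_U at P inside E).  Labels (P4, V3, L1, ...) refer to
the doc-strings of the other LC files; index: LC/Chain.lean.
-/
import Claimed.Agent.R239.LC.VAL_a

set_option autoImplicit false

namespace Claimed.Agent.R239

open NumberField
open scoped Pointwise

section

variable {N E : Type*} [Field N] [NumberField N] [Field E] [Algebra N E] [IsGalois N E]
  [CharZero E] [Algebra.IsAlgebraic ℚ E]
variable (P : Ideal (𝓞 E)) [P.IsMaximal]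

/-- V4, uniform form: `v(w^n) v(d) ≤ v(t)` for all large `n`. -/
theorem lc_val_arch_mul {w t : E} (d : E) (hw : lcv P w < 1) (ht : t ≠ 0) :
    ∃ n₀ : ℕ, ∀ n, n₀ ≤ n → lcv P (w ^ n) * lcv P d ≤ lcv P t := by
  by_cases hd : d = 0
  · exact ⟨0, fun n _ => by rw [hd, map_zero, mul_zero]; exact zero_le⟩
  obtain ⟨n₀, hn₀⟩ := lc_val_arch P hw (div_ne_zero ht hd)
  refine ⟨n₀, fun n hn => ?_⟩
  have h1 : lcv P (w ^ n) ≤ lcv P (w ^ n₀) := by
    rw [map_pow, map_pow]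
    exact pow_le_pow_of_le_one zero_le hw.le hn
  have h2 := h1.trans hn₀
  rw [map_div₀, le_div_iff₀ (lc_val_pos P hd)] at h2
  exact h2

/-- two different primes of `K_U`: an element of `K_U` small at `P`, large at `Q`. -/
theorem lc_exists_sep {U : Subgroup Gal(E/N)} (Q : Ideal (𝓞 E)) [Q.IsMaximal]
    (hPQ : below U P ≠ below U Q) :
    ∃ z ∈ fld U, z ≠ 0 ∧ lcv P z < 1 ∧ lcv Q z⁻¹ < 1 := by
  have hp : (below U P).IsMaximal := Ideal.isMaximal_comap_of_isIntegral_of_isMaximal P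
  have hq : (below U Q).IsMaximal := Ideal.isMaximal_comap_of_isIntegral_of_isMaximal Q
  obtain ⟨a, haP, haQ⟩ : ∃ a ∈ below U P, a ∉ below U Q :=
    SetLike.not_le_iff_exists.1 fun hle => hPQ (hp.eq_of_le hq.ne_top hle)
  obtain ⟨b, hbQ, hbP⟩ : ∃ b ∈ below U Q, b ∉ below U P :=
    SetLike.not_le_iff_exists.1 fun hle => hPQ (hq.eq_of_le hp.ne_top hle).symm
  have haP' : lcv P ((algebraMap (𝓞 (fld U)) (𝓞 E) a : 𝓞 E) : E) < 1 :=
    (lc_val_lt_one_iff P _).2 haP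
  have hbQ' : lcv Q ((algebraMap (𝓞 (fld U)) (𝓞 E) b : 𝓞 E) : E) < 1 :=
    (lc_val_lt_one_iff Q _).2 hbQ
  have haQ' : lcv Q ((algebraMap (𝓞 (fld U)) (𝓞 E) a : 𝓞 E) : E) = 1 := lc_val_eq_one Q haQ
  have hbP' : lcv P ((algebraMap (𝓞 (fld U)) (𝓞 E) b : 𝓞 E) : E) = 1 := lc_val_eq_one P hbP
  have ha0 : ((algebraMap (𝓞 (fld U)) (𝓞 E) a : 𝓞 E) : E) ≠ 0 := by
    intro h0
    rw [h0, map_zero] at haQ'
    exact zero_ne_one haQ'
  have hb0 : ((algebraMap (𝓞 (fld U)) (𝓞 E) b : 𝓞 E) : E) ≠ 0 := by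
    intro h0
    rw [h0, map_zero] at hbP'
    exact zero_ne_one hbP'
  refine ⟨((algebraMap (𝓞 (fld U)) (𝓞 E) a : 𝓞 E) : E) / ((algebraMap (𝓞 (fld U)) (𝓞 E) b : 𝓞 E) : E),
    (fld U).div_mem (a : fld U).2 (b : fld U).2, div_ne_zero ha0 hb0, ?_, ?_⟩
  · rw [map_div₀, hbP', div_one]
    exact haP'
  · rw [inv_div, map_div₀, haQ', div_one]
    exact hbQ'

/-- V9 (weak approximation for two primes).  Sketch: CRT in `𝓞 (fld U)` for powers of the two
distinct maximal ideals, after clearing denominators; V4 to compare with `t`.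
(Proof given here: `z ∈ K_U` small at `P` and large at `Q`, `e = z^n / (1 + z^n)`,
`x = x₁ + e (x₂ - x₁)`.) -/
theorem lc_weak_approx {U : Subgroup Gal(E/N)} (hU : IsOpen (U : Set Gal(E/N)))
    (Q : Ideal (𝓞 E)) [Q.IsMaximal] (hPQ : below U P ≠ below U Q)
    {x₁ x₂ t : E} (h₁ : x₁ ∈ fld U) (h₂ : x₂ ∈ fld U) (ht : t ≠ 0) :
    ∃ x ∈ fld U, lcv P (x - x₁) ≤ lcv P t ∧ lcv Q (x - x₂) ≤ lcv Q t := by
  obtain ⟨z, hzU, hz0, hzP, hzQ⟩ := lc_exists_sep P Q hPQ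
  obtain ⟨n₁, hn₁⟩ := lc_val_arch_mul P (x₂ - x₁) hzP ht
  obtain ⟨n₂, hn₂⟩ := lc_val_arch_mul Q (x₂ - x₁) hzQ ht
  have hP1 : lcv P (z ^ (n₁ + n₂ + 1)) < 1 := by
    rw [map_pow]
    exact pow_lt_one₀ zero_le hzP (Nat.succ_ne_zero _)
  have hQ1 : lcv Q ((z⁻¹) ^ (n₁ + n₂ + 1)) < 1 := by
    rw [map_pow]
    exact pow_lt_one₀ zero_le hzQ (Nat.succ_ne_zero _)
  have hPs : lcv P (1 + z ^ (n₁ + n₂ + 1)) = 1 := Valuation.map_one_add_of_lt _ hP1
  have hQs : lcv Q (1 + (z⁻¹) ^ (n₁ + n₂ + 1)) = 1 := Valuation.map_one_add_of_lt _ hQ1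
  have hs0 : 1 + z ^ (n₁ + n₂ + 1) ≠ 0 := by
    intro h0
    rw [h0, map_zero] at hPs
    exact zero_ne_one hPs
  have hs0' : 1 + (z⁻¹) ^ (n₁ + n₂ + 1) ≠ 0 := by
    intro h0
    rw [h0, map_zero] at hQs
    exact zero_ne_one hQs
  refine ⟨x₁ + z ^ (n₁ + n₂ + 1) / (1 + z ^ (n₁ + n₂ + 1)) * (x₂ - x₁), ?_, ?_, ?_⟩
  · exact (fld U).add_mem h₁ ((fld U).mul_mem ((fld U).div_mem (pow_mem hzU _)
      ((fld U).add_mem (fld U).one_mem (pow_mem hzU _))) ((fld U).sub_mem h₂ h₁))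
  · rw [add_sub_cancel_left, map_mul, map_div₀, hPs, div_one]
    exact hn₁ _ (by omega)
  · have e : x₁ + z ^ (n₁ + n₂ + 1) / (1 + z ^ (n₁ + n₂ + 1)) * (x₂ - x₁) - x₂
        = - ((z⁻¹) ^ (n₁ + n₂ + 1) / (1 + (z⁻¹) ^ (n₁ + n₂ + 1)) * (x₂ - x₁)) := by
      have hzn : z ^ (n₁ + n₂ + 1) ≠ 0 := pow_ne_zero _ hz0
      rw [inv_pow] at hs0' ⊢
      generalize z ^ (n₁ + n₂ + 1) = w at hs0 hs0' hzn
      have h3 : w⁻¹ / (1 + w⁻¹) = 1 / (1 + w) := by
        rw [div_eq_div_iff hs0' hs0]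
        field_simp
        ring
      rw [h3]
      field_simp
      ring
    rw [e, Valuation.map_neg, map_mul, map_div₀, hQs, div_one]
    exact hn₂ _ (by omega)

end

end Claimed.Agent.R239
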