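/-
Row 239, package LC (local correspondence, Thm 2.4').  Sub-captain: helper75.
FILE LC/UQ.lean = subtask LC.UQ.  ONE OWNER (see table subtask); the owner replaces every sorry IN PLACE
(statements are frozen: ask helper75 before changing one) and may add private helper lemmas / helper files
LC/UQ_*.lean.  You may import further LC files that do not (transitively) import this one.
Notation of the sketches: G' = Gal(E/N), v_P = lcv P, D_P = decomp N P, I_P = inert N P, cl(τ) = lcCl τ,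
K_U = fld U, K_U^h = fld (U ⊓ D_P) (henselisation of K_U at P inside E).  Labels (P4, V3, L1, ...) refer to
the doc-strings of the other LC files; index: LC/Chain.lean.
-/
import Claimed.Agent.R239.LC.LOC_a
import Claimed.Agent.R239.LC.VAL_b
import Claimed.Agent.R239.LC.VAL_c
import Claimed.Agent.R239.LC.PROF_c
import Claimed.Agent.R239.LC.KUM_a

set_option autoImplicit false
set_option linter.unusedSectionVars false
set_option linter.style.haveILetI false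

namespace Claimed.Agent.R239

open NumberField
open scoped Pointwise

section

variable {N E : Type*} [Field N] [NumberField N] [Field E] [Algebra N E] [IsGalois N E]
  [CharZero E] [Algebra.IsAlgebraic ℚ E]
variable {ℓ : ℕ} [Fact ℓ.Prime]

theorem lc_mem_fld_iff {Z : Subgroup Gal(E/N)} {x : E} : x ∈ fld Z ↔ ∀ f ∈ Z, f x = x :=
  IntermediateField.mem_fixedField_iff Z x

theorem lc_fld_anti {Z Z' : Subgroup Gal(E/N)} (h : Z ≤ Z') {x : E} (hx : x ∈ fld Z') :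
    x ∈ fld Z :=
  lc_mem_fld_iff.2 fun f hf => lc_mem_fld_iff.1 hx f (h hf)

/-- an open subgroup containing `Z` whose fixed field contains a given finite subset of `fld Z` -/
theorem lc_exists_open_fixing {Z : Subgroup Gal(E/N)} (S : Set E) [Finite S]
    (hS : ∀ x ∈ S, x ∈ fld Z) :
    ∃ U : Subgroup Gal(E/N), IsOpen (U : Set Gal(E/N)) ∧ Z ≤ U ∧ ∀ x ∈ S, x ∈ fld U := by
  let K₀ := IntermediateField.adjoin N S
  haveI : FiniteDimensional N K₀ :=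
    IntermediateField.finiteDimensional_adjoin fun x _ => Algebra.IsIntegral.isIntegral x
  refine ⟨K₀.fixingSubgroup, K₀.fixingSubgroup_isOpen, ?_, ?_⟩
  · intro f hf
    rw [IntermediateField.mem_fixingSubgroup_iff]
    intro x hx
    have hle : K₀ ≤ fld Z := IntermediateField.adjoin_le_iff.2 hS
    exact lc_mem_fld_iff.1 (hle hx) f hf
  · intro x hx
    rw [lc_mem_fld_iff]
    intro f hf
    exact (IntermediateField.mem_fixingSubgroup_iff _ _).1 hf x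
      (IntermediateField.subset_adjoin N S hx)

/-- an integer of `E` lying in `K_U` which separates `Q` and `Q'` -/
theorem lc_below_ne {U : Subgroup Gal(E/N)} (Q Q' : Ideal (𝓞 E)) {y : 𝓞 E} (hy : (y : E) ∈ fld U)
    (h : ¬ (y ∈ Q ↔ y ∈ Q')) : below U Q ≠ below U Q' := by
  intro heq
  apply h
  have hint : IsIntegral ℤ (⟨(y : E), hy⟩ : fld U) :=
    (isIntegral_algebraMap_iff (algebraMap (fld U) E).injective).1 (RingOfIntegers.isIntegral_coe y)
  let y₁ : 𝓞 (fld U) := ⟨⟨(y : E), hy⟩, hint⟩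
  have e : algebraMap (𝓞 (fld U)) (𝓞 E) y₁ = y := RingOfIntegers.ext rfl
  have h1 : ∀ P : Ideal (𝓞 E), y₁ ∈ below U P ↔ y ∈ P := by
    intro P
    rw [Ideal.mem_comap, e]
  rw [← h1 Q, ← h1 Q', heq]

end

section

variable {N E : Type*} [Field N] [NumberField N] [Field E] [Algebra N E] [IsGalois N E]
  [CharZero E] [Algebra.IsAlgebraic ℚ E]
variable {ℓ : ℕ} [Fact ℓ.Prime]
variable (Q : Ideal (𝓞 E)) [Q.IsMaximal]

/-- a common small parameter for two primes -/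
theorem lc_exists_small (Q' : Ideal (𝓞 E)) [Q'.IsMaximal] {a : E} (ha : a ≠ 0) :
    ∃ t : E, t ≠ 0 ∧ lcv Q t < lcv Q a * lcv Q (ℓ : E) ^ 2 ∧ lcv Q' t < lcv Q' (ℓ : E) ^ 2 := by
  have hℓ : ℓ.Prime := Fact.out
  have hℓE : (ℓ : E) ≠ 0 := Nat.cast_ne_zero.2 hℓ.ne_zero
  obtain ⟨p, hp, hpQ⟩ := lc_exists_over Q
  obtain ⟨p', hp', hpQ'⟩ := lc_exists_over Q'
  have cast : ∀ (n : ℕ), (((n : 𝓞 E) : 𝓞 E) : E) = (n : E) := fun n => by simp
  have v1 : lcv Q (p : E) < 1 := by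
    have := (lc_val_lt_one_iff Q (p : 𝓞 E)).2 hpQ
    rwa [cast] at this
  have v2 : lcv Q (p' : E) ≤ 1 := by
    have := lc_val_le_one Q (p' : 𝓞 E)
    rwa [cast] at this
  have v3 : lcv Q' (p' : E) < 1 := by
    have := (lc_val_lt_one_iff Q' (p' : 𝓞 E)).2 hpQ'
    rwa [cast] at this
  have v4 : lcv Q' (p : E) ≤ 1 := by
    have := lc_val_le_one Q' (p : 𝓞 E)
    rwa [cast] at this
  set π : E := (p : E) * (p' : E) with hπ
  have hπ0 : π ≠ 0 :=
    mul_ne_zero (Nat.cast_ne_zero.2 hp.ne_zero) (Nat.cast_ne_zero.2 hp'.ne_zero)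
  have w1 : lcv Q π < 1 := by
    rw [hπ, map_mul]
    exact mul_lt_one_of_lt_of_le v1 v2
  have w2 : lcv Q' π < 1 := by
    rw [hπ, map_mul, mul_comm]
    exact mul_lt_one_of_lt_of_le v3 v4
  obtain ⟨n, hn⟩ := lc_val_arch Q w1 ha
  refine ⟨π ^ (n + 1) * (ℓ : E) ^ 2, mul_ne_zero (pow_ne_zero _ hπ0) (pow_ne_zero _ hℓE), ?_, ?_⟩
  · rw [map_mul, map_pow _ (ℓ : E)]
    have hpos : 0 < lcv Q (ℓ : E) ^ 2 := pow_pos ((Valuation.pos_iff _).2 hℓE) 2
    apply mul_lt_mul_of_pos_right _ hpos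
    refine lt_of_lt_of_le ?_ hn
    rw [pow_succ, map_mul]
    have hpos' : 0 < lcv Q (π ^ n) := (Valuation.pos_iff _).2 (pow_ne_zero _ hπ0)
    calc lcv Q (π ^ n) * lcv Q π < lcv Q (π ^ n) * 1 := mul_lt_mul_of_pos_left w1 hpos'
      _ = _ := mul_one _
  · rw [map_mul, map_pow _ (ℓ : E)]
    have hpos : 0 < lcv Q' (ℓ : E) ^ 2 := pow_pos ((Valuation.pos_iff _).2 hℓE) 2
    have h1 : lcv Q' (π ^ (n + 1)) < 1 := by
      rw [map_pow]
      exact pow_lt_one₀ zero_le w2 (Nat.succ_ne_zero n)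
    calc lcv Q' (π ^ (n + 1)) * lcv Q' (ℓ : E) ^ 2 < 1 * lcv Q' (ℓ : E) ^ 2 :=
          mul_lt_mul_of_pos_right h1 hpos
      _ = _ := one_mul _

/-- UQ (trivial intersection of decomposition groups, pro-ℓ form).  Sketch: `T = cl τ ≤ D_Q ⊓ D_Q'`,
`Λ = fld T ∋ ζ` (K3).  P7 (`Z = ⊥`) + K1: `γ ∉ Λ`, `c = γ^ℓ ∈ Λ`.  If `Q ≠ Q'` then `Q`, `Q'` differ on
`𝓞 Λ` (V8: `T` is transitive on the primes above `Q ∩ Λ` and fixes `Q`).  Take `U ⊇ T` open with
`c, ζ ∈ K_U` and `below U Q ≠ below U Q'`; V9: `x ∈ K_U` close to `c` at `Q` and to `1` at `Q'`; L1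
twice: `x / c` and `x` are `ℓ`-th powers in `Λ`, so `c` is, so `γ ∈ Λ`. -/
theorem lc_unique_prime (hE : RadClosed E) {τ : Gal(E/N)} (hτ : IsProL ℓ τ) (hτ1 : τ ≠ 1)
    (Q' : Ideal (𝓞 E)) [Q'.IsMaximal] (h : τ ∈ decomp N Q) (h' : τ ∈ decomp N Q') : Q' = Q := by
  have hℓ : ℓ.Prime := Fact.out
  have hℓE : (ℓ : E) ≠ 0 := Nat.cast_ne_zero.2 hℓ.ne_zero
  set T : Subgroup Gal(E/N) := lcCl τ with hT
  have hTc : IsClosed (T : Set Gal(E/N)) := prof_cl_isClosed τ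
  have hTQ : T ≤ decomp N Q :=
    Subgroup.topologicalClosure_minimal _ ((Subgroup.zpowers_le).2 h) (lc_decomp_isClosed Q)
  have hTQ' : T ≤ decomp N Q' :=
    Subgroup.topologicalClosure_minimal _ ((Subgroup.zpowers_le).2 h') (lc_decomp_isClosed Q')
  have hpro : ∀ f ∈ T, IsProL ℓ f := fun f hf => prof_isProL_of_mem_cl hτ hf
  obtain ⟨ζ, hζ⟩ := hE.prim ℓ hℓ.pos
  have hζT : ζ ∈ fld T :=
    lc_mem_fld_iff.2 fun f hf => kum_zeta_fixed (hpro f hf) hζ.pow_eq_one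
  -- a non-trivial character of `T`
  have hbot : IsClosed (((⊥ : Subgroup Gal(E/N)) : Subgroup Gal(E/N)) : Set Gal(E/N)) := by
    rw [Subgroup.coe_bot]
    exact isClosed_singleton
  have hne : (⊥ : Subgroup Gal(E/N)) ≠ T := by
    intro hbT
    have : τ ∈ (⊥ : Subgroup Gal(E/N)) := hbT ▸ prof_self_mem_cl τ
    exact hτ1 (Subgroup.mem_bot.1 this)
  obtain ⟨c, hc, hc1, -⟩ := prof_frattini hTc hbot hpro bot_le hne
  obtain ⟨γ, hγ0, hγℓ, hγ⟩ := kum_exists hTc hζ hζT c hc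
  have hγT : γ ∉ fld T := by
    intro hmem
    apply hc1
    ext f
    have h1 := hγ f
    rw [lc_mem_fld_iff.1 hmem f.1 f.2] at h1
    have h2 : ζ ^ (Multiplicative.toAdd (c f)).val = 1 := by
      have : 1 * γ = ζ ^ (Multiplicative.toAdd (c f)).val * γ := by rw [one_mul]; exact h1
      exact (mul_right_cancel₀ hγ0 this).symm
    have h3 := hζ.dvd_of_pow_eq_one _ h2
    have h4 : (Multiplicative.toAdd (c f)).val = 0 :=
      Nat.eq_zero_of_dvd_of_lt h3 (ZMod.val_lt _)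
    have h5 : Multiplicative.toAdd (c f) = 0 := (ZMod.val_eq_zero _).1 h4
    exact h5
  by_contra hQQ
  -- `Q` and `Q'` differ on the integers of `fld T`
  obtain ⟨y₀, hy₀T, hy₀⟩ : ∃ y : 𝓞 E, (y : E) ∈ fld T ∧ ¬ (y ∈ Q ↔ y ∈ Q') := by
    by_contra hcon
    push Not at hcon
    obtain ⟨g, hg, hgQ⟩ := lc_transitive Q hTc Q' hcon
    apply hQQ
    rw [hgQ]
    exact MulAction.mem_stabilizer_iff.1 (hTQ hg)
  obtain ⟨U, hUo, hTU, hUS⟩ := lc_exists_open_fixing (Z := T) ({γ ^ ℓ, ζ, (y₀ : E)} : Set E) (by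
    intro x hx
    rcases hx with rfl | rfl | rfl
    · exact hγℓ
    · exact hζT
    · exact hy₀T)
  have hcU : γ ^ ℓ ∈ fld U := hUS _ (by simp)
  have hyU : (y₀ : E) ∈ fld U := hUS _ (by simp)
  have hbel : below U Q ≠ below U Q' := lc_below_ne Q Q' hyU hy₀
  have hc0 : γ ^ ℓ ≠ 0 := pow_ne_zero _ hγ0
  obtain ⟨t, ht0, ht1, ht2⟩ := lc_exists_small (ℓ := ℓ) Q Q' hc0
  obtain ⟨x, hxU, hx1, hx2⟩ := lc_weak_approx Q hUo Q' hbel hcU (fld U).one_mem ht0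
  have hxT : x ∈ fld T := lc_fld_anti hTU hxU
  -- Hensel at `Q'`
  obtain ⟨c₂, hc₂T, hc₂⟩ := lc_hensel_root (ℓ := ℓ) Q' hE hTQ' hxT (lt_of_le_of_lt hx2 ht2)
  -- Hensel at `Q`
  have hclose : lcv Q (x / γ ^ ℓ - 1) < lcv Q (ℓ : E) ^ 2 := by
    have e : x / γ ^ ℓ - 1 = (x - γ ^ ℓ) / γ ^ ℓ := by field_simp
    rw [e, map_div₀, div_lt_iff₀ (lc_val_pos Q hc0), mul_comm]
    exact lt_of_le_of_lt hx1 ht1
  obtain ⟨c₁, hc₁T, hc₁⟩ := lc_hensel_root (ℓ := ℓ) Q hE hTQ ((fld T).div_mem hxT hγℓ) hclose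
  have hx0 : x ≠ 0 := by
    rintro rfl
    have h1 := lt_of_le_of_lt hx2 ht2
    rw [zero_sub, Valuation.map_neg, map_one] at h1
    have h2 : lcv Q' (ℓ : E) ^ 2 ≤ 1 := by
      have : lcv Q' (ℓ : E) ≤ 1 := by
        have h3 := lc_val_le_one Q' (ℓ : 𝓞 E)
        have e : (((ℓ : 𝓞 E) : 𝓞 E) : E) = (ℓ : E) := by simp
        rwa [e] at h3
      exact pow_le_one₀ zero_le this
    exact absurd (lt_of_lt_of_le h1 h2) (lt_irrefl _)
  have hc₁0 : c₁ ≠ 0 := by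
    rintro rfl
    rw [zero_pow hℓ.ne_zero] at hc₁
    exact div_ne_zero hx0 hc0 hc₁.symm
  have hc₂0 : c₂ ≠ 0 := by
    rintro rfl
    rw [zero_pow hℓ.ne_zero] at hc₂
    exact hx0 hc₂.symm
  set d : E := c₂ / c₁ with hd
  have hd0 : d ≠ 0 := div_ne_zero hc₂0 hc₁0
  have hdT : d ∈ fld T := (fld T).div_mem hc₂T hc₁T
  have hdℓ : d ^ ℓ = γ ^ ℓ := by
    rw [hd, div_pow, hc₂, hc₁]
    field_simp
  have hroot : (γ / d) ^ ℓ = 1 := by rw [div_pow, hdℓ, div_self hc0]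
  haveI : NeZero ℓ := ⟨hℓ.ne_zero⟩
  obtain ⟨i, -, hi⟩ := hζ.eq_pow_of_pow_eq_one hroot
  apply hγT
  have : γ = ζ ^ i * d := by rw [hi, div_mul_cancel₀ _ hd0]
  rw [this]
  exact (fld T).mul_mem (pow_mem hζT i) hdT

end

end Claimed.Agent.R239
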