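/-
Row 239, package LC (local correspondence, Thm 2.4').  Sub-captain: helper75.
FILE LC/BR_a.lean = subtask LC.BR-a.  ONE OWNER; replace every sorry IN PLACE (statements frozen: ask helper75).
BRIDGE, part a: the number field `K_U = fld U`, its places, and the comparison of the `v`-adic valuation of
`K_U` (Mathlib `HeightOneSpectrum.valuation`, used by the CFT package) with `lcv P` on `E`.
-/
import Claimed.Agent.R239.LC.VAL_b
import Claimed.Agent.R239.CFT.Defs

set_option autoImplicit false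
set_option linter.unusedSectionVars false

namespace Claimed.Agent.R239

open NumberField IsDedekindDomain
open scoped Pointwise

section

variable {N E : Type*} [Field N] [NumberField N] [Field E] [Algebra N E] [IsGalois N E]
  [CharZero E] [Algebra.IsAlgebraic ℚ E]
variable {U : Subgroup Gal(E/N)}

/-- B0.  Sketch: `U` open contains `fixingSubgroup F` for a finite subextension `F` (Krull topology), so
`fld U ≤ F` is finite over `N`, hence over `ℚ`. -/
theorem lc_numberField (hU : IsOpen (U : Set Gal(E/N))) : NumberField (fld U) := by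
  have hcl : IsClosed (U : Set Gal(E/N)) := U.isClosed_of_isOpen hU
  have h1 : (fld U).fixingSubgroup = U :=
    InfiniteGalois.fixingSubgroup_fixedField (⟨U, hcl⟩ : ClosedSubgroup Gal(E/N))
  have h2 : FiniteDimensional N (fld U) := by
    rw [← InfiniteGalois.isOpen_iff_finite, h1]
    exact hU
  have h3 : FiniteDimensional ℚ (fld U) := FiniteDimensional.trans ℚ N (fld U)
  exact { to_charZero := inferInstance, to_finiteDimensional := h3 }

/-- B1 (lying over).  Sketch: `𝓞 E` is integral over `𝓞 (fld U)`: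
`Ideal.exists_ideal_over_maximal_of_isIntegral`. -/
theorem lc_exists_above [NumberField (fld U)] (v : CFT.Pl (fld U)) :
    ∃ P : Ideal (𝓞 E), P.IsMaximal ∧ below U P = v.asIdeal := by
  have : v.asIdeal.IsMaximal := v.isMaximal
  have hinj : Function.Injective (algebraMap (𝓞 (fld U)) (𝓞 E)) :=
    FaithfulSMul.algebraMap_injective _ _
  have hker : RingHom.ker (algebraMap (𝓞 (fld U)) (𝓞 E)) ≤ v.asIdeal := by
    rw [(RingHom.injective_iff_ker_eq_bot (algebraMap (𝓞 (fld U)) (𝓞 E))).mp hinj]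
    exact bot_le
  obtain ⟨Q, hQ, hQv⟩ := Ideal.exists_ideal_over_maximal_of_isIntegral (S := 𝓞 E) v.asIdeal hker
  exact ⟨Q, hQ, hQv⟩

theorem lc_coe_algebraMap (d : 𝓞 (fld U)) :
    ((algebraMap (𝓞 (fld U)) (fld U) d : fld U) : E) = ((algebraMap (𝓞 (fld U)) (𝓞 E) d : 𝓞 E) : E) :=
  rfl

theorem lc_mem_below_iff (P : Ideal (𝓞 E)) (d : 𝓞 (fld U)) :
    d ∈ below U P ↔ algebraMap (𝓞 (fld U)) (𝓞 E) d ∈ P := Iff.rfl

/-- `v(z) ≤ 1 → v_P(z) ≤ 1` -/
theorem lc_val_le_one_of_le_one [NumberField (fld U)] (v : CFT.Pl (fld U)) (P : Ideal (𝓞 E))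
    [P.IsMaximal] (h : below U P = v.asIdeal) {z : fld U} (hz : v.valuation (fld U) z ≤ 1) :
    lcv P (z : E) ≤ 1 := by
  obtain ⟨n, d, hnd⟩ := v.exists_primeCompl_mul_eq_of_integer z hz
  rw [lc_val_le_one_iff]
  refine ⟨algebraMap _ _ n, algebraMap _ _ (d : 𝓞 (fld U)), ?_, ?_⟩
  · rw [← lc_mem_below_iff, h]
    exact d.2
  · rw [← lc_coe_algebraMap, ← lc_coe_algebraMap, ← hnd]
    rfl

/-- `v(z) < 1 → v_P(z) < 1` -/
theorem lc_val_lt_one_of_lt_one [NumberField (fld U)] (v : CFT.Pl (fld U)) (P : Ideal (𝓞 E))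
    [P.IsMaximal] (h : below U P = v.asIdeal) {z : fld U} (hz : v.valuation (fld U) z < 1) :
    lcv P (z : E) < 1 := by
  obtain ⟨n, d, hnd⟩ := v.exists_primeCompl_mul_eq_of_integer z hz.le
  have hd : v.valuation (fld U) (algebraMap (𝓞 (fld U)) (fld U) d) = 1 :=
    v.valuation_eq_one_iff_notMem.mpr d.2
  have hn : n ∈ v.asIdeal := by
    rw [← v.valuation_lt_one_iff_mem (K := fld U)]
    change v.valuation (fld U) (algebraMap (𝓞 (fld U)) (fld U) n) < 1
    rw [← hnd, map_mul, hd, mul_one]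
    exact hz
  have hd' : lcv P ((algebraMap (𝓞 (fld U)) (𝓞 E) (d : 𝓞 (fld U)) : 𝓞 E) : E) = 1 := by
    apply lc_val_eq_one
    rw [← lc_mem_below_iff, h]
    exact d.2
  have hn' : lcv P ((algebraMap (𝓞 (fld U)) (𝓞 E) n : 𝓞 E) : E) < 1 := by
    rw [lc_val_lt_one_iff, ← lc_mem_below_iff, h]
    exact hn
  have e : (z : E) * ((algebraMap (𝓞 (fld U)) (𝓞 E) (d : 𝓞 (fld U)) : 𝓞 E) : E) =
      ((algebraMap (𝓞 (fld U)) (𝓞 E) n : 𝓞 E) : E) := by
    rw [← lc_coe_algebraMap, ← lc_coe_algebraMap, ← hnd]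
    rfl
  rw [← e, map_mul, hd', mul_one] at hn'
  exact hn'

theorem lc_val_le_one_iff_le_one [NumberField (fld U)] (v : CFT.Pl (fld U)) (P : Ideal (𝓞 E))
    [P.IsMaximal] (h : below U P = v.asIdeal) (z : fld U) :
    v.valuation (fld U) z ≤ 1 ↔ lcv P (z : E) ≤ 1 := by
  refine ⟨lc_val_le_one_of_le_one v P h, fun hz => ?_⟩
  by_contra hcon
  rw [not_le] at hcon
  have hz0 : z ≠ 0 := by
    rintro rfl
    rw [map_zero] at hcon
    exact absurd hcon (by simp)
  have h1 : v.valuation (fld U) z⁻¹ < 1 := by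
    rw [map_inv₀]
    exact inv_lt_one_of_one_lt₀ hcon
  have h2 := lc_val_lt_one_of_lt_one v P h h1
  have h3 : ((z⁻¹ : fld U) : E) = (z : E)⁻¹ := rfl
  rw [h3, map_inv₀] at h2
  have hz0' : (z : E) ≠ 0 := fun h0 => hz0 (Subtype.ext h0)
  have h4 : 1 < lcv P (z : E) := by
    rwa [inv_lt_one₀ (lc_val_pos P hz0')] at h2
  exact absurd hz (not_le.mpr h4)

/-- B2.  Sketch: both sides say that `x / y` lies in the localisation at the prime (for `y ≠ 0`):
`(𝓞 K)_v = K ∩ (𝓞 E)_P` (`⊆` clear; `⊇`: a DVR is a maximal proper subring of its fraction field, or: if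
`v(z) > 1` then `z⁻¹ ∈ v (𝓞 K)_v ⊆ P (𝓞 E)_P`, so `z ∉ (𝓞 E)_P`). -/
theorem lc_val_compare [NumberField (fld U)] (v : CFT.Pl (fld U)) (P : Ideal (𝓞 E)) [P.IsMaximal]
    (h : below U P = v.asIdeal) (x y : fld U) :
    v.valuation (fld U) x ≤ v.valuation (fld U) y ↔ lcv P (x : E) ≤ lcv P (y : E) := by
  by_cases hy : y = 0
  · subst hy
    have e0 : ((0 : fld U) : E) = 0 := rfl
    rw [e0, map_zero, map_zero, le_zero_iff, le_zero_iff, map_eq_zero, map_eq_zero]
    exact ⟨fun hx => by rw [hx]; rfl, fun hx => Subtype.ext hx⟩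
  · have hy' : (y : E) ≠ 0 := fun h0 => hy (Subtype.ext h0)
    have h1 := lc_val_le_one_iff_le_one v P h (x / y)
    have h3 : ((x / y : fld U) : E) = (x : E) / (y : E) := rfl
    rw [h3, map_div₀, map_div₀, div_le_one₀ (lc_val_pos P hy'),
      div_le_one₀ (zero_lt_iff.mpr ((map_ne_zero _).mpr hy))] at h1
    exact h1

/-- B3 (the two notions of "arbitrarily close" agree).  Sketch: `π ∈ K_U` with `v(π) = exp(-1)`; B2 turns
`v(x) ≤ exp(-n) = v(π^n)` into `lcv P x ≤ lcv P (π^n)`; V4 (archimedean) compares `lcv P (π^n)` with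
`lcv P t`. -/
theorem lc_close_iff [NumberField (fld U)] (v : CFT.Pl (fld U)) (P : Ideal (𝓞 E)) [P.IsMaximal]
    (h : below U P = v.asIdeal) (S : Set (fld U)) :
    (∀ n : ℕ, ∃ x ∈ S, v.valuation (fld U) x ≤ WithZero.exp (-(n : ℤ))) ↔
      ∀ t : E, t ≠ 0 → ∃ x ∈ S, lcv P (x : E) ≤ lcv P t := by
  obtain ⟨π, hπ⟩ := v.valuation_exists_uniformizer (fld U)
  have hπn : ∀ n : ℕ, v.valuation (fld U) (π ^ n) = WithZero.exp (-(n : ℤ)) := by
    intro n
    rw [map_pow, hπ, ← WithZero.exp_nsmul]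
    congr 1
    simp
  have hπ1 : lcv P (π : E) < 1 := by
    apply lc_val_lt_one_of_lt_one v P h
    rw [hπ, ← WithZero.exp_zero, WithZero.exp_lt_exp]
    norm_num
  have hπ0 : π ≠ 0 := by
    rintro rfl
    rw [map_zero] at hπ
    exact WithZero.exp_ne_zero hπ.symm
  have hcoe : ∀ n : ℕ, ((π ^ n : fld U) : E) = (π : E) ^ n := fun n => rfl
  constructor
  · intro H t ht
    obtain ⟨n, hn⟩ := lc_val_arch P hπ1 ht
    obtain ⟨x, hxS, hx⟩ := H n
    refine ⟨x, hxS, le_trans ?_ hn⟩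
    rw [← hπn, lc_val_compare v P h, hcoe] at hx
    exact hx
  · intro H n
    have hπ0' : (π : E) ≠ 0 := fun h0 => hπ0 (Subtype.ext h0)
    obtain ⟨x, hxS, hx⟩ := H ((π : E) ^ n) (pow_ne_zero _ hπ0')
    refine ⟨x, hxS, ?_⟩
    rw [← hπn, lc_val_compare v P h, hcoe]
    exact hx

end

end Claimed.Agent.R239
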