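/-
Row 239, package LC (local correspondence, Thm 2.4').  Sub-captain: helper75.
FILE LC/BR_b.lean = subtask LC.BR-b (owner helper16).  No sorry.
BRIDGE, part b: the Kummer extension `L = K(α)` of `K = fld U` as a Mathlib field extension, and
`Algebra.norm K = ` norm form `lcNF`.  General forms (any fields `K ⊆ E`): `lcbr_finrank`, `lcbr_isGalois`, `lcbr_coeffs`,
`lcbr_mem`, `lcbr_norm`.
-/
import Claimed.Agent.R239.LC.Basic
import Claimed.Agent.R239.CFT.P6a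

set_option autoImplicit false
set_option linter.unusedSectionVars false

namespace Claimed.Agent.R239

open NumberField
open scoped Pointwise

/-! ### general form: `K` a field, `E` an extension, `α ^ ℓ = a ∈ K` -/

section gen

open Polynomial IntermediateField

variable {K E : Type*} [Field K] [Field E] [Algebra K E] {ℓ : ℕ}

theorem lcbr_aeval {α : E} {a : K} (ha : α ^ ℓ = algebraMap K E a) :
    aeval α (X ^ ℓ - C a : K[X]) = 0 := by
  simp [ha]

theorem lcbr_isIntegral (hℓ : 0 < ℓ) {α : E} {a : K} (ha : α ^ ℓ = algebraMap K E a) :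
    IsIntegral K α :=
  ⟨_, monic_X_pow_sub_C _ hℓ.ne', lcbr_aeval ha⟩

theorem lcbr_finrank (hℓ : ℓ.Prime) {ζ : K} (hζ : IsPrimitiveRoot ζ ℓ) {α : E} {a : K}
    (ha : α ^ ℓ = algebraMap K E a) (hαK : α ∉ Set.range (algebraMap K E)) :
    Module.finrank K K⟮α⟯ = ℓ := by
  have hirr : Irreducible (X ^ ℓ - C a : K[X]) := by
    refine X_pow_sub_C_irreducible_of_prime hℓ fun b hb => hαK ?_
    by_cases hb0 : b = 0
    · subst hb0
      rw [zero_pow hℓ.ne_zero] at hb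
      rw [← hb, map_zero] at ha
      exact ⟨0, by rw [map_zero, pow_eq_zero_iff hℓ.ne_zero |>.1 ha]⟩
    · have h1 : α ^ ℓ = (algebraMap K E b) ^ ℓ := by rw [ha, ← hb, map_pow]
      obtain ⟨i, -, hi⟩ := CFT.kum_exists_zeta hℓ.pos hζ
        (x := algebraMap K E b) (y := α) (by simpa using hb0) h1
      exact ⟨ζ ^ i * b, by rw [map_mul, hi]⟩
  rw [adjoin.finrank (lcbr_isIntegral hℓ.pos ha),
    ← minpoly.eq_of_irreducible_of_monic hirr (lcbr_aeval ha) (monic_X_pow_sub_C _ hℓ.ne_zero),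
    natDegree_X_pow_sub_C]

theorem lcbr_isGalois (hℓ : 0 < ℓ) [CharZero K] {ζ : K} (hζ : IsPrimitiveRoot ζ ℓ) {α : E} (hα0 : α ≠ 0)
    {a : K} (ha : α ^ ℓ = algebraMap K E a) : IsGalois K K⟮α⟯ := by
  have ha0 : a ≠ 0 := by
    rintro rfl
    rw [map_zero] at ha
    exact hα0 (pow_eq_zero_iff hℓ.ne' |>.1 ha)
  set p : K[X] := X ^ ℓ - C a with hp
  have hsplit : (p.map (algebraMap K E)).Splits := by
    have := X_pow_sub_C_splits_of_isPrimitiveRoot
      (hζ.map_of_injective (algebraMap K E).injective) ha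
    simpa [hp] using this
  have hsep : p.Separable := separable_X_pow_sub_C a (by exact_mod_cast hℓ.ne') ha0
  have heq : K⟮α⟯ = adjoin K (p.rootSet E) := by
    apply le_antisymm
    · rw [adjoin_simple_le_iff]
      apply subset_adjoin
      rw [mem_rootSet]
      exact ⟨X_pow_sub_C_ne_zero hℓ a, lcbr_aeval ha⟩
    · rw [adjoin_le_iff]
      intro β hβ
      rw [mem_rootSet] at hβ
      have h1 : β ^ ℓ = α ^ ℓ := by
        have := hβ.2
        simp only [hp, map_sub, map_pow, aeval_X, aeval_C, sub_eq_zero] at this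
        rw [this, ha]
      obtain ⟨i, -, hi⟩ := CFT.kum_exists_zeta hℓ hζ hα0 h1
      rw [hi]
      exact mul_mem (IntermediateField.algebraMap_mem _ _) (mem_adjoin_simple_self K α)
  have : p.IsSplittingField K (adjoin K (p.rootSet E)) := adjoin_rootSet_isSplittingField hsplit
  have hG : IsGalois K (adjoin K (p.rootSet E)) := IsGalois.of_separable_splitting_field hsep
  rw [heq]
  exact hG

theorem lcbr_coeffs (hℓ : 0 < ℓ) {α : E} {a : K} (ha : α ^ ℓ = algebraMap K E a) (y : K⟮α⟯) :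
    ∃ c : ℕ → K, (y : E) = ∑ j ∈ Finset.range ℓ, algebraMap K E (c j) * α ^ j := by
  have hy : (y : E) ∈ K⟮α⟯.toSubalgebra := y.2
  rw [adjoin_simple_toSubalgebra_of_isAlgebraic (lcbr_isIntegral hℓ ha).isAlgebraic,
    Algebra.adjoin_singleton_eq_range_aeval] at hy
  obtain ⟨f, hf⟩ := hy
  have hmon : (X ^ ℓ - C a : K[X]).Monic := monic_X_pow_sub_C _ hℓ.ne'
  have hdeg : (f %ₘ (X ^ ℓ - C a)).natDegree < ℓ := by
    have h1 := natDegree_modByMonic_lt f hmon (by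
      intro h
      have := congrArg natDegree h
      rw [natDegree_X_pow_sub_C, natDegree_one] at this
      exact hℓ.ne' this)
    rwa [natDegree_X_pow_sub_C] at h1
  refine ⟨fun j => (f %ₘ (X ^ ℓ - C a)).coeff j, ?_⟩
  have h2 : aeval α (f %ₘ (X ^ ℓ - C a)) = aeval α f :=
    aeval_modByMonic_eq_self_of_root (lcbr_aeval ha)
  have hf' : aeval α f = (y : E) := hf
  rw [← hf', ← h2, aeval_eq_sum_range' hdeg]
  simp only [Algebra.smul_def]

theorem lcbr_mem {α : E} (c : ℕ → K) :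
    ∑ j ∈ Finset.range ℓ, algebraMap K E (c j) * α ^ j ∈ K⟮α⟯ :=
  sum_mem fun j _ => mul_mem (IntermediateField.algebraMap_mem _ _) (pow_mem (mem_adjoin_simple_self K α) j)

theorem lcbr_norm (hℓ : ℓ.Prime) [CharZero K] {ζ : K} (hζ : IsPrimitiveRoot ζ ℓ) {α : E} {a : K}
    (ha : α ^ ℓ = algebraMap K E a) (hαK : α ∉ Set.range (algebraMap K E)) (c : ℕ → K) (y : K⟮α⟯)
    (hy : (y : E) = ∑ j ∈ Finset.range ℓ, algebraMap K E (c j) * α ^ j) :
    algebraMap K E (Algebra.norm K y)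
      = ∏ i ∈ Finset.range ℓ, ∑ j ∈ Finset.range ℓ,
          algebraMap K E (c j) * (algebraMap K E ζ ^ i * α) ^ j := by
  classical
  have hα0 : α ≠ 0 := by
    rintro rfl
    exact hαK ⟨0, map_zero _⟩
  have hint := lcbr_isIntegral hℓ.pos ha
  have hG : IsGalois K K⟮α⟯ := lcbr_isGalois hℓ.pos hζ hα0 ha
  have hfd : FiniteDimensional K K⟮α⟯ := adjoin.finiteDimensional hint
  have hcard : Fintype.card Gal(K⟮α⟯/K) = ℓ := by
    rw [← Nat.card_eq_fintype_card, IsGalois.card_aut_eq_finrank, lcbr_finrank hℓ hζ ha hαK]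
  set g : K⟮α⟯ := AdjoinSimple.gen K α with hg
  have hgE : (g : E) = α := AdjoinSimple.coe_gen K α
  have hg0 : g ≠ 0 := by
    intro h
    apply hα0
    rw [← hgE, h]; rfl
  have hgℓ : g ^ ℓ = algebraMap K K⟮α⟯ a := by
    apply Subtype.ext
    show ((g ^ ℓ : K⟮α⟯) : E) = algebraMap K E a
    have e1 : ((g ^ ℓ : K⟮α⟯) : E) = (g : E) ^ ℓ := rfl
    rw [e1, hgE, ha]
  have hex : ∀ σ : Gal(K⟮α⟯/K), ∃ i : Fin ℓ, σ g = algebraMap K K⟮α⟯ (ζ ^ (i : ℕ)) * g := by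
    intro σ
    have h1 : (σ g) ^ ℓ = g ^ ℓ := by rw [← map_pow, hgℓ, σ.commutes]
    obtain ⟨i, hi, e⟩ := CFT.kum_exists_zeta hℓ.pos hζ hg0 h1
    exact ⟨⟨i, hi⟩, e⟩
  choose idx hidx using hex
  have hinj : Function.Injective idx := by
    intro σ τ h
    have h1 : σ g = τ g := by rw [hidx σ, hidx τ, h]
    apply AlgEquiv.coe_toAlgHom_injective
    apply (adjoin.powerBasis hint).algHom_ext
    rw [adjoin.powerBasis_gen]
    exact h1
  have hbij : Function.Bijective idx := by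
    rw [Fintype.bijective_iff_injective_and_card]
    exact ⟨hinj, by rw [hcard, Fintype.card_fin]⟩
  have hyL : y = ∑ j ∈ Finset.range ℓ, algebraMap K K⟮α⟯ (c j) * g ^ j := by
    apply Subtype.ext
    rw [hy]
    have : ((∑ j ∈ Finset.range ℓ, algebraMap K K⟮α⟯ (c j) * g ^ j : K⟮α⟯) : E)
        = ∑ j ∈ Finset.range ℓ, ((algebraMap K K⟮α⟯ (c j) * g ^ j : K⟮α⟯) : E) :=
      map_sum (algebraMap K⟮α⟯ E) _ _
    rw [this]
    refine Finset.sum_congr rfl fun j _ => ?_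
    have e2 : ((algebraMap K K⟮α⟯ (c j) * g ^ j : K⟮α⟯) : E)
        = algebraMap K E (c j) * (g : E) ^ j := rfl
    rw [e2, hgE]
  have hσy : ∀ σ : Gal(K⟮α⟯/K), ((σ y : K⟮α⟯) : E)
      = ∑ j ∈ Finset.range ℓ, algebraMap K E (c j) * (algebraMap K E ζ ^ (idx σ : ℕ) * α) ^ j := by
    intro σ
    rw [hyL, map_sum]
    have : ((∑ j ∈ Finset.range ℓ, σ (algebraMap K K⟮α⟯ (c j) * g ^ j) : K⟮α⟯) : E)
        = ∑ j ∈ Finset.range ℓ, ((σ (algebraMap K K⟮α⟯ (c j) * g ^ j) : K⟮α⟯) : E) :=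
      map_sum (algebraMap K⟮α⟯ E) _ _
    rw [this]
    refine Finset.sum_congr rfl fun j _ => ?_
    rw [map_mul, σ.commutes, map_pow, hidx σ]
    have e3 : ((algebraMap K K⟮α⟯ (c j) * (algebraMap K K⟮α⟯ (ζ ^ (idx σ : ℕ)) * g) ^ j : K⟮α⟯) : E)
        = algebraMap K E (c j) * (algebraMap K E (ζ ^ (idx σ : ℕ)) * (g : E)) ^ j := rfl
    rw [e3, hgE, map_pow]
  have h1 := Algebra.norm_eq_prod_automorphisms K y
  have h2 : algebraMap K E (Algebra.norm K y) = ((algebraMap K K⟮α⟯ (Algebra.norm K y) : K⟮α⟯) : E) := rfl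
  rw [h2, h1]
  have h3 : ((∏ σ : Gal(K⟮α⟯/K), σ y : K⟮α⟯) : E) = ∏ σ : Gal(K⟮α⟯/K), ((σ y : K⟮α⟯) : E) :=
    map_prod (algebraMap K⟮α⟯ E) _ _
  rw [h3]
  simp only [hσy]
  rw [hbij.prod_comp (fun i : Fin ℓ => ∑ j ∈ Finset.range ℓ,
    algebraMap K E (c j) * (algebraMap K E ζ ^ (i : ℕ) * α) ^ j)]
  exact Fin.prod_univ_eq_prod_range (fun i => ∑ j ∈ Finset.range ℓ,
    algebraMap K E (c j) * (algebraMap K E ζ ^ i * α) ^ j) ℓ

end gen

section

variable {N E : Type*} [Field N] [NumberField N] [Field E] [Algebra N E] [IsGalois N E]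
variable {ℓ : ℕ} [Fact ℓ.Prime]
variable (U : Subgroup Gal(E/N)) (α : E)

/-- the field `K_U(α)`, as an intermediate field of `E / K_U` -/
abbrev lcKum : IntermediateField (fld U) E := IntermediateField.adjoin (fld U) {α}

variable {U α}

omit [NumberField N] [IsGalois N E] [Fact ℓ.Prime] in
theorem lcbr_pow_eq (hα : α ^ ℓ ∈ fld U) : α ^ ℓ = algebraMap (fld U) E ⟨α ^ ℓ, hα⟩ := rfl

omit [NumberField N] [IsGalois N E] [Fact ℓ.Prime] in
theorem lcbr_prim {ζ : E} (hζ : IsPrimitiveRoot ζ ℓ) (hζU : ζ ∈ fld U) :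
    IsPrimitiveRoot (⟨ζ, hζU⟩ : fld U) ℓ :=
  IsPrimitiveRoot.of_map_of_injective (f := algebraMap (fld U) E) (hf := (algebraMap (fld U) E).injective) hζ

omit [NumberField N] [IsGalois N E] in
theorem lcbr_notMem_range (hαU : α ∉ fld U) : α ∉ Set.range (algebraMap (fld U) E) := by
  rintro ⟨x, rfl⟩
  exact hαU x.2

omit [IsGalois N E] in
theorem lcbr_charZero : CharZero (fld U) :=
  charZero_of_injective_algebraMap (algebraMap N (fld U)).injective

/-- B4. -/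
theorem lc_kum_numberField [NumberField (fld U)] (hα : α ^ ℓ ∈ fld U) : NumberField (lcKum U α) := by
  have : FiniteDimensional (fld U) (lcKum U α) :=
    IntermediateField.adjoin.finiteDimensional
      (lcbr_isIntegral (Fact.out : ℓ.Prime).pos (lcbr_pow_eq hα))
  exact NumberField.of_module_finite (fld U) (lcKum U α)

/-- B5. -/
theorem lc_kum_finrank {ζ : E} (hζ : IsPrimitiveRoot ζ ℓ) (hζU : ζ ∈ fld U) (hα : α ^ ℓ ∈ fld U)
    (hαU : α ∉ fld U) : Module.finrank (fld U) (lcKum U α) = ℓ :=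
  lcbr_finrank Fact.out (lcbr_prim hζ hζU) (lcbr_pow_eq hα) (lcbr_notMem_range hαU)

/-- B6. -/
theorem lc_kum_isGalois {ζ : E} (hζ : IsPrimitiveRoot ζ ℓ) (hζU : ζ ∈ fld U) (hα0 : α ≠ 0)
    (hα : α ^ ℓ ∈ fld U) : IsGalois (fld U) (lcKum U α) := by
  have := lcbr_charZero (U := U)
  exact lcbr_isGalois (Fact.out : ℓ.Prime).pos (lcbr_prim hζ hζU) hα0 (lcbr_pow_eq hα)

/-- B7 (coordinates). -/
theorem lc_kum_coeffs (hα : α ^ ℓ ∈ fld U) (y : lcKum U α) :
    ∃ c : ℕ → E, (∀ j, c j ∈ fld U) ∧ (y : E) = ∑ j ∈ Finset.range ℓ, c j * α ^ j := by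
  obtain ⟨c, hc⟩ := lcbr_coeffs (Fact.out : ℓ.Prime).pos (lcbr_pow_eq hα) y
  exact ⟨fun j => (c j : E), fun j => (c j).2, hc⟩

/-- B7'. -/
theorem lc_kum_mem {c : ℕ → E} (hc : ∀ j, c j ∈ fld U) :
    ∑ j ∈ Finset.range ℓ, c j * α ^ j ∈ lcKum U α :=
  lcbr_mem (K := fld U) (fun j => (⟨c j, hc j⟩ : fld U))

/-- B8 (norm = norm form). -/
theorem lc_kum_norm {ζ : E} (hζ : IsPrimitiveRoot ζ ℓ) (hζU : ζ ∈ fld U) (hα : α ^ ℓ ∈ fld U)
    (hαU : α ∉ fld U) {c : ℕ → E} (hc : ∀ j, c j ∈ fld U) (y : lcKum U α)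
    (hy : (y : E) = ∑ j ∈ Finset.range ℓ, c j * α ^ j) :
    ((Algebra.norm (fld U) y : fld U) : E) = lcNF ℓ ζ α c := by
  have := lcbr_charZero (U := U)
  exact lcbr_norm Fact.out (lcbr_prim hζ hζU) (lcbr_pow_eq hα) (lcbr_notMem_range hαU)
    (fun j => (⟨c j, hc j⟩ : fld U)) y hy

end

end Claimed.Agent.R239
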