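/-
Row 239, package LC (local correspondence, Thm 2.4').  Sub-captain: helper75.
FILE LC/KUM_b.lean = subtask LC.KUM-b.  ONE OWNER (see table subtask); the owner replaces every sorry IN PLACE
(statements are frozen: ask helper75 before changing one) and may add private helper lemmas / helper files
LC/KUM_b_*.lean.  You may import further LC files that do not (transitively) import this one.
Notation of the sketches: G' = Gal(E/N), v_P = lcv P, D_P = decomp N P, I_P = inert N P, cl(τ) = lcCl τ,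
K_U = fld U, K_U^h = fld (U ⊓ D_P) (henselisation of K_U at P inside E).  Labels (P4, V3, L1, ...) refer to
the doc-strings of the other LC files; index: LC/Chain.lean.
-/
import Claimed.Agent.R239.LC.Basic

set_option autoImplicit false

namespace Claimed.Agent.R239

open NumberField
open scoped Pointwise

section Helpers

open Polynomial

variable {N E : Type*} [Field N] [Field E] [Algebra N E]
variable {ℓ : ℕ} {Z : Subgroup Gal(E/N)} {ζ α : E}

/-- polynomial form of `lcIsNorm`. -/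
theorem lc_kumb_iff_poly (hℓ : ℓ ≠ 0) (hζ : ζ ^ ℓ = 1) (hα : α ^ ℓ ∈ fld Z) {b : E} :
    lcIsNorm ℓ Z ζ α b ↔
      ∃ R : (fld Z)[X], ∏ i ∈ Finset.range ℓ, aeval (ζ ^ i * α) R = b := by
  constructor
  · rintro ⟨c, hc, rfl⟩
    refine ⟨∑ j ∈ Finset.range ℓ, C (⟨c j, hc j⟩ : fld Z) * X ^ j, ?_⟩
    unfold lcNF
    refine Finset.prod_congr rfl fun i _ => ?_
    rw [map_sum]
    refine Finset.sum_congr rfl fun j _ => ?_
    rw [map_mul, aeval_C, map_pow, aeval_X]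
    rfl
  · rintro ⟨R, rfl⟩
    set q : (fld Z)[X] := X ^ ℓ - C (⟨α ^ ℓ, hα⟩ : fld Z) with hq
    have hmon : q.Monic := monic_X_pow_sub_C _ hℓ
    have hdeg : q.natDegree = ℓ := natDegree_X_pow_sub_C
    have hq1 : q ≠ 1 := by
      intro h
      rw [h, natDegree_one] at hdeg
      exact hℓ hdeg.symm
    have hlt : (R %ₘ q).natDegree < ℓ := by
      have := natDegree_modByMonic_lt R hmon hq1
      rwa [hdeg] at this
    refine ⟨fun j => (((R %ₘ q).coeff j : fld Z) : E), fun j => ((R %ₘ q).coeff j).2, ?_⟩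
    unfold lcNF
    refine Finset.prod_congr rfl fun i _ => ?_
    have hroot : aeval (ζ ^ i * α) q = 0 := by
      rw [hq, map_sub, map_pow, aeval_X, aeval_C, mul_pow, ← pow_mul, mul_comm i ℓ, pow_mul, hζ,
        one_pow, one_mul]
      exact sub_self _
    rw [← aeval_modByMonic_eq_self_of_root hroot (p := R), aeval_eq_sum_range' hlt]
    refine Finset.sum_congr rfl fun j _ => ?_
    rw [Algebra.smul_def]
    rfl

/-- the norm form depends only on `α ^ ℓ`. -/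
theorem lc_kumb_NF_congr (hζ : IsPrimitiveRoot ζ ℓ) {α' : E} (h : α ^ ℓ = α' ^ ℓ) (c : ℕ → E) :
    lcNF ℓ ζ α c = lcNF ℓ ζ α' c := by
  have h1 : ∀ β : E, lcNF ℓ ζ β c
      = (((Multiset.range ℓ).map (ζ ^ · * β)).map
          (fun x => ∑ j ∈ Finset.range ℓ, c j * x ^ j)).prod := by
    intro β
    rw [Multiset.map_map]
    rfl
  rw [h1, h1, ← hζ.nthRoots_eq rfl, ← hζ.nthRoots_eq rfl, h]

end Helpers

section

variable {N E : Type*} [Field N] [NumberField N] [Field E] [Algebra N E] [IsGalois N E]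
variable {ℓ : ℕ} [Fact ℓ.Prime]
variable {Z : Subgroup Gal(E/N)} {ζ α : E}

/-- N0 (monotone). -/
theorem lc_isNorm_mono {Z' : Subgroup Gal(E/N)} (h : Z' ≤ Z) {b : E}
    (hb : lcIsNorm ℓ Z ζ α b) : lcIsNorm ℓ Z' ζ α b := by
  obtain ⟨c, hc, hb⟩ := hb
  refine ⟨c, fun j => ?_, hb⟩
  have := hc j
  rw [IntermediateField.mem_fixedField_iff] at this ⊢
  exact fun g hg => this g (h hg)

end

section

variable {N E : Type*} [Field N] [NumberField N] [Field E] [Algebra N E] [IsGalois N E]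
variable {ℓ : ℕ} [Fact ℓ.Prime]
variable {Z : Subgroup Gal(E/N)} {ζ α : E}

/-- N1.  Sketch: multiply `∑ c_j X^j` and `∑ c'_j X^j` modulo `X^ℓ - a`. -/
theorem lc_isNorm_mul (hζ : ζ ^ ℓ = 1) (hα : α ^ ℓ ∈ fld Z) {b b' : E}
    (hb : lcIsNorm ℓ Z ζ α b) (hb' : lcIsNorm ℓ Z ζ α b') : lcIsNorm ℓ Z ζ α (b * b') := by
  have hℓ : ℓ ≠ 0 := (Fact.out : ℓ.Prime).ne_zero
  rw [lc_kumb_iff_poly hℓ hζ hα] at hb hb' ⊢
  obtain ⟨R, rfl⟩ := hb
  obtain ⟨R', rfl⟩ := hb'
  refine ⟨R * R', ?_⟩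
  simp only [map_mul, Finset.prod_mul_distrib]

end

section

variable {N E : Type*} [Field N] [NumberField N] [Field E] [Algebra N E] [IsGalois N E]
variable {ℓ : ℕ} [Fact ℓ.Prime]
variable {Z : Subgroup Gal(E/N)} {ζ α : E}

/-- N2 (split case).  Sketch: solve `∑_j c_j (ζ^i α)^j = b` for `i = 0`, `= 1` for `i ≠ 0`
(Vandermonde / explicit Lagrange interpolation, nodes `ζ^i α ∈ fld Z` distinct). -/
theorem lc_isNorm_split (hζ : IsPrimitiveRoot ζ ℓ) (hζZ : ζ ∈ fld Z) (hα0 : α ≠ 0)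
    (hα : α ∈ fld Z) {b : E} (hb : b ∈ fld Z) : lcIsNorm ℓ Z ζ α b := by
  classical
  have hℓ : ℓ ≠ 0 := (Fact.out : ℓ.Prime).ne_zero
  rw [lc_kumb_iff_poly hℓ hζ.pow_eq_one (pow_mem hα ℓ)]
  let v : ℕ → fld Z := fun i => ⟨ζ ^ i * α, mul_mem (pow_mem hζZ i) hα⟩
  let r : ℕ → fld Z := fun i => if i = 0 then ⟨b, hb⟩ else 1
  have hinj : Set.InjOn v (Finset.range ℓ : Finset ℕ) := by
    intro i hi j hj hij
    have h1 : ζ ^ i * α = ζ ^ j * α := congrArg Subtype.val hij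
    have h2 : ζ ^ i = ζ ^ j := mul_right_cancel₀ hα0 h1
    exact hζ.pow_inj (Finset.mem_range.1 hi) (Finset.mem_range.1 hj) h2
  refine ⟨Lagrange.interpolate (Finset.range ℓ) v r, ?_⟩
  have h3 : ∀ i ∈ Finset.range ℓ,
      Polynomial.aeval (ζ ^ i * α) (Lagrange.interpolate (Finset.range ℓ) v r) = ((r i : fld Z) : E) := by
    intro i hi
    have h4 := Lagrange.eval_interpolate_at_node r hinj hi
    have h5 : Polynomial.aeval ((v i : fld Z) : E) (Lagrange.interpolate (Finset.range ℓ) v r)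
        = ((Polynomial.eval (v i) (Lagrange.interpolate (Finset.range ℓ) v r) : fld Z) : E) :=
      Polynomial.aeval_algebraMap_apply_eq_algebraMap_eval (A := E) (v i) _
    rw [h4] at h5
    exact h5
  rw [Finset.prod_congr rfl h3, Finset.prod_eq_single 0]
  · simp [r]
  · intro i _ hi
    simp [r, hi]
  · intro h
    exact absurd (Finset.mem_range.2 (Nat.pos_of_ne_zero hℓ)) h

end

section

variable {N E : Type*} [Field N] [NumberField N] [Field E] [Algebra N E] [IsGalois N E]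
variable {ℓ : ℕ} [Fact ℓ.Prime]
variable {Z : Subgroup Gal(E/N)} {ζ α : E}

/-- N3.  Sketch: split case by N2; else `(fld Z)(α)` is a field, invert `∑ c_j α^j`. -/
theorem lc_isNorm_inv (hζ : IsPrimitiveRoot ζ ℓ) (hζZ : ζ ∈ fld Z) (hα0 : α ≠ 0)
    (hα : α ^ ℓ ∈ fld Z) {b : E} (hb0 : b ≠ 0) (hb : lcIsNorm ℓ Z ζ α b) :
    lcIsNorm ℓ Z ζ α b⁻¹ := by
  have hℓ : ℓ ≠ 0 := (Fact.out : ℓ.Prime).ne_zero
  rw [lc_kumb_iff_poly hℓ hζ.pow_eq_one hα] at hb ⊢
  obtain ⟨R, rfl⟩ := hb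
  rw [Finset.prod_ne_zero_iff] at hb0
  set q : Polynomial (fld Z) := Polynomial.X ^ ℓ - Polynomial.C (⟨α ^ ℓ, hα⟩ : fld Z) with hq
  have hcop : IsCoprime R q := by
    rw [← Polynomial.isCoprime_map (algebraMap (fld Z) E)]
    have hqm : q.map (algebraMap (fld Z) E)
        = ∏ i ∈ Finset.range ℓ, (Polynomial.X - Polynomial.C (ζ ^ i * α)) := by
      rw [← X_pow_sub_C_eq_prod hζ (Nat.pos_of_ne_zero hℓ) rfl, hq]
      simp only [Polynomial.map_sub, Polynomial.map_pow, Polynomial.map_X, Polynomial.map_C]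
      rfl
    rw [hqm]
    refine IsCoprime.prod_right fun i hi => ?_
    refine IsCoprime.symm ?_
    rw [(Polynomial.irreducible_X_sub_C _).coprime_iff_not_dvd, Polynomial.dvd_iff_isRoot,
      Polynomial.IsRoot.def, Polynomial.eval_map_algebraMap]
    exact hb0 i hi
  obtain ⟨U, W, hUW⟩ := hcop
  refine ⟨U, ?_⟩
  rw [← Finset.prod_inv_distrib]
  refine Finset.prod_congr rfl fun i hi => ?_
  have hroot : Polynomial.aeval (ζ ^ i * α) q = 0 := by
    rw [hq, map_sub, map_pow, Polynomial.aeval_X, Polynomial.aeval_C, mul_pow, ← pow_mul,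
      mul_comm i ℓ, pow_mul, hζ.pow_eq_one, one_pow, one_mul]
    exact sub_self _
  have h1 := congrArg (Polynomial.aeval (ζ ^ i * α)) hUW
  rw [map_add, map_mul, map_mul, hroot, mul_zero, add_zero, map_one] at h1
  exact eq_inv_of_mul_eq_one_left h1

end

section

variable {N E : Type*} [Field N] [NumberField N] [Field E] [Algebra N E] [IsGalois N E]
variable {ℓ : ℕ} [Fact ℓ.Prime]
variable {Z : Subgroup Gal(E/N)} {ζ α : E}

/-- N4.  Sketch: `N(d α^i) = d^ℓ α^(ℓ i) ζ^(i ℓ (ℓ-1)/2)`, `ℓ` odd. -/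
theorem lc_isNorm_monomial (hℓ : ℓ ≠ 2) (hζ : IsPrimitiveRoot ζ ℓ) (hα : α ^ ℓ ∈ fld Z) {d : E}
    (hd : d ∈ fld Z) (i : ℕ) : lcIsNorm ℓ Z ζ α (d ^ ℓ * (α ^ ℓ) ^ i) := by
  have hp : ℓ.Prime := Fact.out
  have hℓ0 : ℓ ≠ 0 := hp.ne_zero
  rw [lc_kumb_iff_poly hℓ0 hζ.pow_eq_one hα]
  refine ⟨Polynomial.C (⟨d, hd⟩ : fld Z) * Polynomial.X ^ i, ?_⟩
  have h1 : ∀ t ∈ Finset.range ℓ,
      Polynomial.aeval (ζ ^ t * α) (Polynomial.C (⟨d, hd⟩ : fld Z) * Polynomial.X ^ i)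
        = d * α ^ i * (ζ ^ i) ^ t := by
    intro t _
    rw [map_mul, Polynomial.aeval_C, map_pow, Polynomial.aeval_X, mul_pow, ← pow_mul, ← pow_mul,
      mul_comm t i]
    change d * _ = _
    ring
  rw [Finset.prod_congr rfl h1, Finset.prod_mul_distrib, Finset.prod_const, Finset.card_range,
    Finset.prod_pow_eq_pow_sum, Finset.sum_range_id]
  have hodd : Odd ℓ := hp.odd_of_ne_two hℓ
  obtain ⟨k, hk⟩ := hodd
  have h2 : ℓ * (ℓ - 1) / 2 = ℓ * k := by
    have : ℓ - 1 = 2 * k := by omega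
    rw [this, ← mul_assoc, mul_comm ℓ 2, mul_assoc, Nat.mul_div_cancel_left _ (by norm_num)]
  rw [h2, ← pow_mul, ← mul_assoc, mul_comm i ℓ, mul_assoc, pow_mul, hζ.pow_eq_one, one_pow, mul_one,
    mul_pow, ← pow_mul, ← pow_mul, mul_comm i ℓ]

end

section

variable {N E : Type*} [Field N] [NumberField N] [Field E] [Algebra N E] [IsGalois N E]
variable {ℓ : ℕ} [Fact ℓ.Prime]
variable {Z : Subgroup Gal(E/N)} {ζ α : E}

/-- N5 (a value of the norm form lies in the base field). -/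
theorem lc_isNorm_mem (hζ : IsPrimitiveRoot ζ ℓ) (hζZ : ζ ∈ fld Z) (hα : α ^ ℓ ∈ fld Z) {b : E}
    (hb : lcIsNorm ℓ Z ζ α b) : b ∈ fld Z := by
  obtain ⟨c, hc, rfl⟩ := hb
  rw [IntermediateField.mem_fixedField_iff] at hζZ hα ⊢
  intro g hg
  have h1 : g (lcNF ℓ ζ α c) = lcNF ℓ ζ (g α) c := by
    unfold lcNF
    rw [map_prod]
    refine Finset.prod_congr rfl fun i _ => ?_
    rw [map_sum]
    refine Finset.sum_congr rfl fun j _ => ?_
    have h2 : g (c j) = c j := (IntermediateField.mem_fixedField_iff _ _).1 (hc j) g hg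
    rw [map_mul, map_pow, map_mul, map_pow, hζZ g hg, h2]
  rw [h1]
  refine lc_kumb_NF_congr hζ ?_ c
  rw [← map_pow, hα g hg]

end

end Claimed.Agent.R239
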