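/-
Row 239, package LC (local correspondence, Thm 2.4').  Sub-captain: helper75.
FILE LC/BR_c.lean = subtask LC.BR-c.  ONE OWNER; replace every sorry IN PLACE (statements frozen: ask helper75).
BRIDGE, part c: the local norm group `CFT.Nloc K L v` of the CFT package versus `lcLocNorm`.
-/
import Claimed.Agent.R239.LC.BR_a
import Claimed.Agent.R239.LC.BR_b
import Claimed.Agent.R239.LC.KUM_b

set_option autoImplicit false
set_option linter.unusedSectionVars false

namespace Claimed.Agent.R239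

open NumberField IsDedekindDomain
open scoped Pointwise

/-- multiplicative closeness `b / z → 1` versus additive closeness `z → b`, for a discrete valuation. -/
theorem lcbrc_close {K : Type*} [Field K] (v : Valuation K (WithZero (Multiplicative ℤ))) {b : K}
    (hb : b ≠ 0) (T : Set K) :
    (∀ n : ℕ, ∃ z ∈ T, z ≠ 0 ∧ v (b / z - 1) ≤ WithZero.exp (-(n : ℤ))) ↔
      ∀ n : ℕ, ∃ z ∈ T, v (z - b) ≤ WithZero.exp (-(n : ℤ)) := by
  have hvb : v b ≠ 0 := (map_ne_zero v).mpr hb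
  obtain ⟨m, hm⟩ : ∃ m : ℤ, v b = WithZero.exp m :=
    ⟨WithZero.log (v b), (WithZero.exp_log hvb).symm⟩
  constructor
  · intro H n
    obtain ⟨z, hzT, hz0, hz⟩ := H (n + m.toNat + 1)
    refine ⟨z, hzT, ?_⟩
    have h1 : v (b / z - 1) < 1 := lt_of_le_of_lt hz (by
      rw [← WithZero.exp_zero, WithZero.exp_lt_exp]; push_cast; omega)
    have h2 : v (b / z) = 1 := by
      have := Valuation.map_one_add_of_lt (v := v) h1
      simpa using this
    have h3 : v z = v b := by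
      rw [map_div₀] at h2
      exact ((div_eq_one_iff_eq ((map_ne_zero v).mpr hz0)).mp h2).symm
    have h4 : z - b = - (z * (b / z - 1)) := by field_simp; ring
    rw [h4, Valuation.map_neg, map_mul, h3, hm]
    calc WithZero.exp m * v (b / z - 1)
        ≤ WithZero.exp m * WithZero.exp (-((n + m.toNat + 1 : ℕ) : ℤ)) := mul_le_mul_right hz _
      _ = WithZero.exp (m + -((n + m.toNat + 1 : ℕ) : ℤ)) := by rw [← WithZero.exp_add]
      _ ≤ _ := by rw [WithZero.exp_le_exp]; push_cast; omega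
  · intro H n
    obtain ⟨z, hzT, hz⟩ := H (n + (-m).toNat + 1)
    have h1 : v (z - b) < v b := lt_of_le_of_lt hz (by
      rw [hm, WithZero.exp_lt_exp]; push_cast; omega)
    have h3 : v z = v b := by
      have := Valuation.map_add_eq_of_lt_left (v := v) h1
      simpa using this
    have hz0 : z ≠ 0 := by
      rw [← map_ne_zero v, h3]; exact hvb
    refine ⟨z, hzT, hz0, ?_⟩
    have h4 : b / z - 1 = - ((z - b) / z) := by field_simp; ring
    rw [h4, Valuation.map_neg, map_div₀, h3, hm, div_le_iff₀ (by simp)]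
    calc v (z - b) ≤ WithZero.exp (-((n + (-m).toNat + 1 : ℕ) : ℤ)) := hz
      _ ≤ WithZero.exp (-(n : ℤ) + m) := by rw [WithZero.exp_le_exp]; push_cast; omega
      _ = _ := by rw [WithZero.exp_add]

section

variable {N E : Type*} [Field N] [NumberField N] [Field E] [Algebra N E] [IsGalois N E]
  [CharZero E] [Algebra.IsAlgebraic ℚ E]
variable {ℓ : ℕ} [Fact ℓ.Prime]
variable {U : Subgroup Gal(E/N)} {α : E}

/-- B9.  Sketch: `b ∈ Nloc` iff for all `n` there is `y ∈ L^×` with `v(b / N y - 1) ≤ exp(-n)`.  By B7, B8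
`N y = lcNF c`.  (→) `lcNF c - b = - N y (b / N y - 1)` and `v(N y) = v(b)` for `n ≥ 1`; B3 with
`S = {lcNF c - b}`.  (←) for `t` small, `lcv P (lcNF c - b) < lcv P b` forces `lcNF c ≠ 0`, `y ≠ 0` and
`lcv P (lcNF c) = lcv P b`; divide. -/
theorem lc_nloc_iff [NumberField (fld U)] [NumberField (lcKum U α)] {ζ : E}
    (hζ : IsPrimitiveRoot ζ ℓ) (hζU : ζ ∈ fld U) (hα : α ^ ℓ ∈ fld U) (hαU : α ∉ fld U)
    (v : CFT.Pl (fld U)) (P : Ideal (𝓞 E)) [P.IsMaximal] (h : below U P = v.asIdeal)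
    (b : (fld U)ˣ) :
    b ∈ CFT.Nloc (fld U) (lcKum U α) v ↔ lcLocNorm ℓ U P ζ α (((b : (fld U)ˣ) : fld U) : E) := by
  have hb : ((b : (fld U)ˣ) : fld U) ≠ 0 := b.ne_zero
  have hfree : Module.Free (fld U) (lcKum U α) := Module.Free.of_divisionRing _ _
  have hfin : Module.Finite (fld U) (lcKum U α) :=
    IntermediateField.adjoin.finiteDimensional
      (lcbr_isIntegral (Fact.out : ℓ.Prime).pos (lcbr_pow_eq hα))
  set T : Set (fld U) := Set.range (fun y : lcKum U α => Algebra.norm (fld U) y) with hT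
  have s1 : b ∈ CFT.Nloc (fld U) (lcKum U α) v ↔
      ∀ n : ℕ, ∃ z ∈ T, z ≠ 0 ∧
        v.valuation (fld U) ((b : fld U) / z - 1) ≤ WithZero.exp (-(n : ℤ)) := by
    constructor
    · intro H n
      obtain ⟨y, hy⟩ := H n
      exact ⟨_, ⟨(y : lcKum U α), rfl⟩, Algebra.norm_ne_zero_iff.mpr y.ne_zero, hy⟩
    · intro H n
      obtain ⟨_, ⟨y, rfl⟩, hy0, hy⟩ := H n
      exact ⟨Units.mk0 y (Algebra.norm_ne_zero_iff.mp hy0), hy⟩
  rw [s1, lcbrc_close _ hb T]
  have s2 : (∀ n : ℕ, ∃ z ∈ T, v.valuation (fld U) (z - (b : fld U)) ≤ WithZero.exp (-(n : ℤ))) ↔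
      ∀ n : ℕ, ∃ x ∈ (fun z => z - (b : fld U)) '' T,
        v.valuation (fld U) x ≤ WithZero.exp (-(n : ℤ)) := by
    simp only [Set.mem_image, exists_exists_and_eq_and]
  rw [s2, lc_close_iff v P h]
  constructor
  · intro H t ht
    obtain ⟨_, ⟨_, ⟨y, rfl⟩, rfl⟩, hy⟩ := H t ht
    obtain ⟨c, hc, hyc⟩ := lc_kum_coeffs (ℓ := ℓ) hα y
    refine ⟨c, hc, ?_⟩
    rw [← lc_kum_norm hζ hζU hα hαU hc y hyc]
    exact hy
  · intro H t ht
    obtain ⟨c, hc, hy⟩ := H t ht
    refine ⟨_, ⟨_, ⟨⟨_, lc_kum_mem (ℓ := ℓ) (α := α) hc⟩, rfl⟩, rfl⟩, ?_⟩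
    rw [← lc_kum_norm hζ hζU hα hαU hc ⟨_, lc_kum_mem (ℓ := ℓ) (α := α) hc⟩ rfl] at hy
    exact hy

end

end Claimed.Agent.R239
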