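/-
Row 239, package LC (local correspondence, Thm 2.4').  Sub-captain: helper75.
FILE LC/BR_d.lean = subtask LC.BR-d.  ONE OWNER; replace every sorry IN PLACE (statements frozen: ask helper75).
BRIDGE, part d: `LCHnt` and `LCLni` from the outputs `CFT.hnt`, `CFT.lni` of the class field theory package.
-/
import Claimed.Agent.R239.LC.BR_c
import Claimed.Agent.R239.CFT.Out

set_option autoImplicit false
set_option linter.style.haveILetI false
set_option linter.unusedSectionVars false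

namespace Claimed.Agent.R239

open NumberField IsDedekindDomain
open scoped Pointwise

section

variable {N E : Type*} [Field N] [NumberField N] [Field E] [Algebra N E] [IsGalois N E]
  [CharZero E] [Algebra.IsAlgebraic ℚ E]
variable {ℓ : ℕ} [Fact ℓ.Prime]
variable {U : Subgroup Gal(E/N)} {α : E}

/-- an element of `U`, as an automorphism of `E` over `fld U` -/
noncomputable def lcbrLift (g : Gal(E/N)) (hg : g ∈ U) : Gal(E/fld U) :=
  IntermediateField.fixingSubgroupEquiv (fld U)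
    ⟨g, (IntermediateField.le_iff_le U (fld U)).1 le_rfl hg⟩

theorem lcbrLift_apply (g : Gal(E/N)) (hg : g ∈ U) (x : E) : lcbrLift g hg x = g x := rfl

/-- B10 (the local degree is `ℓ` at a non-split prime). -/
theorem lc_nloc_eq [NumberField (fld U)] [NumberField (lcKum U α)] [IsGalois (fld U) (lcKum U α)]
    (hdeg : Module.finrank (fld U) (lcKum U α) = ℓ)
    (v : CFT.Pl (fld U)) (P : Ideal (𝓞 E)) [P.IsMaximal] (h : below U P = v.asIdeal)
    (hαD : α ∉ fld (U ⊓ decomp N P)) : CFT.nloc (fld U) (lcKum U α) v = ℓ := by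
  classical
  -- the element `g`
  have hex : ∃ g ∈ U ⊓ decomp N P, g α ≠ α := by
    by_contra hcon
    push Not at hcon
    exact hαD (fun g => hcon g.1 g.2)
  obtain ⟨g, ⟨hgU, hgD⟩, hgα⟩ := hex
  set g' : Gal(E/fld U) := lcbrLift g hgU with hg'
  set gb : Gal(lcKum U α/fld U) := AlgEquiv.restrictNormalHom (lcKum U α) g' with hgb
  have hcomm : ∀ (τ : Gal(E/fld U)) (x : lcKum U α),
      ((AlgEquiv.restrictNormalHom (lcKum U α) τ x : lcKum U α) : E) = τ (x : E) := fun τ x =>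
    AlgEquiv.restrictNormal_commutes τ (lcKum U α) x
  have hgb1 : gb ≠ 1 := by
    intro h1
    apply hgα
    have := hcomm g' ⟨α, IntermediateField.mem_adjoin_simple_self _ α⟩
    rw [← hgb, h1] at this
    exact this.symm
  -- the prime `w`
  have hunder : below U P = (P.under (𝓞 (lcKum U α))).under (𝓞 (fld U)) :=
    (Ideal.under_under (A := 𝓞 (fld U)) (B := 𝓞 (lcKum U α)) P).symm
  have hwne : P.under (𝓞 (lcKum U α)) ≠ ⊥ := by
    intro hbot
    apply v.ne_bot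
    rw [← h, hunder, hbot]
    exact Ideal.under_bot _ _
  let w : CFT.Pl (lcKum U α) := ⟨P.under (𝓞 (lcKum U α)), inferInstance, hwne⟩
  have hwv : CFT.below (fld U) (lcKum U α) w = v := by
    apply HeightOneSpectrum.ext
    change (P.under (𝓞 (lcKum U α))).under (𝓞 (fld U)) = v.asIdeal
    rw [← hunder, h]
  rw [← hwv, CFT.nloc_eq]
  -- `gb` stabilises `w`
  have hstab : gb ∈ MulAction.stabilizer Gal(lcKum U α/fld U) w.asIdeal := by
    rw [MulAction.mem_stabilizer_iff]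
    ext x
    rw [Ideal.mem_pointwise_smul_iff_inv_smul_mem]
    change algebraMap (𝓞 (lcKum U α)) (𝓞 E) (gb⁻¹ • x) ∈ P ↔ algebraMap (𝓞 (lcKum U α)) (𝓞 E) x ∈ P
    have e : algebraMap (𝓞 (lcKum U α)) (𝓞 E) (gb⁻¹ • x)
        = g⁻¹ • algebraMap (𝓞 (lcKum U α)) (𝓞 E) x := by
      apply RingOfIntegers.ext
      have := hcomm g'⁻¹ (x : lcKum U α)
      rw [map_inv, ← hgb] at this
      exact this
    rw [e, ← Ideal.mem_pointwise_smul_iff_inv_smul_mem, MulAction.mem_stabilizer_iff.1 hgD]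
  have hcard : Nat.card Gal(lcKum U α/fld U) = ℓ := by
    rw [IsGalois.card_aut_eq_finrank, hdeg]
  have htop : MulAction.stabilizer Gal(lcKum U α/fld U) w.asIdeal = ⊤ := by
    haveI : Fact (Nat.card Gal(lcKum U α/fld U)).Prime := ⟨by rw [hcard]; exact Fact.out⟩
    rcases Subgroup.eq_bot_or_eq_top_of_prime_card
      (MulAction.stabilizer Gal(lcKum U α/fld U) w.asIdeal) with h0 | h0
    · exfalso
      rw [h0, Subgroup.mem_bot] at hstab
      exact hgb1 hstab
    · exact h0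
  rw [htop, Subgroup.card_top, hcard]

/-- B11. -/
theorem lc_hnt_bridge (hℓ : ℓ ≠ 2) : LCHnt ℓ N E := by
  intro U hU ζ α b hζ hζU hα0 hα hb0 hb hloc
  by_cases hαU : α ∈ fld U
  · exact lc_isNorm_split hζ hζU hα0 hαU hb
  haveI := lc_numberField hU
  haveI : NumberField (lcKum U α) := lc_kum_numberField (ℓ := ℓ) hα
  haveI : IsGalois (fld U) (lcKum U α) := lc_kum_isGalois hζ hζU hα0 hα
  have hdeg := lc_kum_finrank hζ hζU hα hαU
  have hμ : CFT.HasMu ℓ (fld U) :=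
    ⟨⟨ζ, hζU⟩, IsPrimitiveRoot.coe_submonoidClass_iff.1 hζ⟩
  have hb0' : (⟨b, hb⟩ : fld U) ≠ 0 := fun h => hb0 (congrArg Subtype.val h)
  obtain ⟨y, hy⟩ := CFT.hnt (Fact.out : ℓ.Prime) hℓ (fld U) (lcKum U α) hμ hdeg (Units.mk0 ⟨b, hb⟩ hb0')
    (fun v => by
      obtain ⟨P, hP, hPv⟩ := lc_exists_above (U := U) v
      haveI := hP
      exact (lc_nloc_iff hζ hζU hα hαU v P hPv _).2 (hloc P))
  obtain ⟨c, hc, hyc⟩ := lc_kum_coeffs (ℓ := ℓ) hα (y : lcKum U α)
  refine ⟨c, hc, ?_⟩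
  rw [← lc_kum_norm hζ hζU hα hαU hc _ hyc, hy]
  rfl

/-- a subgroup of prime index: the quotient is generated by any element outside -/
theorem lcbr_index_prime {G : Type*} [CommGroup G] (H : Subgroup G) (hidx : H.index = ℓ) :
    ∃ b₀ : G, b₀ ∉ H ∧ ∀ b : G, ∃ i < ℓ, b * b₀ ^ i ∈ H := by
  classical
  have hcard : Nat.card (G ⧸ H) = ℓ := hidx
  haveI : Finite (G ⧸ H) := Nat.finite_of_card_ne_zero (by
    rw [hcard]; exact (Fact.out : ℓ.Prime).ne_zero)
  have hne : H ≠ ⊤ := by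
    intro h
    rw [h, Subgroup.index_top] at hidx
    exact (Fact.out : ℓ.Prime).one_lt.ne hidx
  obtain ⟨b₀, hb₀⟩ : ∃ b₀ : G, b₀ ∉ H := by
    by_contra hcon
    push Not at hcon
    exact hne (eq_top_iff.2 fun x _ => hcon x)
  have hg1 : (QuotientGroup.mk b₀ : G ⧸ H) ≠ 1 := by
    intro h
    exact hb₀ ((QuotientGroup.eq_one_iff _).1 h)
  have hord : orderOf (QuotientGroup.mk b₀ : G ⧸ H) = ℓ := by
    apply orderOf_eq_prime _ hg1
    rw [← hcard]
    exact pow_card_eq_one'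
  refine ⟨b₀, hb₀, fun b => ?_⟩
  have hmem : (QuotientGroup.mk b : G ⧸ H)⁻¹ ∈ Submonoid.powers (QuotientGroup.mk b₀ : G ⧸ H) := by
    rw [mem_powers_iff_mem_zpowers, zpowers_eq_top_of_prime_card hcard hg1]
    exact Subgroup.mem_top _
  rw [mem_powers_iff_mem_range_orderOf, hord] at hmem
  obtain ⟨i, hi, hie⟩ := Finset.mem_image.1 hmem
  refine ⟨i, Finset.mem_range.1 hi, ?_⟩
  have hie' : (QuotientGroup.mk b₀ : G ⧸ H) ^ i = (QuotientGroup.mk b)⁻¹ := hie
  rw [← QuotientGroup.eq_one_iff, QuotientGroup.mk_mul, QuotientGroup.mk_pow, hie', mul_inv_cancel]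

/-- B12. -/
theorem lc_lni_bridge (hℓ : ℓ ≠ 2) : LCLni ℓ N E := by
  classical
  intro U hU P _ ζ α hζ hζU hα0 hα hαD
  have hαU : α ∉ fld U := fun h => hαD (fun g => h ⟨g.1, g.2.1⟩)
  haveI := lc_numberField hU
  haveI : NumberField (lcKum U α) := lc_kum_numberField (ℓ := ℓ) hα
  haveI : IsGalois (fld U) (lcKum U α) := lc_kum_isGalois hζ hζU hα0 hα
  have hdeg := lc_kum_finrank hζ hζU hα hαU
  have hμ : CFT.HasMu ℓ (fld U) :=
    ⟨⟨ζ, hζU⟩, IsPrimitiveRoot.coe_submonoidClass_iff.1 hζ⟩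
  -- the place `v`
  have hvne : below U P ≠ ⊥ := by
    obtain ⟨p, hp, hpP⟩ := lc_exists_over P
    intro hbot
    have h1 : (p : 𝓞 (fld U)) ∈ below U P := by
      change algebraMap (𝓞 (fld U)) (𝓞 E) (p : 𝓞 (fld U)) ∈ P
      rw [map_natCast]
      exact hpP
    rw [hbot, Ideal.mem_bot] at h1
    exact hp.ne_zero (by exact_mod_cast h1)
  let v : CFT.Pl (fld U) := ⟨below U P, inferInstance, hvne⟩
  have hidx : (CFT.Nloc (fld U) (lcKum U α) v).index = ℓ := by
    rw [CFT.lni (Fact.out : ℓ.Prime) hℓ (fld U) (lcKum U α) hμ hdeg v]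
    exact lc_nloc_eq hdeg v P rfl hαD
  have hiff := fun b : (fld U)ˣ => lc_nloc_iff hζ hζU hα hαU v P rfl b
  obtain ⟨b₀, hb₀, hgen⟩ := lcbr_index_prime _ hidx
  refine ⟨((b₀ : fld U) : E), (b₀ : fld U).2, ?_, fun h => hb₀ ((hiff b₀).2 h), ?_⟩
  · intro h
    exact b₀.ne_zero (Subtype.ext h)
  · intro b hb hb0
    have hb0' : (⟨b, hb⟩ : fld U) ≠ 0 := fun h => hb0 (congrArg Subtype.val h)
    obtain ⟨i, hi, h2⟩ := hgen (Units.mk0 ⟨b, hb⟩ hb0')
    refine ⟨i, hi, ?_⟩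
    have h3 := (hiff _).1 h2
    simpa using h3

end

end Claimed.Agent.R239
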