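/-
Row 239, package LC.  Helper file of LC/COV_a.lean and LC/COV_b.lean (owner helper170).
The prime `below U P` as a place of the number field `fld U`; comparison of `CFT.ord` with `lcv P`
(through `lc_val_compare`, BR_a); finiteness of `Γ / Γ^ℓ` for the `S`-units.
-/
import Claimed.Agent.R239.LC.BR_a
import Claimed.Agent.R239.LC.VAL_a
import Claimed.Agent.R239.CFT.P0b
import Claimed.Agent.R239.Tame.HilBase

set_option autoImplicit false

namespace Claimed.Agent.R239

open NumberField IsDedekindDomain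
open scoped Pointwise

section

variable {N E : Type*} [Field N] [NumberField N] [Field E] [Algebra N E] [IsGalois N E]
  [CharZero E] [Algebra.IsAlgebraic ℚ E]
variable {U : Subgroup Gal(E/N)}

theorem lc_cov_natCast_mem_below (P : Ideal (𝓞 E)) (p : ℕ) :
    (p : 𝓞 (fld U)) ∈ below U P ↔ Over P p := by
  unfold Over
  rw [Ideal.mem_comap, map_natCast]

theorem lc_cov_below_ne_bot [NumberField (fld U)] (P : Ideal (𝓞 E)) [P.IsMaximal] :
    below U P ≠ ⊥ := by
  obtain ⟨p, hp, hpP⟩ := lc_exists_over P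
  intro h
  have h1 : (p : 𝓞 (fld U)) ∈ below U P := (lc_cov_natCast_mem_below P p).2 hpP
  rw [h, Ideal.mem_bot] at h1
  exact hp.ne_zero (by exact_mod_cast h1)

/-- the place of `fld U` below `P`. -/
noncomputable def lcCovPl [NumberField (fld U)] (P : Ideal (𝓞 E)) [P.IsMaximal] : CFT.Pl (fld U) :=
  ⟨below U P, inferInstance, lc_cov_below_ne_bot P⟩

theorem lcCovPl_asIdeal [NumberField (fld U)] (P : Ideal (𝓞 E)) [P.IsMaximal] :
    (lcCovPl (U := U) P).asIdeal = below U P := rfl

theorem lc_cov_val_eq_iff [NumberField (fld U)] (v : CFT.Pl (fld U)) (P : Ideal (𝓞 E)) [P.IsMaximal]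
    (h : below U P = v.asIdeal) (x y : fld U) :
    v.valuation (fld U) x = v.valuation (fld U) y ↔ lcv P (x : E) = lcv P (y : E) := by
  rw [le_antisymm_iff, le_antisymm_iff, lc_val_compare v P h x y, lc_val_compare v P h y x]

theorem lc_cov_ord_eq_zero_iff [NumberField (fld U)] (v : CFT.Pl (fld U)) (P : Ideal (𝓞 E))
    [P.IsMaximal] (h : below U P = v.asIdeal) {x : fld U} (hx : x ≠ 0) :
    CFT.ord v x = 0 ↔ lcv P (x : E) = 1 := by
  rw [CFT.ord_eq_zero_iff v hx]
  have := lc_cov_val_eq_iff v P h x 1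
  simpa using this

end

section

variable {E : Type*} [Field E] {ℓ : ℕ} [Fact ℓ.Prime]

theorem lc_cov_zeta_inj {ζ : E} (hζ : IsPrimitiveRoot ζ ℓ) {a b : Multiplicative (ZMod ℓ)}
    (h : ζ ^ (Multiplicative.toAdd a).val = ζ ^ (Multiplicative.toAdd b).val) : a = b := by
  haveI : NeZero ℓ := ⟨(Fact.out : ℓ.Prime).ne_zero⟩
  have h1 := hζ.pow_inj (ZMod.val_lt _) (ZMod.val_lt _) h
  exact Multiplicative.toAdd.injective (ZMod.val_injective ℓ h1)

end

end Claimed.Agent.R239
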