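/-
Row 239, package LC.  Helper file of LC/COV_a.lean (owner helper170).
Finiteness of the "`ℓ`-Selmer group" `{y ∈ Kˣ : ℓ ∣ ord_v y for all v ∉ T} / Kˣ^ℓ` of a number field `K`
(`T` a finite set of primes), in the form of a finite set of representatives.
(`lc_cov_sunit_fg` repeats the argument of `CFT.sunit_fg` of CFT/P7a in order to keep the imports light.)
-/
import Claimed.Agent.R239.CFT.P0b

set_option autoImplicit false

namespace Claimed.Agent.R239

open NumberField IsDedekindDomain CFT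

section

theorem lc_cov_fg_iff {G : Type*} [CommGroup G] (H : Subgroup G) :
    H.FG ↔ (AddSubgroup.toIntSubmodule (Subgroup.toAddSubgroup H)).FG := by
  rw [Subgroup.fg_iff_add_fg, Submodule.fg_iff_addSubgroup_fg, AddSubgroup.toIntSubmodule_toAddSubgroup]

theorem lc_cov_finite_quot (G : Type*) [CommGroup G] [Group.FG G] {n : ℕ} (hn : 0 < n) :
    Finite (G ⧸ (powMonoidHom n : G →* G).range) := by
  refine CommGroup.finite_of_fg_isMulTorsion _ ?_
  intro x
  obtain ⟨g, rfl⟩ := QuotientGroup.mk_surjective x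
  rw [isOfFinOrder_iff_pow_eq_one]
  refine ⟨n, hn, ?_⟩
  rw [← QuotientGroup.mk_pow, QuotientGroup.eq_one_iff]
  exact ⟨g, rfl⟩

variable {K : Type*} [Field K] [NumberField K]

theorem lc_cov_mem_range_units_iff (a : Kˣ) :
    a ∈ (Units.map (algebraMap (𝓞 K) K : 𝓞 K →* K)).range ↔ ∀ v : Pl K, ord v (a : K) = 0 := by
  constructor
  · rintro ⟨u, rfl⟩ v
    have h1 := ord_nonneg_of_integer v (u : 𝓞 K)
    have h2 := ord_nonneg_of_integer v ((u⁻¹ : (𝓞 K)ˣ) : 𝓞 K)
    have h3 : ((u : 𝓞 K) : K) * (((u⁻¹ : (𝓞 K)ˣ) : 𝓞 K) : K) = 1 := by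
      rw [← map_mul]; simp
    have hu0 : ((u : 𝓞 K) : K) ≠ 0 := left_ne_zero_of_mul_eq_one h3
    have hu1 : (((u⁻¹ : (𝓞 K)ˣ) : 𝓞 K) : K) ≠ 0 := right_ne_zero_of_mul_eq_one h3
    have h4 := ord_mul v hu0 hu1
    rw [h3, ord_one] at h4
    show ord v ((u : 𝓞 K) : K) = 0
    omega
  · intro h
    obtain ⟨x, hx⟩ := exists_integer_of_ord_nonneg (a : K) (fun v => (h v).ge)
    obtain ⟨y, hy⟩ := exists_integer_of_ord_nonneg ((a⁻¹ : Kˣ) : K) (fun v => by
      rw [Units.val_inv_eq_inv_val, ord_inv, h v]; simp)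
    have hxy : x * y = 1 := by
      apply RingOfIntegers.ext
      have e : ((x * y : 𝓞 K) : K) = (x : K) * (y : K) := map_mul (algebraMap (𝓞 K) K) x y
      rw [e, hx, hy]; simp
    refine ⟨⟨x, y, hxy, by rw [mul_comm]; exact hxy⟩, ?_⟩
    ext
    exact hx

/-- the `S`-units are finitely generated. -/
theorem lc_cov_sunit_fg (S : Finset (Pl K)) : ((S : Set (Pl K)).unit K).FG := by
  classical
  rw [lc_cov_fg_iff]
  let f0 : Additive Kˣ →+ (S → ℤ) :=
    { toFun := fun a v => ord v.1 ((Additive.toMul a : Kˣ) : K)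
      map_zero' := by
        funext v
        simp [ord_one]
      map_add' := fun a b => by
        funext v
        simp only [toMul_add, Units.val_mul, Pi.add_apply]
        exact ord_mul v.1 (Units.ne_zero _) (Units.ne_zero _) }
  refine Submodule.fg_of_fg_map_of_fg_inf_ker f0.toIntLinearMap (IsNoetherian.noetherian _) ?_
  have hU : ((Units.map (algebraMap (𝓞 K) K : 𝓞 K →* K)).range).FG := by
    have : Group.FG (𝓞 K)ˣ := Group.fg_iff_monoid_fg.2 inferInstance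
    exact (Group.fg_iff_subgroup_fg _).1 inferInstance
  rw [lc_cov_fg_iff] at hU
  suffices heq : AddSubgroup.toIntSubmodule (Subgroup.toAddSubgroup ((S : Set (Pl K)).unit K)) ⊓
      LinearMap.ker f0.toIntLinearMap = AddSubgroup.toIntSubmodule (Subgroup.toAddSubgroup
      ((Units.map (algebraMap (𝓞 K) K : 𝓞 K →* K)).range)) by
    rw [heq]; exact hU
  ext a
  have h1 : a ∈ AddSubgroup.toIntSubmodule (Subgroup.toAddSubgroup
      ((Units.map (algebraMap (𝓞 K) K : 𝓞 K →* K)).range)) ↔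
      ∀ v : Pl K, ord v ((Additive.toMul a : Kˣ) : K) = 0 :=
    lc_cov_mem_range_units_iff (Additive.toMul a)
  rw [h1, Submodule.mem_inf]
  have h2 : a ∈ AddSubgroup.toIntSubmodule (Subgroup.toAddSubgroup ((S : Set (Pl K)).unit K)) ↔
      ∀ v ∉ (S : Set (Pl K)), ord v ((Additive.toMul a : Kˣ) : K) = 0 := mem_unit_iff _ (Additive.toMul a)
  have h3 : a ∈ LinearMap.ker f0.toIntLinearMap ↔ ∀ v : S, ord v.1 ((Additive.toMul a : Kˣ) : K) = 0 := by
    rw [LinearMap.mem_ker]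
    exact funext_iff
  rw [h2, h3]
  constructor
  · rintro ⟨ha, hb⟩ v
    by_cases hv : v ∈ S
    · exact hb ⟨v, hv⟩
    · exact ha v (by simpa using hv)
  · intro h
    exact ⟨fun v _ => h v, fun v => h v.1⟩

/-- Finitely many classes modulo `ℓ`-th powers of elements whose divisor is an `ℓ`-th power outside `T`. -/
theorem lc_cov_selmer_finite {ℓ : ℕ} (hℓ : 0 < ℓ) (T : Finset (Pl K)) :
    ∃ R : Finset Kˣ, ∀ y : Kˣ, (∀ v ∉ T, (ℓ : ℤ) ∣ ord v (y : K)) →
      ∃ r ∈ R, ∃ t : Kˣ, y = r * t ^ ℓ := by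
  classical
  obtain ⟨S, hTS, hS⟩ := exists_ClS_superset T
  set Γ : Subgroup Kˣ := (S : Set (Pl K)).unit K with hΓ
  have hfg : Group.FG Γ := (Group.fg_iff_subgroup_fg _).2 (lc_cov_sunit_fg S)
  have hfin : Finite (Γ ⧸ (powMonoidHom ℓ : Γ →* Γ).range) := lc_cov_finite_quot Γ hℓ
  let _ := Fintype.ofFinite (Γ ⧸ (powMonoidHom ℓ : Γ →* Γ).range)
  refine ⟨Finset.univ.image (fun q : Γ ⧸ (powMonoidHom ℓ : Γ →* Γ).range => ((Quotient.out q : Γ) : Kˣ)),
    fun y hy => ?_⟩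
  let D : CFT.Div K := Finsupp.mapRange (fun n : ℤ => n / ℓ) (by simp) (dv (y : K))
  obtain ⟨a, ha⟩ := hS D
  have hu : y / a ^ ℓ ∈ Γ := by
    rw [hΓ, mem_unit_iff]
    intro v hv
    have hvT : v ∉ T := fun h => hv (by exact_mod_cast hTS h)
    have h1 : ((y / a ^ ℓ : Kˣ) : K) = (y : K) / (a : K) ^ ℓ := by push_cast; rfl
    rw [h1, ord_div v y.ne_zero (pow_ne_zero _ a.ne_zero), ord_pow, ← ha v hv]
    simp only [D, Finsupp.mapRange_apply, dv_apply]
    rw [Int.mul_ediv_cancel' (hy v hvT), sub_self]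
  let u : Γ := ⟨y / a ^ ℓ, hu⟩
  refine ⟨_, Finset.mem_image_of_mem _ (Finset.mem_univ (QuotientGroup.mk u)), ?_⟩
  have h2 : (QuotientGroup.mk (Quotient.out (QuotientGroup.mk u : Γ ⧸ (powMonoidHom ℓ : Γ →* Γ).range))
      : Γ ⧸ (powMonoidHom ℓ : Γ →* Γ).range) = QuotientGroup.mk u := Quotient.out_eq _
  rw [QuotientGroup.eq] at h2
  obtain ⟨s, hs⟩ := h2
  refine ⟨(s : Kˣ) * a, ?_⟩
  have h3 := congrArg (fun x : Γ => (x : Kˣ)) hs
  simp only [powMonoidHom_apply, Subgroup.coe_pow, Subgroup.coe_mul, Subgroup.coe_inv] at h3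
  rw [mul_pow, h3]
  change y = _ * (_ * (y / a ^ ℓ) * a ^ ℓ)
  rw [mul_assoc, div_mul_cancel, mul_inv_cancel_left]

end

end Claimed.Agent.R239
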