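/-
Row 239, package LC (local correspondence, Thm 2.4').  Sub-captain: helper75.
FILE LC/PROF_d.lean = subtask LC.PROF-d.  ONE OWNER (see table subtask; owner: helper199); the owner replaces every sorry IN PLACE
(statements are frozen: ask helper75 before changing one) and may add private helper lemmas / helper files
LC/PROF_d_*.lean.  You may import further LC files that do not (transitively) import this one.
Notation of the sketches: G' = Gal(E/N), v_P = lcv P, D_P = decomp N P, I_P = inert N P, cl(τ) = lcCl τ,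
K_U = fld U, K_U^h = fld (U ⊓ D_P) (henselisation of K_U at P inside E).  Labels (P4, V3, L1, ...) refer to
the doc-strings of the other LC files; index: LC/Chain.lean.
-/
import Claimed.Agent.R239.LC.PROF_a
import Claimed.Agent.R239.LC.PROF_c

set_option autoImplicit false

namespace Claimed.Agent.R239

open NumberField
open scoped Pointwise

section finite

variable {ℓ : ℕ} [Fact ℓ.Prime]

/-- the finite form of P11: `Q = N T`, `N` normal of order prime to `ℓ`, `T` an `ℓ`-group; every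
`ℓ`-element is conjugate into `T` by an element of `N`. -/
theorem prof_finite_conj {Q : Type*} [Group Q] [Finite Q] (N T : Subgroup Q) [N.Normal]
    (hN : ∀ i ∈ N, ∃ m : ℕ, m.Coprime ℓ ∧ i ^ m = 1) (hT : IsPGroup ℓ T)
    (hgen : ∀ b : Q, ∃ i ∈ N, ∃ t ∈ T, b = i * t) {y : Q} {k : ℕ} (hy : y ^ ℓ ^ k = 1) :
    ∃ i ∈ N, i * y * i⁻¹ ∈ T := by
  have hℓ : ℓ.Prime := Fact.out
  have hcop : ¬ ℓ ∣ Nat.card N := by
    intro hdvd
    obtain ⟨x, hx⟩ := exists_prime_orderOf_dvd_card' ℓ hdvd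
    obtain ⟨m, hm, hxm⟩ := hN x.1 x.2
    have h1 : orderOf x ∣ m := orderOf_dvd_of_pow_eq_one (Subtype.ext hxm)
    rw [hx] at h1
    exact (Nat.Prime.coprime_iff_not_dvd hℓ).1 hm.symm h1
  have hsurj : Function.Surjective ((QuotientGroup.mk' N).comp T.subtype) := by
    intro b
    obtain ⟨b, rfl⟩ := QuotientGroup.mk'_surjective N b
    obtain ⟨i, hi, t, ht, rfl⟩ := hgen b
    refine ⟨⟨t, ht⟩, ?_⟩
    show QuotientGroup.mk' N t = QuotientGroup.mk' N (i * t)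
    rw [map_mul, show QuotientGroup.mk' N i = 1 from (QuotientGroup.eq_one_iff i).2 hi, one_mul]
  obtain ⟨r, hr⟩ := Subgroup.card_dvd_of_surjective _ hsurj
  have h2 := N.card_eq_card_quotient_mul_card_subgroup
  have h3 := T.card_mul_index
  have hidx : T.index ∣ Nat.card N := by
    refine ⟨r, ?_⟩
    have hpos : 0 < Nat.card (Q ⧸ N) := Nat.card_pos
    apply Nat.eq_of_mul_eq_mul_left hpos
    rw [← h2, ← h3, hr]
    ring
  have hidx' : ¬ ℓ ∣ T.index := fun h => hcop (h.trans hidx)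
  obtain ⟨P', hP'⟩ := (prof_isPGroup_zpowers hy).exists_le_sylow
  obtain ⟨g, hg⟩ := MulAction.exists_smul_eq Q P' (hT.toSylow hidx')
  have hmem : g * y * g⁻¹ ∈ T := by
    have h4 : MulAut.conj g • y ∈ MulAut.conj g • (P' : Subgroup Q) :=
      Subgroup.smul_mem_pointwise_smul _ _ _ (hP' (Subgroup.mem_zpowers y))
    rw [← Sylow.coe_subgroup_smul, hg] at h4
    exact h4
  obtain ⟨i, hi, t, ht, hgit⟩ := hgen g⁻¹
  refine ⟨i⁻¹, N.inv_mem hi, ?_⟩
  have hg' : g = t⁻¹ * i⁻¹ := by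
    rw [← inv_inv g, hgit, mul_inv_rev]
  have e : i⁻¹ * y * i⁻¹⁻¹ = t * (g * y * g⁻¹) * t⁻¹ := by
    rw [hg']
    group
  rw [e]
  exact T.mul_mem (T.mul_mem ht hmem) (T.inv_mem ht)

end finite

section

variable {G : Type*} [Group G] [TopologicalSpace G] [IsTopologicalGroup G] [CompactSpace G]
  [TotallyDisconnectedSpace G] [T2Space G]
variable {ℓ : ℕ} [Fact ℓ.Prime]

/-- the finite level of P11. -/
theorem prof_sylow_conj_level {B B' : Subgroup G} (hle : B' ≤ B)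
    (hnorm : ∀ b ∈ B, ∀ i ∈ B', b * i * b⁻¹ ∈ B') (hpro' : ∀ i ∈ B', IsProL' ℓ i)
    {τ y : G} (hτ : IsProL ℓ τ) (hτB : τ ∈ B)
    (hgen : ∀ b ∈ B, ∃ i ∈ B', ∃ t ∈ lcCl τ, b = i * t) (hy : IsProL ℓ y) (hyB : y ∈ B)
    {W : Subgroup G} (hWn : W.Normal) (hWo : IsOpen (W : Set G)) :
    ∃ i ∈ B', ∃ t ∈ lcCl τ, (i * y * i⁻¹)⁻¹ * t ∈ W := by
  have := hWn
  have : Finite (G ⧸ W) := W.quotient_finite_of_isOpen hWo
  obtain ⟨k₁, hk₁⟩ := hτ W hWo
  obtain ⟨k₂, hk₂⟩ := hy W hWo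
  have hqτ : (QuotientGroup.mk' W τ) ^ ℓ ^ k₁ = 1 := by
    rw [← map_pow]
    exact (QuotientGroup.eq_one_iff _).2 hk₁
  have hqy : (QuotientGroup.mk' W y) ^ ℓ ^ k₂ = 1 := by
    rw [← map_pow]
    exact (QuotientGroup.eq_one_iff _).2 hk₂
  have hNn : ((B'.map (QuotientGroup.mk' W)).subgroupOf (B.map (QuotientGroup.mk' W))).Normal := by
    constructor
    rintro ⟨_, ⟨i₁, hi₁, rfl⟩⟩ hn ⟨_, ⟨b, hb, rfl⟩⟩
    obtain ⟨i, hi, hii⟩ := Subgroup.mem_map.1 (Subgroup.mem_subgroupOf.1 hn)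
    rw [Subgroup.mem_subgroupOf]
    refine Subgroup.mem_map.2 ⟨b * i * b⁻¹, hnorm b hb i hi, ?_⟩
    rw [map_mul, map_mul, map_inv, hii]
    rfl
  obtain ⟨⟨_, ⟨_, _, rfl⟩⟩, hi, hconj⟩ := prof_finite_conj (ℓ := ℓ)
    ((B'.map (QuotientGroup.mk' W)).subgroupOf (B.map (QuotientGroup.mk' W)))
    ((Subgroup.zpowers (QuotientGroup.mk' W τ)).subgroupOf (B.map (QuotientGroup.mk' W)))
    (by
      rintro ⟨_, hb⟩ hn
      obtain ⟨i, hi, rfl⟩ := Subgroup.mem_map.1 (Subgroup.mem_subgroupOf.1 hn)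
      obtain ⟨m, -, hm, him⟩ := hpro' i hi W hWo
      refine ⟨m, hm, Subtype.ext ?_⟩
      show (QuotientGroup.mk' W i) ^ m = 1
      rw [← map_pow]
      exact (QuotientGroup.eq_one_iff _).2 him)
    (prof_isPGroup_zpowers hqτ).comap_subtype
    (by
      rintro ⟨_, ⟨b, hb, rfl⟩⟩
      obtain ⟨i, hi, t, ht, rfl⟩ := hgen b hb
      obtain ⟨n, hn⟩ := prof_cl_approx ht hWn hWo
      have hqt : QuotientGroup.mk' W t = QuotientGroup.mk' W (τ ^ n) := QuotientGroup.eq.2 hn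
      refine ⟨⟨QuotientGroup.mk' W i, Subgroup.mem_map_of_mem _ (hle hi)⟩,
        Subgroup.mem_subgroupOf.2 (Subgroup.mem_map_of_mem _ hi),
        ⟨QuotientGroup.mk' W (τ ^ n), Subgroup.mem_map_of_mem _ (B.pow_mem hτB n)⟩, ?_, ?_⟩
      · rw [Subgroup.mem_subgroupOf]
        show QuotientGroup.mk' W (τ ^ n) ∈ _
        rw [map_pow]
        exact Subgroup.pow_mem _ (Subgroup.mem_zpowers _) n
      · apply Subtype.ext
        show QuotientGroup.mk' W (i * t) = QuotientGroup.mk' W i * QuotientGroup.mk' W (τ ^ n)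
        rw [map_mul, hqt])
    (y := ⟨QuotientGroup.mk' W y, Subgroup.mem_map_of_mem _ hyB⟩) (k := k₂)
    (Subtype.ext hqy)
  obtain ⟨i, hi', hii⟩ := Subgroup.mem_map.1 (Subgroup.mem_subgroupOf.1 hi)
  obtain ⟨n, hn⟩ := Subgroup.mem_zpowers_iff.1 (Subgroup.mem_subgroupOf.1 hconj)
  refine ⟨i, hi', τ ^ n, (lcCl τ).zpow_mem (prof_self_mem_cl τ) n, ?_⟩
  apply QuotientGroup.eq.1
  show QuotientGroup.mk' W (i * y * i⁻¹) = QuotientGroup.mk' W (τ ^ n)
  rw [map_zpow, hn, map_mul, map_mul, map_inv, hii]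
  rfl

/-- P11 (Sylow conjugacy + compactness).  `B` closed, `B' ≤ B` closed normal in `B` all of whose
elements are pro-ℓ', `τ ∈ B` pro-ℓ with `B = B' cl(τ)`, `y ∈ B` pro-ℓ.  Then a `B'`-conjugate of `y`
lies in `cl τ`.  Sketch: mod W (open normal in G) the image of `cl τ` is an ℓ-Sylow subgroup of the
image of `B` (index divides the order of the image of `B'`, which is prime to ℓ by Cauchy);
`<ȳ>` is conjugate into it, by an element of `B̄'` since `B̄ = B̄' <τ̄>`.  The sets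
`{i ∈ B' : i y i⁻¹ ∈ cl(τ) W}` are closed, nonempty, directed; `B'` is compact. -/
theorem prof_sylow_conj {B B' : Subgroup G} (hB' : IsClosed (B' : Set G)) (hle : B' ≤ B)
    (hnorm : ∀ b ∈ B, ∀ i ∈ B', b * i * b⁻¹ ∈ B') (hpro' : ∀ i ∈ B', IsProL' ℓ i)
    {τ y : G} (hτ : IsProL ℓ τ) (hτB : τ ∈ B)
    (hgen : ∀ b ∈ B, ∃ i ∈ B', ∃ t ∈ lcCl τ, b = i * t) (hy : IsProL ℓ y) (hyB : y ∈ B) :
    ∃ i ∈ B', i * y * i⁻¹ ∈ lcCl τ := by
  let C : {W : Subgroup G // W.Normal ∧ IsOpen (W : Set G)} → Set G := fun W =>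
    {i | i ∈ B' ∧ ∃ t ∈ lcCl τ, (i * y * i⁻¹)⁻¹ * t ∈ W.1}
  have : Nonempty {W : Subgroup G // W.Normal ∧ IsOpen (W : Set G)} :=
    ⟨⟨⊤, inferInstance, isOpen_univ⟩⟩
  have hne : ∀ W, (C W).Nonempty := fun W => by
    obtain ⟨i, hi, h⟩ := prof_sylow_conj_level hle hnorm hpro' hτ hτB hgen hy hyB W.2.1 W.2.2
    exact ⟨i, hi, h⟩
  have hcl : ∀ W, IsClosed (C W) := fun W => by
    have : DiscreteTopology (G ⧸ W.1) := QuotientGroup.discreteTopology W.2.2
    have hS : IsClosed ((fun i : G => (QuotientGroup.mk (i * y * i⁻¹) : G ⧸ W.1)) ⁻¹'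
        ((QuotientGroup.mk : G → G ⧸ W.1) '' ((lcCl τ : Subgroup G) : Set G))) := by
      refine (isClosed_discrete _).preimage (QuotientGroup.continuous_mk.comp ?_)
      fun_prop
    have e : C W = (B' : Set G) ∩ ((fun i : G => (QuotientGroup.mk (i * y * i⁻¹) : G ⧸ W.1)) ⁻¹'
        ((QuotientGroup.mk : G → G ⧸ W.1) '' ((lcCl τ : Subgroup G) : Set G))) := by
      ext i
      constructor
      · rintro ⟨hi, t, ht, h⟩
        exact ⟨hi, t, ht, (QuotientGroup.eq.2 h).symm⟩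
      · rintro ⟨hi, t, ht, h⟩
        exact ⟨hi, t, ht, QuotientGroup.eq.1 h.symm⟩
    rw [e]
    exact hB'.inter hS
  have hdir : Directed (· ⊇ ·) C := by
    intro W₁ W₂
    have := W₁.2.1
    have := W₂.2.1
    refine ⟨⟨W₁.1 ⊓ W₂.1, inferInstance, ?_⟩, ?_, ?_⟩
    · rw [Subgroup.coe_inf]
      exact W₁.2.2.inter W₂.2.2
    · rintro i ⟨hi, t, ht, h⟩
      exact ⟨hi, t, ht, h.1⟩
    · rintro i ⟨hi, t, ht, h⟩
      exact ⟨hi, t, ht, h.2⟩
  obtain ⟨i, hi⟩ := IsCompact.nonempty_iInter_of_directed_nonempty_isCompact_isClosed C hdir hne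
    (fun W => (hcl W).isCompact) hcl
  rw [Set.mem_iInter] at hi
  refine ⟨i, (hi ⟨⊤, inferInstance, isOpen_univ⟩).1, ?_⟩
  have hmem : i * y * i⁻¹ ∈ closure ((lcCl τ : Subgroup G) : Set G) := by
    rw [prof_mem_closure_iff]
    intro W hWn hWo
    exact (hi ⟨W, hWn, hWo⟩).2
  rwa [(prof_cl_isClosed τ).closure_eq] at hmem

end

end Claimed.Agent.R239
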