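/-
Row 239, package LC (local correspondence, Thm 2.4').  Sub-captain: helper75.
FILE LC/TC_a.lean = subtask LC.TC-a.  ONE OWNER (see table subtask); the owner replaces every sorry IN PLACE
(statements are frozen: ask helper75 before changing one) and may add private helper lemmas / helper files
LC/TC_a_*.lean.  You may import further LC files that do not (transitively) import this one.
Notation of the sketches: G' = Gal(E/N), v_P = lcv P, D_P = decomp N P, I_P = inert N P, cl(τ) = lcCl τ,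
K_U = fld U, K_U^h = fld (U ⊓ D_P) (henselisation of K_U at P inside E).  Labels (P4, V3, L1, ...) refer to
the doc-strings of the other LC files; index: LC/Chain.lean.
-/
import Claimed.Agent.R239.LC.VAL_a

set_option autoImplicit false
set_option linter.unusedSectionVars false

namespace Claimed.Agent.R239

open NumberField
open scoped Pointwise

section

variable {N E : Type*} [Field N] [NumberField N] [Field E] [Algebra N E] [IsGalois N E]
  [CharZero E] [Algebra.IsAlgebraic ℚ E]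
variable {ℓ : ℕ} [Fact ℓ.Prime]

theorem lc_coe_smul (g : Gal(E/N)) (y : 𝓞 E) : ((g • y : 𝓞 E) : E) = g (y : E) := rfl

/-- an integer outside `Q` has value one -/
theorem lc_val_eq_one_of_notMem (Q : Ideal (𝓞 E)) [Q.IsMaximal] {s : 𝓞 E} (hs : s ∉ Q) :
    lcv Q (s : E) = 1 :=
  le_antisymm (lc_val_le_one Q s)
    (not_lt.1 fun h => hs ((lc_val_lt_one_iff Q s).1 h))

/-- an element of value one is a quotient of two integers outside `Q` -/
theorem lc_exists_frac_of_val_eq_one (Q : Ideal (𝓞 E)) [Q.IsMaximal] {υ : E} (hυ : lcv Q υ = 1) :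
    ∃ a s : 𝓞 E, a ∉ Q ∧ s ∉ Q ∧ υ * (s : E) = (a : E) := by
  have hmem : υ ∈ lcVS Q := ((lcVS Q).valuation_le_one_iff υ).1 hυ.le
  obtain ⟨a, s, hs, h⟩ := hmem
  refine ⟨a, s, fun ha => ?_, hs, h⟩
  have h1 : lcv Q (a : E) < 1 := (lc_val_lt_one_iff Q a).2 ha
  rw [← h, map_mul, hυ, one_mul, lc_val_eq_one_of_notMem Q hs] at h1
  exact lt_irrefl _ h1

/-- a root of unity of order prime to the residue characteristic which is `≡ 1 mod Q` is `1` -/
theorem lc_root_eq_one_of_sub_mem (Q : Ideal (𝓞 E)) [Q.IsPrime] {m : ℕ} (hm : (m : 𝓞 E) ∉ Q)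
    {ξ : 𝓞 E} (h1 : ξ ^ m = 1) (h2 : ξ - 1 ∈ Q) : ξ = 1 := by
  by_contra hne
  have hg : (∑ i ∈ Finset.range m, ξ ^ i) * (ξ - 1) = 0 := by
    rw [geom_sum_mul, h1, sub_self]
  have hs : ∑ i ∈ Finset.range m, ξ ^ i = 0 :=
    (mul_eq_zero.1 hg).resolve_right (sub_ne_zero.2 hne)
  apply hm
  have hq : Ideal.Quotient.mk Q ξ = 1 := by
    rw [← sub_eq_zero, ← map_one (Ideal.Quotient.mk Q), ← map_sub]
    exact Ideal.Quotient.eq_zero_iff_mem.2 h2
  have := congrArg (Ideal.Quotient.mk Q) hs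
  rw [map_sum, map_zero] at this
  simp only [map_pow, hq, one_pow, Finset.sum_const, Finset.card_range, nsmul_eq_mul, mul_one]
    at this
  rw [← map_natCast (Ideal.Quotient.mk Q)] at this
  exact Ideal.Quotient.eq_zero_iff_mem.1 this

/-- T1.  Sketch: `υ` is `Q`-integral with unit value; `g υ / υ = ξ`, `ξ^(ℓ^n) = 1`, `ξ ≡ 1 mod Q`
(inertia; pass from `𝓞 E` to the localisation); `∏_{ξ' ≠ 1} (1 - ξ') = ℓ^n` is a `Q`-unit, so
`ξ = 1`.  (`υ = ` root of unity is a special case.) -/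
theorem lc_inert_fix_root (Q : Ideal (𝓞 E)) [Q.IsMaximal] (hQ : ¬ Over Q ℓ) {g : Gal(E/N)}
    (hg : g ∈ inert N Q) {υ : E} (hυ : lcv Q υ = 1) (n : ℕ) (h : g (υ ^ ℓ ^ n) = υ ^ ℓ ^ n) :
    g υ = υ := by
  have hprime : Q.IsPrime := Ideal.IsMaximal.isPrime ‹_›
  obtain ⟨a, s, ha, hs, has⟩ := lc_exists_frac_of_val_eq_one Q hυ
  have hυ0 : υ ≠ 0 := by
    rintro rfl
    rw [map_zero] at hυ
    exact zero_ne_one hυ
  set x : E := g υ / υ with hx
  have hxpow : x ^ ℓ ^ n = 1 := by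
    rw [hx, div_pow, ← map_pow, h, div_self (pow_ne_zero _ hυ0)]
  have hpos : 0 < ℓ ^ n := pow_pos (Fact.out : ℓ.Prime).pos n
  have hint : IsIntegral ℤ x := IsIntegral.of_pow hpos (by rw [hxpow]; exact isIntegral_one)
  let ξ : 𝓞 E := ⟨x, hint⟩
  have hξ : algebraMap (𝓞 E) E ξ = x := rfl
  have hinj : Function.Injective (algebraMap (𝓞 E) E) := FaithfulSMul.algebraMap_injective _ _
  have hsm : ∀ y : 𝓞 E, algebraMap (𝓞 E) E (g • y) = g (algebraMap (𝓞 E) E y) := fun _ => rfl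
  have has' : υ * algebraMap (𝓞 E) E s = algebraMap (𝓞 E) E a := has
  have hξpow : ξ ^ ℓ ^ n = 1 := by
    apply hinj
    rw [map_pow, hξ, hxpow, map_one]
  have hgs : g • s ∉ Q := fun hmem => hs (by
    have := Q.sub_mem hmem (hg s)
    simpa using this)
  have hkey : (ξ - 1) * (a * (g • s)) = (g • a - a) * s - a * (g • s - s) := by
    apply hinj
    simp only [map_mul, map_sub, map_one, hξ, hsm]
    rw [← has', map_mul, hx]
    field_simp
    ring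
  have hmem : (ξ - 1) * (a * (g • s)) ∈ Q := by
    rw [hkey]
    exact Q.sub_mem (Q.mul_mem_right _ (hg a)) (Q.mul_mem_left _ (hg s))
  have hξ1 : ξ - 1 ∈ Q := by
    rcases hprime.mem_or_mem hmem with h1 | h1
    · exact h1
    · rcases hprime.mem_or_mem h1 with h2 | h2
      · exact absurd h2 ha
      · exact absurd h2 hgs
  have hm : ((ℓ ^ n : ℕ) : 𝓞 E) ∉ Q := by
    intro hmem
    rw [Nat.cast_pow] at hmem
    exact hQ (hprime.mem_of_pow_mem n hmem)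
  have hone := lc_root_eq_one_of_sub_mem Q hm hξpow hξ1
  have : x = 1 := by rw [← hξ, hone, map_one]
  rw [hx, div_eq_one_iff_eq hυ0] at this
  exact this

end

section

variable {N E : Type*} [Field N] [NumberField N] [Field E] [Algebra N E] [IsGalois N E]
  [CharZero E] [Algebra.IsAlgebraic ℚ E]
variable {ℓ : ℕ} [Fact ℓ.Prime]

/-- T2 (a ramified Kummer character of degree `ℓ` is detected on roots of `q`).  Sketch: V3:
`b^s = q^r u`, `b = β^ℓ`, `v(u) = 1`; `ℓ ∤ r'` after removing common factors, else `β` = (element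
fixed by `g`)·(root of a unit), fixed by T1.  `s = ℓ^e s₀`: `υ = β^(s₀) / ϖ^r` with
`ϖ^(ℓ^(e+1)) = q` is an `ℓ^(e+1)`-th root of `u`; T1 gives `g υ = υ`; so
`(g ϖ / ϖ)^r = (g β / β)^(s₀) ≠ 1`. -/
theorem lc_tame_detect (hE : RadClosed E) (Q : Ideal (𝓞 E)) [Q.IsMaximal] (hQ : ¬ Over Q ℓ)
    {q : ℕ} (hq : Over Q q) (hq0 : q ≠ 0) {g : Gal(E/N)} (hg : g ∈ inert N Q) {β : E} (hβ0 : β ≠ 0)
    (h1 : g (β ^ ℓ) = β ^ ℓ) (h2 : g β ≠ β) :
    ∃ (n : ℕ) (ϖ : E), ϖ ^ ℓ ^ n = (q : E) ∧ g ϖ ≠ ϖ := by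
  have hℓ : ℓ.Prime := Fact.out
  have hqE : (q : E) ≠ 0 := Nat.cast_ne_zero.2 hq0
  have hqv : lcv Q (q : E) < 1 := by
    have := (lc_val_lt_one_iff Q (q : 𝓞 E)).2 hq
    simpa using this
  obtain ⟨s, hs, r, hv⟩ := lc_val_commens Q hqv hqE hβ0
  obtain ⟨e, s₀, hs₀, rfl⟩ := Nat.exists_eq_pow_mul_and_not_dvd hs.ne' ℓ hℓ.ne_one
  obtain ⟨ϖ, hϖ⟩ := hE.root (ℓ ^ e) (pow_pos hℓ.pos e) (q : E)
  refine ⟨e, ϖ, hϖ, fun hgϖ => h2 ?_⟩
  have hϖ0 : ϖ ≠ 0 := by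
    rintro rfl
    rw [zero_pow (pow_pos hℓ.pos e).ne'] at hϖ
    exact hqE hϖ.symm
  set υ : E := β ^ s₀ / ϖ ^ r with hυ
  have hυe : υ ^ ℓ ^ e = β ^ (ℓ ^ e * s₀) / (q : E) ^ r := by
    rw [hυ, div_pow, ← pow_mul, mul_comm s₀, ← zpow_natCast (ϖ ^ r), ← zpow_mul, mul_comm r,
      zpow_mul, zpow_natCast, hϖ]
  have hqr : lcv Q ((q : E) ^ r) ≠ 0 := (Valuation.ne_zero_iff _).2 (zpow_ne_zero _ hqE)
  have hυv : lcv Q υ = 1 := by
    have : lcv Q υ ^ ℓ ^ e = 1 := by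
      rw [← map_pow, hυe, map_div₀, hv, div_self hqr]
    exact (pow_eq_one_iff.1 this).resolve_right (pow_pos hℓ.pos e).ne'
  have hgq : g ((q : E) ^ r) = (q : E) ^ r := by
    rw [map_zpow₀, map_natCast]
  have hfix : g (υ ^ ℓ ^ (e + 1)) = υ ^ ℓ ^ (e + 1) := by
    have e1 : υ ^ ℓ ^ (e + 1) = (β ^ ℓ) ^ (ℓ ^ e * s₀) / ((q : E) ^ r) ^ ℓ := by
      rw [pow_succ, pow_mul, hυe, div_pow, ← pow_mul, ← pow_mul, mul_comm]
    rw [e1, map_div₀, map_pow g (β ^ ℓ), map_pow g ((q : E) ^ r), h1, hgq]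
  have hgυ : g υ = υ := lc_inert_fix_root Q hQ hg hυv (e + 1) hfix
  have hβs : β ^ s₀ = υ * ϖ ^ r := by
    rw [hυ, div_mul_cancel₀ _ (zpow_ne_zero _ hϖ0)]
  have hgβs : g β ^ s₀ = β ^ s₀ := by
    rw [← map_pow, hβs, map_mul, hgυ, map_zpow₀, hgϖ]
  have hx1 : (g β / β) ^ s₀ = 1 := by rw [div_pow, hgβs, div_self (pow_ne_zero _ hβ0)]
  have hx2 : (g β / β) ^ ℓ = 1 := by
    rw [div_pow, ← map_pow, h1, div_self (pow_ne_zero _ hβ0)]
  have hgcd := pow_gcd_eq_one.2 ⟨hx1, hx2⟩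
  have hcop : s₀.gcd ℓ = 1 := Nat.Coprime.symm ((Nat.Prime.coprime_iff_not_dvd hℓ).2 hs₀)
  rw [hcop, pow_one, div_eq_one_iff_eq hβ0] at hgcd
  exact hgcd

end

end Claimed.Agent.R239
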