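/-
Row 239, package LC.  FILE LC/Pair.lean (owner helper75): Kummer data attached to an `LCPair`.
-/
import Claimed.Agent.R239.LC.PROF_c
import Claimed.Agent.R239.LC.KUM_a

set_option autoImplicit false

namespace Claimed.Agent.R239

open NumberField
open scoped Pointwise

section

variable {G : Type*} [Group G] [TopologicalSpace G] [IsTopologicalGroup G]

theorem lc_left_mem_cl2 (τ σ : G) : τ ∈ lcCl2 τ σ :=
  Subgroup.le_topologicalClosure _ (Subgroup.subset_closure (by simp))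

theorem lc_right_mem_cl2 (τ σ : G) : σ ∈ lcCl2 τ σ :=
  Subgroup.le_topologicalClosure _ (Subgroup.subset_closure (by simp))

theorem lc_self_mem_cl (τ : G) : τ ∈ lcCl τ :=
  Subgroup.le_topologicalClosure _ (Subgroup.mem_zpowers τ)

theorem lc_cl_le_cl2 (τ σ : G) : lcCl τ ≤ lcCl2 τ σ := by
  apply Subgroup.topologicalClosure_mono
  rw [Subgroup.zpowers_le]
  exact Subgroup.subset_closure (by simp)

theorem LCPair.conj_mem {ℓ : ℕ} {τ σ : G} (h : LCPair ℓ τ σ) : σ * τ * σ⁻¹ ∈ lcCl τ := by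
  obtain ⟨x, hx, hrel⟩ := h.rel
  rw [hrel]
  exact (lcCl τ).mul_mem (lc_self_mem_cl τ) ((lcCl τ).pow_mem hx ℓ)

end

section

variable {N E : Type*} [Field N] [NumberField N] [Field E] [Algebra N E] [IsGalois N E]
variable {ℓ : ℕ} [Fact ℓ.Prime]

theorem lc_zeta_pow_ne_one {ζ : E} (hζ : IsPrimitiveRoot ζ ℓ) {a : Multiplicative (ZMod ℓ)}
    (ha : a ≠ 1) : ζ ^ (Multiplicative.toAdd a).val ≠ 1 := by
  intro h
  have h1 := (hζ.pow_eq_one_iff_dvd _).1 h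
  have h2 : (Multiplicative.toAdd a).val < ℓ := ZMod.val_lt _
  have h3 : (Multiplicative.toAdd a).val = 0 := Nat.eq_zero_of_dvd_of_lt h1 h2
  apply ha
  have h4 : Multiplicative.toAdd a = 0 := (ZMod.val_eq_zero _).1 h3
  exact Multiplicative.toAdd.injective (by simpa using h4)

/-- all elements of `cl2 τ σ` fix the `ℓ`-th roots of unity -/
theorem lc_pair_zeta_mem {τ σ : Gal(E/N)} (hp : LCPair ℓ τ σ) {ζ : E} (hζ : ζ ^ ℓ = 1) :
    ζ ∈ fld (lcCl2 τ σ) := by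
  rw [IntermediateField.mem_fixedField_iff]
  intro h hh
  exact kum_zeta_fixed (prof_isProL_cl2 hp.proτ hp.proσ hp.conj_mem hh) hζ

/-- Kummer data of an `LCPair`. -/
theorem lc_pair_data (hE : RadClosed E) {τ σ : Gal(E/N)} (hp : LCPair ℓ τ σ) :
    ∃ ζ α β : E, IsPrimitiveRoot ζ ℓ ∧ ζ ∈ fld (lcCl2 τ σ) ∧ α ≠ 0 ∧ β ≠ 0 ∧
      α ^ ℓ ∈ fld (lcCl2 τ σ) ∧ β ^ ℓ ∈ fld (lcCl2 τ σ) ∧ τ α = α ∧ σ α ≠ α ∧ τ β ≠ β ∧
      σ β = β := by
  obtain ⟨ζ, hζ⟩ := hE.prim ℓ (Fact.out : ℓ.Prime).pos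
  have hζH : ζ ∈ fld (lcCl2 τ σ) := lc_pair_zeta_mem hp hζ.pow_eq_one
  have hcl : IsClosed ((lcCl2 τ σ : Subgroup Gal(E/N)) : Set Gal(E/N)) :=
    Subgroup.isClosed_topologicalClosure _
  obtain ⟨ca, cb, hca, hcb, h1, h2⟩ := prof_pair_chars hp
  obtain ⟨α, hα0, hα, hαc⟩ := kum_exists hcl hζ hζH ca hca
  obtain ⟨β, hβ0, hβ, hβc⟩ := kum_exists hcl hζ hζH cb hcb
  have hτ := lc_left_mem_cl2 τ σ
  have hσ := lc_right_mem_cl2 τ σ
  refine ⟨ζ, α, β, hζ, hζH, hα0, hβ0, hα, hβ, ?_, ?_, ?_, ?_⟩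
  · have := hαc ⟨τ, hτ⟩
    rw [(h1 hτ).1] at this
    simpa using this
  · have := hαc ⟨σ, hσ⟩
    intro h
    have h' : ζ ^ (Multiplicative.toAdd (ca ⟨σ, hσ⟩)).val * α = α := by rw [← this]; exact h
    have h'' : ζ ^ (Multiplicative.toAdd (ca ⟨σ, hσ⟩)).val = 1 :=
      mul_right_cancel₀ hα0 (by rw [h', one_mul])
    exact lc_zeta_pow_ne_one hζ (h2 hσ).1 h''
  · have := hβc ⟨τ, hτ⟩
    intro h
    have h' : ζ ^ (Multiplicative.toAdd (cb ⟨τ, hτ⟩)).val * β = β := by rw [← this]; exact h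
    have h'' : ζ ^ (Multiplicative.toAdd (cb ⟨τ, hτ⟩)).val = 1 :=
      mul_right_cancel₀ hβ0 (by rw [h', one_mul])
    exact lc_zeta_pow_ne_one hζ (h1 hτ).2 h''
  · have := hβc ⟨σ, hσ⟩
    rw [(h2 hσ).2] at this
    simpa using this

end

end Claimed.Agent.R239
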