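/-
Row 239, package LC.  FILE LC/NormGrp.lean (owner helper75): group-theoretic consequences of the
norm-form leaves N0-N5, and the homomorphism `a ↦ ζ ^ a.val`.
-/
import Claimed.Agent.R239.LC.KUM_b
import Claimed.Agent.R239.LC.Pair

set_option autoImplicit false
set_option linter.unusedSectionVars false

namespace Claimed.Agent.R239

open NumberField
open scoped Pointwise

section

variable {E : Type*} [Field E] {ℓ : ℕ} [Fact ℓ.Prime]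

/-- `ζ ^ a`, `a ∈ ℤ/ℓ` written multiplicatively -/
def lcZ (ζ : E) (a : Multiplicative (ZMod ℓ)) : E := ζ ^ (Multiplicative.toAdd a).val

theorem lcZ_one (ζ : E) : lcZ ζ (1 : Multiplicative (ZMod ℓ)) = 1 := by
  simp [lcZ]

theorem lcZ_mul {ζ : E} (hζ : ζ ^ ℓ = 1) (a b : Multiplicative (ZMod ℓ)) :
    lcZ ζ (a * b) = lcZ ζ a * lcZ ζ b := by
  unfold lcZ
  rw [toAdd_mul, ZMod.val_add, ← pow_add, ← pow_eq_pow_mod _ hζ]

theorem lcZ_pow {ζ : E} (hζ : ζ ^ ℓ = 1) (a : Multiplicative (ZMod ℓ)) (n : ℕ) :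
    lcZ ζ (a ^ n) = lcZ ζ a ^ n := by
  induction n with
  | zero => simp [lcZ_one]
  | succ n ih => rw [pow_succ, lcZ_mul hζ, ih, pow_succ]

theorem lcZ_eq_one_iff {ζ : E} (hζ : IsPrimitiveRoot ζ ℓ) (a : Multiplicative (ZMod ℓ)) :
    lcZ ζ a = 1 ↔ a = 1 := by
  constructor
  · intro h
    by_contra ha
    exact lc_zeta_pow_ne_one hζ ha h
  · rintro rfl
    exact lcZ_one ζ

theorem lc_mult_zmod_pow (a : Multiplicative (ZMod ℓ)) : a ^ ℓ = 1 := by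
  apply Multiplicative.toAdd.injective
  simp

end

section

variable {N E : Type*} [Field N] [NumberField N] [Field E] [Algebra N E] [IsGalois N E]
variable {ℓ : ℕ} [Fact ℓ.Prime]
variable {Z : Subgroup Gal(E/N)} {ζ α : E}

theorem lc_fld_mono {Z Z' : Subgroup Gal(E/N)} (h : Z' ≤ Z) {x : E} (hx : x ∈ fld Z) :
    x ∈ fld Z' := by
  rw [IntermediateField.mem_fixedField_iff] at hx ⊢
  exact fun f hf => hx f (h hf)

theorem lc_isNorm_one (hℓ : ℓ ≠ 2) (hζ : IsPrimitiveRoot ζ ℓ) (hα : α ^ ℓ ∈ fld Z) :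
    lcIsNorm ℓ Z ζ α 1 := by
  have := lc_isNorm_monomial hℓ hζ hα (d := 1) (fld Z).one_mem 0
  simpa using this

theorem lc_isNorm_pow (hℓ : ℓ ≠ 2) (hζ : IsPrimitiveRoot ζ ℓ) (hα : α ^ ℓ ∈ fld Z) {b : E}
    (hb : lcIsNorm ℓ Z ζ α b) (n : ℕ) : lcIsNorm ℓ Z ζ α (b ^ n) := by
  induction n with
  | zero => simpa using lc_isNorm_one hℓ hζ hα
  | succ n ih => rw [pow_succ]; exact lc_isNorm_mul hζ.pow_eq_one hα ih hb

theorem lc_isNorm_lth (hℓ : ℓ ≠ 2) (hζ : IsPrimitiveRoot ζ ℓ) (hα : α ^ ℓ ∈ fld Z) {d : E}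
    (hd : d ∈ fld Z) : lcIsNorm ℓ Z ζ α (d ^ ℓ) := by
  have := lc_isNorm_monomial hℓ hζ hα hd 0
  simpa using this

/-- if `b ^ j` is a norm, `ℓ ∤ j`, `b` in the base field, then `b` is a norm -/
theorem lc_isNorm_of_pow (hℓ : ℓ ≠ 2) (hζ : IsPrimitiveRoot ζ ℓ) (hζZ : ζ ∈ fld Z) (hα0 : α ≠ 0)
    (hα : α ^ ℓ ∈ fld Z) {b : E} (hb : b ∈ fld Z) (hb0 : b ≠ 0) {j : ℕ} (hj : ¬ ℓ ∣ j)
    (h : lcIsNorm ℓ Z ζ α (b ^ j)) : lcIsNorm ℓ Z ζ α b := by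
  have hp : ℓ.Prime := Fact.out
  have hcop : Nat.Coprime j ℓ := ((Nat.Prime.coprime_iff_not_dvd hp).2 hj).symm
  obtain ⟨u, -, hu⟩ := Nat.exists_mul_mod_eq_one_of_coprime hcop hp.one_lt
  -- j * u = ℓ * v + 1
  have hdm := Nat.div_add_mod (j * u) ℓ
  rw [hu] at hdm
  set v := j * u / ℓ
  have e : b = (b ^ j) ^ u * ((b ^ ℓ) ^ v)⁻¹ := by
    rw [← pow_mul, ← pow_mul, ← hdm, pow_succ]
    field_simp
  rw [e]
  refine lc_isNorm_mul hζ.pow_eq_one hα (lc_isNorm_pow hℓ hζ hα h u) ?_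
  exact lc_isNorm_inv hζ hζZ hα0 hα (pow_ne_zero _ (pow_ne_zero _ hb0))
    (lc_isNorm_pow hℓ hζ hα (lc_isNorm_lth hℓ hζ hα hb) v)

/-- if `x ^ i` and `x ^ ℓ` lie in a field and `ℓ ∤ i` then `x` lies in it -/
theorem lc_mem_of_pow_mem {x : E} (hx0 : x ≠ 0) {i : ℕ} (hi : ¬ ℓ ∣ i) (h1 : x ^ i ∈ fld Z)
    (h2 : x ^ ℓ ∈ fld Z) : x ∈ fld Z := by
  have hp : ℓ.Prime := Fact.out
  have hcop : Nat.Coprime i ℓ := ((Nat.Prime.coprime_iff_not_dvd hp).2 hi).symm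
  obtain ⟨u, -, hu⟩ := Nat.exists_mul_mod_eq_one_of_coprime hcop hp.one_lt
  have hdm := Nat.div_add_mod (i * u) ℓ
  rw [hu] at hdm
  set v := i * u / ℓ
  have e : x = (x ^ i) ^ u * ((x ^ ℓ) ^ v)⁻¹ := by
    rw [← pow_mul, ← pow_mul, ← hdm, pow_succ]
    field_simp
  rw [e]
  exact (fld Z).mul_mem (pow_mem h1 u) ((fld Z).inv_mem (pow_mem h2 v))

end

end Claimed.Agent.R239
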