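/-
Row 239, package LC.  FILE LC/Stab.lean (owner helper75): stabilisers of elements of `E` are open
subgroups of `Gal(E/N)`; decomposition of elements of `fld (cl2 τ σ)` modulo `ℓ`-th powers.
-/
import Claimed.Agent.R239.LC.NormGrp

set_option autoImplicit false
set_option linter.unusedSectionVars false

namespace Claimed.Agent.R239

open NumberField
open scoped Pointwise

section

variable {N E : Type*} [Field N] [Field E] [Algebra N E] [Algebra.IsAlgebraic N E]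

/-- the stabiliser of `x ∈ E` in `Gal(E/N)` -/
abbrev lcStab (N : Type*) {E : Type*} [Field N] [Field E] [Algebra N E] (x : E) :
    Subgroup Gal(E/N) := MulAction.stabilizer Gal(E/N) x

theorem lc_mem_stab {x : E} {g : Gal(E/N)} : g ∈ lcStab N x ↔ g x = x := Iff.rfl

theorem lc_stab_isOpen (x : E) : IsOpen (lcStab N x : Set Gal(E/N)) := by
  have hfd : FiniteDimensional N (IntermediateField.adjoin N {x}) :=
    IntermediateField.adjoin.finiteDimensional (Algebra.IsIntegral.isIntegral x)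
  have h1 := IntermediateField.fixingSubgroup_isOpen (IntermediateField.adjoin N {x})
  refine Subgroup.isOpen_mono ?_ h1
  intro g hg
  rw [lc_mem_stab]
  exact hg ⟨x, IntermediateField.mem_adjoin_simple_self N x⟩

theorem lc_le_stab {H : Subgroup Gal(E/N)} {x : E} (hx : x ∈ fld H) : H ≤ lcStab N x := by
  intro h hh
  exact (IntermediateField.mem_fixedField_iff _ _).1 hx h hh

theorem lc_mem_fld_of_le_stab {H : Subgroup Gal(E/N)} {x : E} (h : H ≤ lcStab N x) :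
    x ∈ fld H := by
  rw [IntermediateField.mem_fixedField_iff]
  exact fun g hg => h hg

end

section

variable {N E : Type*} [Field N] [NumberField N] [Field E] [Algebra N E] [IsGalois N E]
variable {ℓ : ℕ} [Fact ℓ.Prime]

/-- `fld (cl2 τ σ)^× / ℓ` is generated by `α^ℓ` and `β^ℓ`. -/
theorem lc_pair_decomp (hE : RadClosed E) {τ σ : Gal(E/N)} (hp : LCPair ℓ τ σ) {ζ α β : E}
    (hζ : IsPrimitiveRoot ζ ℓ) (hα0 : α ≠ 0) (hβ0 : β ≠ 0) (hα : α ^ ℓ ∈ fld (lcCl2 τ σ))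
    (hβ : β ^ ℓ ∈ fld (lcCl2 τ σ)) (h1 : τ α = α) (h2 : σ α ≠ α) (h3 : τ β ≠ β) (h4 : σ β = β)
    {x : E} (hx : x ∈ fld (lcCl2 τ σ)) (hx0 : x ≠ 0) :
    ∃ i j : ℕ, ∃ d ∈ fld (lcCl2 τ σ), x = (α ^ ℓ) ^ i * (β ^ ℓ) ^ j * d ^ ℓ := by
  set H : Subgroup Gal(E/N) := lcCl2 τ σ with hHdef
  have hζH : ζ ∈ fld H := lc_pair_zeta_mem hp hζ.pow_eq_one
  obtain ⟨ρ, hρ⟩ := hE.root ℓ (Fact.out : ℓ.Prime).pos x
  have hρ0 : ρ ≠ 0 := by
    rintro rfl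
    apply hx0
    rw [← hρ, zero_pow (Fact.out : ℓ.Prime).ne_zero]
  obtain ⟨ca, hca, hαc⟩ := kum_char hζ hζH hα0 hα
  obtain ⟨cb, hcb, hβc⟩ := kum_char hζ hζH hβ0 hβ
  obtain ⟨c, hc, hρc⟩ := kum_char hζ hζH hρ0 (by rw [hρ]; exact hx)
  have hαc' : ∀ h : H, h.1 α = lcZ ζ (ca h) * α := hαc
  have hβc' : ∀ h : H, h.1 β = lcZ ζ (cb h) * β := hβc
  have hρc' : ∀ h : H, h.1 ρ = lcZ ζ (c h) * ρ := hρc
  have key : ∀ {x : E} (_ : x ≠ 0) {a : Multiplicative (ZMod ℓ)} {g : Gal(E/N)},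
      g x = lcZ ζ a * x → (g x = x ↔ a = 1) := by
    intro x hx a g hg
    rw [hg, ← lcZ_eq_one_iff hζ a]
    constructor
    · intro h
      exact mul_right_cancel₀ hx (by rw [h, one_mul])
    · intro h
      rw [h, one_mul]
  have hh1 : ∀ hτ : τ ∈ H, ca ⟨τ, hτ⟩ = 1 ∧ cb ⟨τ, hτ⟩ ≠ 1 := fun hτ =>
    ⟨(key hα0 (hαc' ⟨τ, hτ⟩)).1 h1, fun h => h3 ((key hβ0 (hβc' ⟨τ, hτ⟩)).2 h)⟩
  have hh2 : ∀ hσ : σ ∈ H, ca ⟨σ, hσ⟩ ≠ 1 ∧ cb ⟨σ, hσ⟩ = 1 := fun hσ =>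
    ⟨fun h => h2 ((key hα0 (hαc' ⟨σ, hσ⟩)).2 h), (key hβ0 (hβc' ⟨σ, hσ⟩)).1 h4⟩
  obtain ⟨i, j, hij⟩ := prof_pair_span ca cb c hca hcb hc hh1 hh2
  refine ⟨i, j, ρ * (α ^ i * β ^ j)⁻¹, ?_, ?_⟩
  · rw [IntermediateField.mem_fixedField_iff]
    intro z hz
    have e1 := hαc' ⟨z, hz⟩
    have e2 := hβc' ⟨z, hz⟩
    have e3 := hρc' ⟨z, hz⟩
    simp only at e1 e2 e3
    have e4 : lcZ ζ (c ⟨z, hz⟩) = lcZ ζ (ca ⟨z, hz⟩) ^ i * lcZ ζ (cb ⟨z, hz⟩) ^ j := by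
      rw [hij, lcZ_mul hζ.pow_eq_one, lcZ_pow hζ.pow_eq_one, lcZ_pow hζ.pow_eq_one]
    have hza : lcZ ζ (ca ⟨z, hz⟩) ≠ 0 := pow_ne_zero _ (hζ.ne_zero (Fact.out : ℓ.Prime).ne_zero)
    have hzb : lcZ ζ (cb ⟨z, hz⟩) ≠ 0 := pow_ne_zero _ (hζ.ne_zero (Fact.out : ℓ.Prime).ne_zero)
    rw [map_mul, map_inv₀, map_mul, map_pow, map_pow, e1, e2, e3, e4]
    field_simp
    ring
  · rw [← hρ, mul_pow, inv_pow, mul_pow, ← pow_mul, ← pow_mul, ← pow_mul, ← pow_mul,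
      mul_comm ℓ i, mul_comm ℓ j]
    have h5 : α ^ (i * ℓ) ≠ 0 := pow_ne_zero _ hα0
    have h6 : β ^ (j * ℓ) ≠ 0 := pow_ne_zero _ hβ0
    field_simp

end

end Claimed.Agent.R239
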