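/-
Row 239, package LC (local correspondence, Thm 2.4').  Sub-captain: helper75.
FILE LC/SRC_b.lean = subtask LC.SRC-b.  ONE OWNER (see table subtask); the owner replaces every sorry IN PLACE
(statements are frozen: ask helper75 before changing one) and may add private helper lemmas / helper files
LC/SRC_b_*.lean.  You may import further LC files that do not (transitively) import this one.
Notation of the sketches: G' = Gal(E/N), v_P = lcv P, D_P = decomp N P, I_P = inert N P, cl(τ) = lcCl τ,
K_U = fld U, K_U^h = fld (U ⊓ D_P) (henselisation of K_U at P inside E).  Labels (P4, V3, L1, ...) refer to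
the doc-strings of the other LC files; index: LC/Chain.lean.
-/
import Claimed.Agent.R239.LC.TC_a
import Claimed.Agent.R239.LC.PROF_b
import Claimed.Agent.R239.LC.PROF_c
import Claimed.Agent.R239.LC.KUM_a
import Claimed.Agent.R239.LC.VAL_b
import Claimed.Agent.R239.Tame.Gen

set_option autoImplicit false

namespace Claimed.Agent.R239

open NumberField
open scoped Pointwise

section

variable {M Ω : Type*} [Field M] [NumberField M] [Field Ω] [Algebra M Ω] [IsGalois M Ω]
  [CharZero Ω] [Algebra.IsAlgebraic ℚ Ω]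
variable {ℓ : ℕ} [Fact ℓ.Prime]
variable (P : Ideal (𝓞 Ω)) [P.IsMaximal]

/-- S1 (the kernel of the `ℓ`-tame character is pro-ℓ').  Sketch: `g = g' g''` (P5), `C = cl g'`
consists of elements of `I_P` fixing all `ϖ` (closed conditions).  `k = fld C` satisfies
`k^× = k^{×ℓ}`: for `x ∈ k^×`, V3 gives `x^s = p^r u`; as in T2, `x^(s₀) = (ϖ^r)^ℓ · unit`, and a unit
of `k` is an `ℓ`-th power in `k` (its `ℓ`-th roots are fixed by `C ≤ I_P`, T1).  So `C` has no
character of order `ℓ` (K1), hence `C = 1` (P7 with `Z = ⊥`), `g = g''`. -/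
theorem lct_ker_proL' (hΩ : RadClosed Ω) (hP : ¬ Over P ℓ) {p : ℕ} (hp : Over P p) (hp0 : p ≠ 0)
    {g : Gal(Ω/M)} (hg : g ∈ inert M P)
    (hfix : ∀ (n : ℕ) (ϖ : Ω), ϖ ^ ℓ ^ n = (p : Ω) → g ϖ = ϖ) : IsProL' ℓ g := by
  exact tame_ker_proL' hΩ hP (Nat.cast_ne_zero.2 hp0) (lc_val_over_lt_one P hp) hg hfix

end

end Claimed.Agent.R239
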