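/-
Row 239, package LC (local correspondence, Thm 2.4').  Sub-captain: helper75.
FILE LC/SRC_c.lean = subtask LC.SRC-c.  ONE OWNER (see table subtask); the owner replaces every sorry IN PLACE
(statements are frozen: ask helper75 before changing one) and may add private helper lemmas / helper files
LC/SRC_c_*.lean.  You may import further LC files that do not (transitively) import this one.
Notation of the sketches: G' = Gal(E/N), v_P = lcv P, D_P = decomp N P, I_P = inert N P, cl(τ) = lcCl τ,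
K_U = fld U, K_U^h = fld (U ⊓ D_P) (henselisation of K_U at P inside E).  Labels (P4, V3, L1, ...) refer to
the doc-strings of the other LC files; index: LC/Chain.lean.
-/
import Claimed.Agent.R239.LC.SRC_a
import Claimed.Agent.R239.LC.SRC_b

set_option autoImplicit false

namespace Claimed.Agent.R239

open NumberField
open scoped Pointwise

section

variable {M Ω : Type*} [Field M] [NumberField M] [Field Ω] [Algebra M Ω] [IsGalois M Ω]
  [CharZero Ω] [Algebra.IsAlgebraic ℚ Ω]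
variable {ℓ : ℕ} [Fact ℓ.Prime]
variable (P : Ideal (𝓞 Ω)) [P.IsMaximal]

/-- S2 (tame generators exist, and generate inertia modulo the pro-ℓ' kernel).  Sketch: fix compatible
roots `ϖ_n` of `p`, `t_n(g) = g ϖ_n / ϖ_n` on `I_U = I_P ⊓ U` (a character: T1 for roots of unity).
Some `t_n ≠ 1` on `I_U` (S0b: `v(ϖ_n)` is not in the value group of `K_U` for `n` large).  `n₀` minimal,
`t_{n₀}(τ₀) ≠ 1`, `τ` = ℓ-part of `τ₀` (P5).  Then `t_n(τ)` generates `t_n(I_U)` for all `n`; by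
compactness every `g ∈ I_U` is `i t`, `t ∈ cl τ`, `i ∈ ker (t_n)_n`. -/
theorem lct_exists_gen (hΩ : RadClosed Ω) (hP : ¬ Over P ℓ) {p : ℕ} (hp : Over P p) (hp0 : p ≠ 0)
    {U : Subgroup Gal(Ω/M)} (hU : IsOpen (U : Set Gal(Ω/M))) :
    ∃ τ : Gal(Ω/M), IsTameGen ℓ U P τ := by
  exact tm_exists_gen hΩ U hU P hP

end

section

variable {M Ω : Type*} [Field M] [NumberField M] [Field Ω] [Algebra M Ω] [IsGalois M Ω]
  [CharZero Ω] [Algebra.IsAlgebraic ℚ Ω]
variable {ℓ : ℕ} [Fact ℓ.Prime]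
variable (P : Ideal (𝓞 Ω)) [P.IsMaximal]

/-- S3.  Sketch: some `t_n` is a nontrivial character of `I_U` with values in a cyclic ℓ-group
(see S2); compose with the quotient of order `ℓ` of its image and use `IsTameGen.gen`. -/
theorem lct_gen_moves (hΩ : RadClosed Ω) (hP : ¬ Over P ℓ) {p : ℕ} (hp : Over P p) (hp0 : p ≠ 0)
    {U : Subgroup Gal(Ω/M)} (hU : IsOpen (U : Set Gal(Ω/M))) {τ : Gal(Ω/M)}
    (hτ : IsTameGen ℓ U P τ) : ∃ (n : ℕ) (ϖ : Ω), ϖ ^ ℓ ^ n = (p : Ω) ∧ τ ϖ ≠ ϖ := by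
  exact tm_gen_moves hΩ hP hp hp0 hU hτ

end

section

variable {M Ω : Type*} [Field M] [NumberField M] [Field Ω] [Algebra M Ω] [IsGalois M Ω]
  [CharZero Ω] [Algebra.IsAlgebraic ℚ Ω]
variable {ℓ : ℕ} [Fact ℓ.Prime]
variable (P : Ideal (𝓞 Ω)) [P.IsMaximal]

/-- S4.  Sketch: the closed subgroup `I' cl(τ)` of `I_U`; if it were proper in `I_U`, then (all `t_n`
have values in ℓ-groups, `I_U / I'` is procyclic pro-ℓ) there is a character of order `ℓ` of `I_U`
killing `τ`, against `IsTameGen.gen`. -/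
theorem lct_gen_decomp (hΩ : RadClosed Ω) (hP : ¬ Over P ℓ) {p : ℕ} (hp : Over P p) (hp0 : p ≠ 0)
    {U : Subgroup Gal(Ω/M)} (hU : IsOpen (U : Set Gal(Ω/M))) {τ : Gal(Ω/M)}
    (hτ : IsTameGen ℓ U P τ) {g : Gal(Ω/M)} (hg : g ∈ inert M P ⊓ U) :
    ∃ i ∈ inert M P ⊓ U, (∀ (n : ℕ) (ϖ : Ω), ϖ ^ ℓ ^ n = (p : Ω) → i ϖ = ϖ) ∧
      ∃ t ∈ lcCl τ, g = i * t := by
  exact tm_gen_decomp hΩ hP hp hp0 hU hτ hg

end

end Claimed.Agent.R239
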