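/-
Row 239, package LC.  FILE LC/SRC_d_Pair.lean (helper51): the group theory behind S7
(`lct_exists_pair`): in a profinite group, `τ` pro-`ℓ` of infinite order, `s τ s⁻¹ = τ ^ q` with
`q ≥ 2` prime to `ℓ`; then the `ℓ`-part `σ` of `s` forms an `LCPair` with `τ`.
-/
import Claimed.Agent.R239.LC.PROF_a
import Claimed.Agent.R239.LC.PROF_b

set_option autoImplicit false

namespace Claimed.Agent.R239

section alg

variable {G : Type*} [Group G]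

theorem srcd_conj_pow {g τ : G} {a : ℕ} (h : g * τ * g⁻¹ = τ ^ a) (n : ℕ) :
    g ^ n * τ * (g ^ n)⁻¹ = τ ^ (a ^ n) := by
  induction n with
  | zero => simp
  | succ n ih =>
    have h1 : g ^ (n + 1) * τ * (g ^ (n + 1))⁻¹ = g * (g ^ n * τ * (g ^ n)⁻¹) * g⁻¹ := by
      rw [pow_succ']
      group
    rw [h1, ih, ← conj_pow, h, ← pow_mul, pow_succ']

end alg

section nt

theorem srcd_nt {ℓ : ℕ} (hℓ : ℓ.Prime) {q m i : ℕ} (hq : q.Coprime ℓ) (hm : m.Coprime ℓ)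
    (h : q ^ m ≡ 1 [MOD ℓ ^ i]) : q ^ (ℓ - 1) ≡ 1 [MOD ℓ ^ i] := by
  rcases Nat.eq_zero_or_pos i with rfl | hi
  · rw [pow_zero]
    exact Nat.modEq_one
  set u : (ZMod (ℓ ^ i))ˣ := ZMod.unitOfCoprime q (hq.pow_right i) with hu
  have hu1 : u ^ m = 1 := by
    apply Units.ext
    rw [Units.val_pow_eq_pow_val, ZMod.coe_unitOfCoprime, Units.val_one]
    have := (ZMod.natCast_eq_natCast_iff _ _ _).2 h
    push_cast at this
    exact this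
  have hu2 : u ^ (ℓ ^ i).totient = 1 := ZMod.pow_totient u
  have d1 : orderOf u ∣ m := orderOf_dvd_of_pow_eq_one hu1
  have d2 : orderOf u ∣ ℓ ^ (i - 1) * (ℓ - 1) := by
    rw [← Nat.totient_prime_pow hℓ hi]
    exact orderOf_dvd_of_pow_eq_one hu2
  have hc : (orderOf u).Coprime (ℓ ^ (i - 1)) := (Nat.Coprime.coprime_dvd_left d1 hm).pow_right _
  have d3 : orderOf u ∣ ℓ - 1 := hc.dvd_of_dvd_mul_left d2
  have hu3 : u ^ (ℓ - 1) = 1 := orderOf_dvd_iff_pow_eq_one.1 d3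
  apply (ZMod.natCast_eq_natCast_iff _ _ _).1
  have := congrArg Units.val hu3
  rw [Units.val_pow_eq_pow_val, ZMod.coe_unitOfCoprime, Units.val_one] at this
  push_cast
  exact this

theorem srcd_fermat {ℓ : ℕ} [Fact ℓ.Prime] {a k : ℕ} (h : ℓ ∣ a ^ ℓ ^ k - 1) (ha : 1 ≤ a) :
    ∃ e, a = 1 + ℓ * e := by
  have h1 : 1 ≤ a ^ ℓ ^ k := Nat.one_le_pow _ _ ha
  have h2 : ((a ^ ℓ ^ k : ℕ) : ZMod ℓ) = 1 := by
    have h3 : ((a ^ ℓ ^ k - 1 : ℕ) : ZMod ℓ) = 0 := (ZMod.natCast_eq_zero_iff _ _).2 h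
    rw [Nat.cast_sub h1, sub_eq_zero] at h3
    simpa using h3
  rw [Nat.cast_pow, ZMod.pow_card_pow] at h2
  have h4 : ((a - 1 : ℕ) : ZMod ℓ) = 0 := by
    rw [Nat.cast_sub ha, h2]
    simp
  obtain ⟨e, he⟩ := (ZMod.natCast_eq_zero_iff _ _).1 h4
  exact ⟨e, by omega⟩

end nt

section prof

variable {G : Type*} [Group G] [TopologicalSpace G] [IsTopologicalGroup G] [CompactSpace G]
  [TotallyDisconnectedSpace G]
variable {ℓ : ℕ} [Fact ℓ.Prime]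

/-- an element lying in all open normal subgroups is trivial -/
theorem srcd_eq_one {t : G} (h : ∀ W : Subgroup G, W.Normal → IsOpen (W : Set G) → t ∈ W) :
    t = 1 := by
  by_contra hne
  obtain ⟨W, hWn, hWo, hWs⟩ := prof_exists_normal (U := ({t}ᶜ : Set G))
    isClosed_singleton.isOpen_compl (by simpa using Ne.symm hne)
  exact hWs (h W hWn hWo) rfl

/-- the relation `σ τ σ⁻¹ = τ x^ℓ` -/
theorem srcd_rel {τ s σ : G} {q : ℕ} (hτ : IsProL ℓ τ) (hq : 1 ≤ q)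
    (hs : s * τ * s⁻¹ = τ ^ q) (hσ : σ ∈ lcCl s) (hσp : IsProL ℓ σ) :
    ∃ x ∈ lcCl τ, σ * τ * σ⁻¹ = τ * x ^ ℓ := by
  have hcomp : IsCompact ((lcCl τ : Subgroup G) : Set G) := (prof_cl_isClosed τ).isCompact
  have hL : IsClosed ((fun x : G => x ^ ℓ) '' ((lcCl τ : Subgroup G) : Set G)) :=
    (hcomp.image (continuous_pow ℓ)).isClosed
  have hmem : τ⁻¹ * (σ * τ * σ⁻¹) ∈ closure ((fun x : G => x ^ ℓ) '' ((lcCl τ : Subgroup G) : Set G)) := by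
    rw [prof_mem_closure_iff]
    intro W hWn hWo
    obtain ⟨n, hn⟩ := prof_cl_approx hσ hWn hWo
    obtain ⟨k, hk⟩ := hσp W hWo
    obtain ⟨j, hj⟩ := hτ W hWo
    -- work in the quotient
    have e1 : ((σ : G) : G ⧸ W) = ((s ^ n : G) : G ⧸ W) := QuotientGroup.eq.2 hn
    have e2 : ((s ^ (n * ℓ ^ k) : G) : G ⧸ W) = 1 := by
      rw [pow_mul, QuotientGroup.mk_pow, ← e1, ← QuotientGroup.mk_pow]
      exact (QuotientGroup.eq_one_iff _).2 hk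
    have e3 : ((τ : G) : G ⧸ W) ^ (q ^ (n * ℓ ^ k)) = ((τ : G) : G ⧸ W) := by
      rw [← QuotientGroup.mk_pow, ← srcd_conj_pow hs, QuotientGroup.mk_mul, QuotientGroup.mk_mul,
        QuotientGroup.mk_inv, e2]
      simp
    have e4 : ((σ * τ * σ⁻¹ : G) : G ⧸ W) = ((τ : G) : G ⧸ W) ^ (q ^ n) := by
      rw [← QuotientGroup.mk_pow, ← srcd_conj_pow hs, QuotientGroup.mk_mul, QuotientGroup.mk_mul,
        QuotientGroup.mk_inv, e1, QuotientGroup.mk_mul, QuotientGroup.mk_mul, QuotientGroup.mk_inv]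
    have hQ : 1 ≤ q ^ (n * ℓ ^ k) := Nat.one_le_pow _ _ hq
    have e5 : ((τ : G) : G ⧸ W) ^ (q ^ (n * ℓ ^ k) - 1) = 1 := by
      have h1 : ((τ : G) : G ⧸ W) ^ (q ^ (n * ℓ ^ k) - 1) * ((τ : G) : G ⧸ W) =
          ((τ : G) : G ⧸ W) := by
        rw [← pow_succ, Nat.sub_add_cancel hQ, e3]
      exact mul_eq_right.1 h1
    have e6 : ((τ : G) : G ⧸ W) ^ (ℓ ^ j) = 1 := by
      rw [← QuotientGroup.mk_pow]
      exact (QuotientGroup.eq_one_iff _).2 hj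
    by_cases hdvd : ℓ ∣ q ^ (n * ℓ ^ k) - 1
    · rw [pow_mul] at hdvd
      obtain ⟨e, he⟩ := srcd_fermat hdvd (Nat.one_le_pow _ _ hq)
      refine ⟨(τ ^ e) ^ ℓ, ⟨τ ^ e, (lcCl τ).pow_mem (prof_self_mem_cl τ) e, rfl⟩, ?_⟩
      rw [← QuotientGroup.eq, QuotientGroup.mk_mul, QuotientGroup.mk_inv, e4, he, pow_add, pow_one,
        inv_mul_cancel_left, ← pow_mul, mul_comm e ℓ, QuotientGroup.mk_pow]
    · have hcop : Nat.Coprime (q ^ (n * ℓ ^ k) - 1) (ℓ ^ j) :=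
        (((Nat.Prime.coprime_iff_not_dvd (Fact.out : ℓ.Prime)).2 hdvd).symm).pow_right j
      have e7 : ((τ : G) : G ⧸ W) = 1 := by
        have := pow_gcd_eq_one.2 ⟨e5, e6⟩
        rwa [hcop, pow_one] at this
      refine ⟨1 ^ ℓ, ⟨1, (lcCl τ).one_mem, rfl⟩, ?_⟩
      rw [← QuotientGroup.eq, QuotientGroup.mk_mul, QuotientGroup.mk_inv, e4, e7]
      simp
  rw [hL.closure_eq] at hmem
  obtain ⟨x, hx, hxe⟩ := hmem
  refine ⟨x, hx, ?_⟩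
  have hxe' : x ^ ℓ = τ⁻¹ * (σ * τ * σ⁻¹) := hxe
  rw [hxe', mul_inv_cancel_left]

/-- a pro-`ℓ'` element cannot act on `τ` by `q ≥ 2` -/
theorem srcd_ne {τ g : G} {q : ℕ} (hτ : IsProL ℓ τ) (hinf : ∀ n : ℕ, 0 < n → τ ^ n ≠ 1)
    (hq : 2 ≤ q) (hqℓ : q.Coprime ℓ) (hg : IsProL' ℓ g) : g * τ * g⁻¹ ≠ τ ^ q := by
  intro hs
  have hℓ : ℓ.Prime := Fact.out
  have hK : 1 < q ^ (ℓ - 1) := Nat.one_lt_pow (by have := hℓ.two_le; omega) (by omega)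
  refine hinf (q ^ (ℓ - 1) - 1) (by omega) (srcd_eq_one fun W hWn hWo => ?_)
  obtain ⟨m, hm0, hmℓ, hm⟩ := hg W hWo
  obtain ⟨j, hj⟩ := hτ W hWo
  have e2 : ((g ^ m : G) : G ⧸ W) = 1 := (QuotientGroup.eq_one_iff _).2 hm
  have e3 : ((τ : G) : G ⧸ W) ^ (q ^ m) = ((τ : G) : G ⧸ W) ^ 1 := by
    rw [← QuotientGroup.mk_pow, ← srcd_conj_pow hs, QuotientGroup.mk_mul, QuotientGroup.mk_mul,
      QuotientGroup.mk_inv, e2]
    simp
  have e6 : ((τ : G) : G ⧸ W) ^ (ℓ ^ j) = 1 := by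
    rw [← QuotientGroup.mk_pow]
    exact (QuotientGroup.eq_one_iff _).2 hj
  obtain ⟨i, -, hi⟩ := (Nat.dvd_prime_pow hℓ).1 (orderOf_dvd_of_pow_eq_one e6)
  rw [pow_eq_pow_iff_modEq, hi] at e3
  have h1 := srcd_nt hℓ hqℓ hmℓ e3
  rw [← hi] at h1
  have h2 : orderOf ((τ : G) : G ⧸ W) ∣ q ^ (ℓ - 1) - 1 :=
    (Nat.modEq_iff_dvd' hK.le).1 h1.symm
  rw [← QuotientGroup.eq_one_iff, QuotientGroup.mk_pow]
  exact orderOf_dvd_iff_pow_eq_one.1 h2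

/-- **the pair** -/
theorem srcd_pair {τ s : G} {q : ℕ} (hτ : IsProL ℓ τ) (hinf : ∀ n : ℕ, 0 < n → τ ^ n ≠ 1)
    (hq : 2 ≤ q) (hqℓ : q.Coprime ℓ) (hs : s * τ * s⁻¹ = τ ^ q) :
    ∃ σ ∈ lcCl s, LCPair ℓ τ σ := by
  obtain ⟨σ, hσ, σ', -, hsplit, hσp, hσ'p⟩ := prof_lpart ℓ s
  refine ⟨σ, hσ, hτ, hσp, srcd_rel hτ (by omega) hs hσ hσp, fun hcomm => ?_⟩
  refine srcd_ne hτ hinf hq hqℓ hσ'p ?_
  have h1 : σ⁻¹ * τ * σ = τ := by
    calc σ⁻¹ * τ * σ = σ⁻¹ * (σ * τ * σ⁻¹) * σ := by rw [hcomm]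
      _ = τ := by group
  have h2 : σ' * τ * σ'⁻¹ = σ⁻¹ * (s * τ * s⁻¹) * σ := by
    rw [hsplit]
    group
  have h3 : σ⁻¹ * τ ^ q * σ = (σ⁻¹ * τ * σ) ^ q := by
    have := conj_pow (a := σ⁻¹) (b := τ) (i := q)
    rw [inv_inv] at this
    exact this.symm
  rw [h2, hs, h3, h1]

end prof

end Claimed.Agent.R239
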