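/-
Row 239, package LC (local correspondence, Thm 2.4').  Sub-captain: helper75.
FILE LC/SRC_d.lean = subtask LC.SRC-d.  ONE OWNER (see table subtask); the owner replaces every sorry IN PLACE
(statements are frozen: ask helper75 before changing one) and may add private helper lemmas / helper files
LC/SRC_d_*.lean.  You may import further LC files that do not (transitively) import this one.
Notation of the sketches: G' = Gal(E/N), v_P = lcv P, D_P = decomp N P, I_P = inert N P, cl(τ) = lcCl τ,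
K_U = fld U, K_U^h = fld (U ⊓ D_P) (henselisation of K_U at P inside E).  Labels (P4, V3, L1, ...) refer to
the doc-strings of the other LC files; index: LC/Chain.lean.
-/
import Claimed.Agent.R239.LC.SRC_c
import Claimed.Agent.R239.LC.PROF_d
import Claimed.Agent.R239.LC.SRC_d_Pair

set_option autoImplicit false

namespace Claimed.Agent.R239

open NumberField
open scoped Pointwise

section

variable {M Ω : Type*} [Field M] [NumberField M] [Field Ω] [Algebra M Ω] [IsGalois M Ω]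
  [CharZero Ω] [Algebra.IsAlgebraic ℚ Ω]
variable {ℓ : ℕ} [Fact ℓ.Prime]
variable (P : Ideal (𝓞 Ω)) [P.IsMaximal]

/-- S5 (Frobenius lifts exist).  Sketch: `Ideal.Quotient.stabilizerHom_surjective_of_profinite` for
`U` acting on `𝓞 Ω` over `𝓞 K_U`; the `N v`-power map is an automorphism of `κ(P)` over `κ(v)`. -/
theorem lct_exists_frob {U : Subgroup Gal(Ω/M)} (hU : IsOpen (U : Set Gal(Ω/M))) :
    ∃ s : Gal(Ω/M), IsFrob U P s ∧ s ∈ decomp M P := by
  obtain ⟨s, hs⟩ := hilp_exists_frob U hU P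
  exact ⟨s, hs, hbas_frob_mem_decomp hs⟩

end

section

variable {M Ω : Type*} [Field M] [NumberField M] [Field Ω] [Algebra M Ω] [IsGalois M Ω]
  [CharZero Ω] [Algebra.IsAlgebraic ℚ Ω]
variable {ℓ : ℕ} [Fact ℓ.Prime]
variable (P : Ideal (𝓞 Ω)) [P.IsMaximal]

/-- S6 (Frattini argument, two levels: `τ` a tame generator for `V`, `V ≤ U` normal in `U`; `V = U`
allowed).  Sketch: `s₀` any Frobenius lift for `U` (S5), `y = s₀ τ s₀⁻¹ ∈ I_V` pro-ℓ; P11 with `B = I_V`,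
`B'` = kernel of the tame character on `I_V` (S1, S4): `i y i⁻¹ ∈ cl τ`, `s = i s₀` is again a Frobenius
lift for `U`.  Then `z = s τ s⁻¹ τ^(-N) ∈ cl τ` is pro-ℓ, lies in `I_P` and fixes all `ℓ^n`-th roots of `p`
(`t_n(s τ s⁻¹) = s(t_n τ) = t_n(τ)^N` since `s ξ = ξ^N` on `μ_{ℓ^n}`: IsFrob + T1-type injectivity of
reduction); S1: `z` is pro-ℓ' as well, so `z = 1`. -/
theorem lct_frob_normalizes (hΩ : RadClosed Ω) (hP : ¬ Over P ℓ)
    {U V : Subgroup Gal(Ω/M)} (hV : IsOpen (V : Set Gal(Ω/M))) (hVU : V ≤ U)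
    (hn : ∀ u ∈ U, ∀ v ∈ V, u * v * u⁻¹ ∈ V) {τ : Gal(Ω/M)}
    (hτ : IsTameGen ℓ V P τ) :
    ∃ s : Gal(Ω/M), IsFrob U P s ∧ s ∈ decomp M P ∧ s * τ * s⁻¹ = τ ^ normAt U P := by
  obtain ⟨s, hs, h⟩ := tm_exists_frob hV hVU hP hτ
  exact ⟨s, hs, hbas_frob_mem_decomp hs, h⟩

end

section

variable {M Ω : Type*} [Field M] [NumberField M] [Field Ω] [Algebra M Ω] [IsGalois M Ω]
  [CharZero Ω] [Algebra.IsAlgebraic ℚ Ω]
variable {ℓ : ℕ} [Fact ℓ.Prime]
variable (P : Ideal (𝓞 Ω)) [P.IsMaximal]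

/-- S7.  Sketch: `σ` = ℓ-part of `s` from S6 (`σ ∈ cl s` normalises `cl τ`).  `rel`: `σ` fixes `μ_ℓ`
(K3), so `t_{n₀}(σ τ σ⁻¹ τ⁻¹)`... use P10 with the character of order ℓ of `cl τ`.  `ne`: if `σ`
commuted with `τ` it would fix `t_n(τ)` for all `n`, i.e. (orders → ∞) all of `μ_{ℓ^∞}`; then `s` acts
on `μ_{ℓ^n}` with order prime to `ℓ`, so `(N v)^(ℓ-1) ≡ 1 mod ℓ^n` for all `n`: `N v = 1`. -/
theorem lct_exists_pair (hΩ : RadClosed Ω) (hP : ¬ Over P ℓ)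
    {U : Subgroup Gal(Ω/M)} (hU : IsOpen (U : Set Gal(Ω/M))) {τ : Gal(Ω/M)}
    (hτ : IsTameGen ℓ U P τ) : ∃ σ ∈ decomp M P ⊓ U, LCPair ℓ τ σ := by
  obtain ⟨s, hsF, hsD, hs⟩ := lct_frob_normalizes P hΩ hP hU le_rfl
    (fun u hu v hv => U.mul_mem (U.mul_mem hu hv) (U.inv_mem hu)) hτ
  obtain ⟨p, hpp, hp⟩ := lc_exists_over P
  obtain ⟨f, hf0, -, hf⟩ := hbas_normAt U hU P hpp hp
  have hℓ : ℓ.Prime := Fact.out
  have hne : p ≠ ℓ := by
    rintro rfl
    exact hP hp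
  have hq : 2 ≤ normAt U P := by
    rw [hf]
    exact le_trans hpp.two_le (Nat.le_self_pow hf0.ne' p)
  have hqℓ : (normAt U P).Coprime ℓ := by
    rw [hf]
    exact ((Nat.coprime_primes hpp hℓ).2 hne).pow_left f
  obtain ⟨σ, hσ, hpair⟩ := srcd_pair hτ.proL (fun n hn => tm_gen_pow_ne_one hΩ hU hP hτ hn) hq hqℓ hs
  refine ⟨σ, ?_, hpair⟩
  have hcl : IsClosed ((decomp M P ⊓ U : Subgroup Gal(Ω/M)) : Set Gal(Ω/M)) :=
    (lc_decomp_isClosed P).inter (U.isClosed_of_isOpen hU)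
  have hsmem : s ∈ decomp M P ⊓ U := ⟨hsD, hsF.1⟩
  exact Subgroup.topologicalClosure_minimal _ (Subgroup.zpowers_le.2 hsmem) hcl hσ

end

end Claimed.Agent.R239
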