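/-
Row 239, package LC (local correspondence, Thm 2.4').  Sub-captain: helper75.
FILE LC/SRC_e.lean = subtask LC.SRC-e.  ONE OWNER; replace every sorry IN PLACE (statements frozen: ask helper75).
Tame generators at sublevels; the Kummer ramification criterion.
-/
import Claimed.Agent.R239.LC.SRC_d

set_option autoImplicit false
set_option linter.unusedSectionVars false
set_option linter.unusedVariables false

namespace Claimed.Agent.R239

open NumberField
open scoped Pointwise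

section

variable {M Ω : Type*} [Field M] [NumberField M] [Field Ω] [Algebra M Ω] [IsGalois M Ω]
  [CharZero Ω] [Algebra.IsAlgebraic ℚ Ω]
variable {ℓ : ℕ} [Fact ℓ.Prime]
variable (P : Ideal (𝓞 Ω)) [P.IsMaximal]

/-- S8 (= `tame_sub` of Iface, RadClosed form).  `V ≤ U` open and normal in `U`, `τ` a tame generator for `U`.
Sketch: `ℓ^k` = order of `τ` modulo `V` (pro-ℓ).  `τ' = τ^(ℓ^k) ∈ I_V`, pro-ℓ.  Let `c` be a continuous character
of order `ℓ` of `I_V` with `c τ' = 1`.  `c` kills the pro-ℓ' elements, in particular `I' ⊓ V`.  For `g ∈ I_V`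
write `g = i t`, `i ∈ I'_U`, `t ∈ cl τ` (S4) ... the image of `cl τ` in the finite group `I_U / I_V` is an
ℓ-Sylow subgroup and `I_V cl(τ) / I_V` has order `ℓ^k`; compare the tame characters: `t_n(I_V)` is generated
by `t_n(τ')`. -/
theorem lct_sub (hΩ : RadClosed Ω) (hP : ¬ Over P ℓ) {U V : Subgroup Gal(Ω/M)}
    (hV : IsOpen (V : Set Gal(Ω/M))) (hVU : V ≤ U) (hn : ∀ u ∈ U, ∀ v ∈ V, u * v * u⁻¹ ∈ V)
    {τ : Gal(Ω/M)} (hτ : IsTameGen ℓ U P τ) : ∃ k : ℕ, IsTameGen ℓ V P (τ ^ ℓ ^ k) :=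
  tm_sub hΩ hV hVU hn hP hτ

/-- S9 (Kummer ramification criterion, the direction "unramified ⟹ `ℓ ∣ ord`").  Sketch: either S0b
(`ρ` lies in the inertia field, whose value group is that of `K_U`), or: if `ℓ ∤ ord_v y` write
`y = π^k u z^ℓ`-type decomposition and use that an `ℓ`-th root of a uniformiser is moved by `I_U(P)`. -/
theorem lct_kummer_unram (hΩ : RadClosed Ω) (hP : ¬ Over P ℓ) {U : Subgroup Gal(Ω/M)}
    (hU : IsOpen (U : Set Gal(Ω/M))) {ρ : Ω} (hρ0 : ρ ≠ 0) (hρ : ρ ^ ℓ ∈ fld U)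
    (hfix : ∀ g ∈ inert M P ⊓ U, g ρ = ρ) : ∃ z ∈ fld U, lcv P ρ = lcv P z := by
  have hp : ℓ.Prime := Fact.out
  obtain ⟨π, hπ⟩ := exists_unif U hU P
  obtain ⟨s, hs⟩ := hπ.gen (ρ ^ ℓ) hρ (pow_ne_zero _ hρ0)
  by_cases hd : (ℓ : ℤ) ∣ s
  · obtain ⟨s', rfl⟩ := hd
    refine ⟨π ^ s', zpow_mem hπ.mem s', ?_⟩
    rw [map_pow, zpow_mul', zpow_natCast, ← map_zpow₀] at hs
    exact (pow_left_inj₀ zero_le zero_le hp.ne_zero).mp hs
  · exfalso
    have hcop : IsCoprime (ℓ : ℤ) s :=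
      (Prime.coprime_iff_not_dvd (Nat.prime_iff_prime_int.mp hp)).mpr hd
    obtain ⟨b, a, hab⟩ := hcop
    set ρ' : Ω := ρ ^ a * π ^ b with hρ'
    have hπ'e : ρ' ^ ℓ = (ρ ^ ℓ) ^ a * π ^ (b * ℓ) := by
      rw [hρ', mul_pow, ← zpow_natCast (ρ ^ a), ← zpow_mul, ← zpow_natCast (π ^ b), ← zpow_mul,
        ← zpow_natCast ρ ℓ, ← zpow_mul, mul_comm a]
    have hπ'v : lcv P (ρ' ^ ℓ) = lcv P π := by
      rw [hπ'e, map_mul, map_zpow₀, hs, map_zpow₀, ← zpow_mul,
        ← zpow_add₀ (lc_val_ne_zero P hπ.ne_zero), mul_comm s a, add_comm, hab, zpow_one]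
    have hπ' : IsUnif U P (ρ' ^ ℓ) :=
      { mem := by
          rw [hπ'e]
          exact (fld U).mul_mem (zpow_mem hρ a) (zpow_mem hπ.mem _)
        ne_zero := pow_ne_zero _ (mul_ne_zero (zpow_ne_zero _ hρ0) (zpow_ne_zero _ hπ.ne_zero))
        lt_one := by rw [hπ'v]; exact hπ.lt_one
        gen := by
          intro x hx hx0
          rw [hπ'v]
          exact hπ.gen x hx hx0 }
    obtain ⟨h, hh, hne⟩ := tame_ram hΩ hU hp hπ' rfl
    apply hne
    have h1 : h π = π := (IntermediateField.mem_fixedField_iff _ _).mp hπ.mem h hh.2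
    rw [hρ', map_mul, map_zpow₀, map_zpow₀, hfix h hh, h1]

end

end Claimed.Agent.R239
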