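/-
Row 239, package LC (local correspondence, Thm 2.4').  Sub-captain: helper75.
FILE LC/COV_a.lean = subtask LC.COV-a.  ONE OWNER (see table subtask); the owner replaces every sorry IN PLACE
(statements are frozen: ask helper75 before changing one) and may add private helper lemmas / helper files
LC/COV_a_*.lean.  You may import further LC files that do not (transitively) import this one.
Notation of the sketches: G' = Gal(E/N), v_P = lcv P, D_P = decomp N P, I_P = inert N P, cl(τ) = lcCl τ,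
K_U = fld U, K_U^h = fld (U ⊓ D_P) (henselisation of K_U at P inside E).  Labels (P4, V3, L1, ...) refer to
the doc-strings of the other LC files; index: LC/Chain.lean.
-/
import Claimed.Agent.R239.LC.SRC_e
import Claimed.Agent.R239.LC.KUM_a
import Claimed.Agent.R239.LC.COV_a_aux
import Claimed.Agent.R239.LC.COV_a_sel

set_option autoImplicit false

namespace Claimed.Agent.R239

open NumberField
open scoped Pointwise

section

variable {M Ω N E : Type*} [Field M] [NumberField M] [Field Ω] [Algebra M Ω] [IsGalois M Ω]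
  [CharZero Ω] [Algebra.IsAlgebraic ℚ Ω]
  [Field N] [NumberField N] [Field E] [Algebra N E] [IsGalois N E]
  [CharZero E] [Algebra.IsAlgebraic ℚ E]
variable {ℓ : ℕ} [Fact ℓ.Prime]

omit [NumberField M] [IsGalois M Ω] [CharZero Ω] [Algebra.IsAlgebraic ℚ Ω] in
theorem lc_cov_pow_fix {ζ : Ω} (hζ : IsPrimitiveRoot ζ ℓ) (g : Gal(Ω/M)) : (g ^ (ℓ - 1)) ζ = ζ := by
  have hp : ℓ.Prime := Fact.out
  obtain ⟨a, _, ha⟩ := hζ.eq_pow_of_pow_eq_one (ξ := g ζ) (by rw [← map_pow, hζ.pow_eq_one, map_one])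
  have hpow : ∀ n : ℕ, (g ^ n) ζ = ζ ^ (a ^ n) := by
    intro n
    induction n with
    | zero => simp
    | succ n ih =>
      rw [pow_succ', AlgEquiv.mul_apply, ih, map_pow, ← ha, ← pow_mul, pow_succ']
  have ha0 : (a : ZMod ℓ) ≠ 0 := by
    intro h
    rw [ZMod.natCast_eq_zero_iff] at h
    have h1 : ζ ^ a = 1 := (hζ.pow_eq_one_iff_dvd a).2 h
    rw [h1] at ha
    have h2 : g ζ = g 1 := by rw [← ha, map_one]
    exact hζ.ne_one hp.one_lt (g.injective h2)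
  have h1 := ZMod.pow_card_sub_one_eq_one ha0
  rw [hpow]
  have h2 : ζ ^ (a ^ (ℓ - 1)) = ζ ^ 1 := by
    rw [lc_kuma_pow_eq_iff hζ hp.pos]
    push_cast
    exact h1
  rw [h2, pow_one]

/-- C1 (finiteness of the characters of order `ℓ` unramified outside `ℓ`).  Sketch: restrict to
`U₁ = U ⊓ Stab ζ` (index prime to `ℓ`: injective).  K1: `c ↔ y = α^ℓ ∈ K₁^×/ℓ`.  Unramified at `P ∤ ℓ`
forces `ℓ ∣ ord_v y` (S9 = `lct_kummer_unram` in SRC_e: `v_P(α) = v_P(z)`, `z ∈ K₁`, so `y / z^ℓ` is a `P`-unit).  `{y : ℓ ∣ ord_v y ∀ v ∤ ℓ}/ℓ` is finite: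
extension of a subgroup of `Cl(K₁)[ℓ]`-ish by `𝓞_{K₁,S}^×/ℓ`, `S` = primes above `ℓ`; units are f.g.
(Dirichlet), class group finite. -/
theorem lc_fin_unram (hΩ : RadClosed Ω) {U : Subgroup Gal(Ω/M)} (hU : IsOpen (U : Set Gal(Ω/M))) :
    {c : U →* Multiplicative (ZMod ℓ) | Continuous c ∧
      ∀ (P : Ideal (𝓞 Ω)) [P.IsMaximal], ¬ Over P ℓ → ∀ g : U, g.1 ∈ inert M P → c g = 1}.Finite := by
  classical
  have hp : ℓ.Prime := Fact.out
  obtain ⟨ζ, hζ⟩ := hΩ.prim ℓ hp.pos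
  have hζ0 : ζ ≠ 0 := hζ.ne_zero hp.ne_zero
  let U₁ : Subgroup Gal(Ω/M) := U ⊓ MulAction.stabilizer Gal(Ω/M) ζ
  have hU₁ : IsOpen (U₁ : Set Gal(Ω/M)) := hU.inter (lc_kuma_stab_isOpen ζ)
  have hU₁c : IsClosed (U₁ : Set Gal(Ω/M)) := U₁.isClosed_of_isOpen hU₁
  have hζU₁ : ζ ∈ fld U₁ := by
    rw [IntermediateField.mem_fixedField_iff]
    intro g hg
    exact hg.2
  have hnf : NumberField (fld U₁) := hilb_numberField U₁ hU₁
  let T : Finset (CFT.Pl (fld U₁)) := (CFT.finite_ord_ne_zero ((ℓ : ℕ) : fld U₁)).toFinset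
  obtain ⟨R, hR⟩ := lc_cov_selmer_finite hp.pos T
  have key : ∀ c : {c : U →* Multiplicative (ZMod ℓ) | Continuous c ∧
      ∀ (P : Ideal (𝓞 Ω)) [P.IsMaximal], ¬ Over P ℓ → ∀ g : U, g.1 ∈ inert M P → c g = 1},
      ∃ r : R, ∃ α : Ω, α ≠ 0 ∧ α ^ ℓ = (((r : (fld U₁)ˣ) : fld U₁) : Ω) ∧
        ∀ h : U₁, h.1 α = ζ ^ (Multiplicative.toAdd (c.1 ⟨h.1, h.2.1⟩)).val * α := by
    rintro ⟨c, hc, hunr⟩
    let c₁ : U₁ →* Multiplicative (ZMod ℓ) := c.comp (Subgroup.inclusion inf_le_left)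
    have hc₁ : Continuous c₁ :=
      hc.comp (continuous_inclusion (show (U₁ : Set Gal(Ω/M)) ⊆ U from fun _ h => h.1))
    obtain ⟨α, hα0, hαK, hact⟩ := kum_exists hU₁c hζ hζU₁ c₁ hc₁
    have hy0 : (⟨α ^ ℓ, hαK⟩ : fld U₁) ≠ 0 := by
      intro h
      have : α ^ ℓ = 0 := congrArg Subtype.val h
      exact pow_ne_zero _ hα0 this
    let y : (fld U₁)ˣ := Units.mk0 ⟨α ^ ℓ, hαK⟩ hy0
    have hdvd : ∀ v ∉ T, (ℓ : ℤ) ∣ CFT.ord v (y : fld U₁) := by
      intro v hv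
      obtain ⟨P, hPmax, hPv⟩ := lc_exists_above v
      have hP : ¬ Over P ℓ := by
        intro hover
        apply hv
        have h1 : ((ℓ : ℕ) : 𝓞 (fld U₁)) ∈ v.asIdeal := by
          rw [← hPv]
          exact (lc_cov_natCast_mem_below P ℓ).2 hover
        have h2 : ((ℓ : ℕ) : 𝓞 (fld U₁)) ≠ 0 := by
          exact_mod_cast hp.ne_zero
        have h3 := (CFT.ord_pos_iff_mem v h2).2 h1
        simp only [T, Set.Finite.mem_toFinset, Set.mem_ofPred_eq]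
        have h4 : (((ℓ : ℕ) : 𝓞 (fld U₁)) : fld U₁) = ((ℓ : ℕ) : fld U₁) := by simp
        rw [h4] at h3
        exact h3.ne'
      have hfix : ∀ g ∈ inert M P ⊓ U₁, g α = α := by
        intro g hg
        have h1 := hact ⟨g, hg.2⟩
        have h2 : c₁ ⟨g, hg.2⟩ = 1 := hunr P hP ⟨g, hg.2.1⟩ hg.1
        rw [h2] at h1
        simpa using h1
      obtain ⟨z, hzK, hz⟩ := lct_kummer_unram P hΩ hP hU₁ hα0 hαK hfix
      have h1 : lcv P (((y : fld U₁)) : Ω) = lcv P (((⟨z, hzK⟩ : fld U₁) ^ ℓ : fld U₁) : Ω) := by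
        change lcv P (α ^ ℓ) = lcv P (z ^ ℓ)
        rw [map_pow, map_pow, hz]
      have h2 := (lc_cov_val_eq_iff v P hPv _ _).2 h1
      have h3 : CFT.ord v (y : fld U₁) = CFT.ord v ((⟨z, hzK⟩ : fld U₁) ^ ℓ) := by
        unfold CFT.ord
        rw [h2]
      rw [h3, CFT.ord_pow]
      exact Dvd.intro _ rfl
    obtain ⟨r, hr, t, ht⟩ := hR y hdvd
    have ht0 : (((t : (fld U₁)ˣ) : fld U₁) : Ω) ≠ 0 := by simp
    refine ⟨⟨r, hr⟩, α / (((t : (fld U₁)ˣ) : fld U₁) : Ω), div_ne_zero hα0 ht0, ?_, ?_⟩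
    · have h1 : α ^ ℓ = (((r : (fld U₁)ˣ) : fld U₁) : Ω) * (((t : (fld U₁)ˣ) : fld U₁) : Ω) ^ ℓ := by
        have := congrArg (fun x : (fld U₁)ˣ => (((x : (fld U₁)ˣ) : fld U₁) : Ω)) ht
        simpa [y] using this
      rw [div_pow, h1, mul_div_assoc, div_self (pow_ne_zero _ ht0), mul_one]
    · intro h
      have h1 : h.1 (((t : (fld U₁)ˣ) : fld U₁) : Ω) = (((t : (fld U₁)ˣ) : fld U₁) : Ω) :=
        (IntermediateField.mem_fixedField_iff _ _).1 (t : fld U₁).2 h.1 h.2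
      rw [map_div₀, h1, hact h, mul_div_assoc]
      rfl
  choose f α hα0 hαr hact using key
  have hinj : Function.Injective f := by
    intro c c' hcc
    have h1 : (α c / α c') ^ ℓ = 1 := by
      rw [div_pow, hαr, hαr, hcc, div_self]
      simp
    obtain ⟨i, _, hi⟩ := hζ.eq_pow_of_pow_eq_one h1
    have h2 : α c = ζ ^ i * α c' := by
      rw [hi, div_mul_cancel₀ _ (hα0 c')]
    have hagree : ∀ h : U₁, c.1 ⟨h.1, h.2.1⟩ = c'.1 ⟨h.1, h.2.1⟩ := by
      intro h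
      apply lc_cov_zeta_inj hζ
      have h3 := hact c h
      rw [h2, map_mul, map_pow, show h.1 ζ = ζ from h.2.2, hact c' h] at h3
      have h4 : ζ ^ i * α c' ≠ 0 := mul_ne_zero (pow_ne_zero _ hζ0) (hα0 c')
      apply mul_right_cancel₀ h4
      rw [← h3]
      ring
    apply Subtype.ext
    ext g
    have hmem : g.1 ^ (ℓ - 1) ∈ U₁ := ⟨U.pow_mem g.2 _, lc_cov_pow_fix hζ g.1⟩
    have h3 := hagree ⟨g.1 ^ (ℓ - 1), hmem⟩
    have h4 : (⟨g.1 ^ (ℓ - 1), hmem.1⟩ : U) = g ^ (ℓ - 1) := rfl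
    rw [h4, map_pow, map_pow] at h3
    have hpow : ∀ x : Multiplicative (ZMod ℓ), x ^ (ℓ - 1) = x⁻¹ := by
      intro x
      have h5 : x ^ ℓ = 1 := by
        apply Multiplicative.toAdd.injective
        simp
      rw [eq_inv_iff_mul_eq_one, ← pow_succ, Nat.sub_add_cancel hp.one_le, h5]
    rw [hpow, hpow, inv_inj] at h3
    rw [h3]
  exact Set.finite_coe_iff.1 (Finite.of_injective f hinj)


end

end Claimed.Agent.R239
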