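/-
Row 239, package LC (local correspondence, Thm 2.4').  Sub-captain: helper75.
FILE LC/COV_b.lean = subtask LC.COV-b.  ONE OWNER (see table subtask); the owner replaces every sorry IN PLACE
(statements are frozen: ask helper75 before changing one) and may add private helper lemmas / helper files
LC/COV_b_*.lean.  You may import further LC files that do not (transitively) import this one.
Notation of the sketches: G' = Gal(E/N), v_P = lcv P, D_P = decomp N P, I_P = inert N P, cl(τ) = lcCl τ,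
K_U = fld U, K_U^h = fld (U ⊓ D_P) (henselisation of K_U at P inside E).  Labels (P4, V3, L1, ...) refer to
the doc-strings of the other LC files; index: LC/Chain.lean.
-/
import Claimed.Agent.R239.LC.TC_a
import Claimed.Agent.R239.LC.KUM_a
import Claimed.Agent.R239.LC.COV_a_aux
import Claimed.Agent.R239.MATCH.KumBoundNF

set_option autoImplicit false

namespace Claimed.Agent.R239

open NumberField
open scoped Pointwise

section

variable {M Ω N E : Type*} [Field M] [NumberField M] [Field Ω] [Algebra M Ω] [IsGalois M Ω]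
  [CharZero Ω] [Algebra.IsAlgebraic ℚ Ω]
  [Field N] [NumberField N] [Field E] [Algebra N E] [IsGalois N E]
  [CharZero E] [Algebra.IsAlgebraic ℚ E]
variable {ℓ : ℕ} [Fact ℓ.Prime]

/-- C2 (many Kummer characters ramified only in `J ∪ {ℓ}`).  Sketch: `h` = class number of `K_V`,
`C = ℓ^(dim Cl/ℓ)`.  The kernel of `𝔽_ℓ^J → Cl/ℓ` has `≥ ℓ^|J| / C` elements `e`; `∏ w^(e_w) = 𝔞^ℓ (x_e)`;
`c_e` = Kummer character of `x_e` (K2).  Distinct `e` give distinct characters (`ord_w` mod `ℓ`).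
Unramified at `Q ∤ ℓ`, `below V Q ∉ J`: `x_e = π^(ℓ k) u`, T1. -/
theorem lc_many_kummer (hE : RadClosed E) {V : Subgroup Gal(E/N)} (hV : IsOpen (V : Set Gal(E/N)))
    {ζ : E} (hζ : IsPrimitiveRoot ζ ℓ) (hζV : ζ ∈ fld V) :
    ∃ C : ℕ, ∀ J : Finset (Ideal (𝓞 (fld V))), (∀ w ∈ J, w.IsMaximal) →
      ∃ S : Finset (V →* Multiplicative (ZMod ℓ)), ℓ ^ J.card ≤ C * S.card ∧
        ∀ c ∈ S, Continuous c ∧ ∀ (Q : Ideal (𝓞 E)) [Q.IsMaximal], ¬ Over Q ℓ → below V Q ∉ J →
          ∀ g : V, g.1 ∈ inert N Q → c g = 1 := by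
  classical
  have hp : ℓ.Prime := Fact.out
  have hnf : NumberField (fld V) := hilb_numberField V hV
  obtain ⟨cl, hcl⟩ := mat_kb_exists_cl (K := fld V)
  refine ⟨Fintype.card (ClassGroup (𝓞 (fld V))), fun J hJ => ?_⟩
  have hne : ∀ w ∈ J, w ≠ ⊥ := fun w hw =>
    Ring.ne_bot_of_isMaximal_of_not_isField (hJ w hw) (RingOfIntegers.not_isField _)
  let pl : J → CFT.Pl (fld V) := fun w => ⟨w.1, (hJ w.1 w.2).isPrime, hne w.1 w.2⟩
  have hpl_inj : Function.Injective pl := by
    intro w w' h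
    have := congrArg IsDedekindDomain.HeightOneSpectrum.asIdeal h
    exact Subtype.ext this
  let D : (J → Fin ℓ) → CFT.Div (fld V) := fun e => ∑ w : J, Finsupp.single (pl w) (((e w : ℕ) : ℤ))
  have hD1 : ∀ e w, D e (pl w) = ((e w : ℕ) : ℤ) := by
    intro e w
    simp only [D, Finsupp.finsetSum_apply]
    rw [Finset.sum_eq_single w]
    · simp
    · intro b _ hb
      exact Finsupp.single_eq_of_ne (fun h => hb (hpl_inj h.symm))
    · intro h
      exact absurd (Finset.mem_univ w) h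
  have hD0 : ∀ e (v : CFT.Pl (fld V)), v.asIdeal ∉ J → D e v = 0 := by
    intro e v hv
    simp only [D, Finsupp.finsetSum_apply]
    refine Finset.sum_eq_zero fun w _ => Finsupp.single_eq_of_ne ?_
    rintro rfl
    exact hv w.2
  -- pigeonhole
  let fib : ClassGroup (𝓞 (fld V)) → Finset (J → Fin ℓ) := fun κ =>
    Finset.univ.filter (fun e => cl (D e) = κ)
  obtain ⟨κ, -, hκ⟩ := Finset.exists_max_image (Finset.univ : Finset (ClassGroup (𝓞 (fld V))))
    (fun κ => (fib κ).card) ⟨1, Finset.mem_univ _⟩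
  have hcount : ℓ ^ J.card ≤ Fintype.card (ClassGroup (𝓞 (fld V))) * (fib κ).card := by
    have h1 := Finset.card_le_mul_card_image (f := fun e => cl (D e))
      (Finset.univ : Finset (J → Fin ℓ)) (fib κ).card (fun a _ => hκ a (Finset.mem_univ _))
    have h2 : (Finset.univ : Finset (J → Fin ℓ)).card = ℓ ^ J.card := by
      rw [Finset.card_univ, Fintype.card_fun, Fintype.card_fin, Fintype.card_coe]
    rw [h2] at h1
    calc ℓ ^ J.card ≤ (fib κ).card * _ := h1
      _ ≤ (fib κ).card * Fintype.card (ClassGroup (𝓞 (fld V))) :=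
        Nat.mul_le_mul_left _ (Finset.card_le_univ _)
      _ = _ := Nat.mul_comm _ _
  rcases (fib κ).eq_empty_or_nonempty with hemp | ⟨e₀, he₀⟩
  · refine ⟨∅, ?_, by simp⟩
    rw [hemp] at hcount
    simpa using hcount
  have hfib : ∀ e, e ∈ fib κ ↔ cl (D e) = κ := fun e => by simp [fib]
  have hex : ∀ e : fib κ, ∃ c : V →* Multiplicative (ZMod ℓ), Continuous c ∧
      ∃ (y : (fld V)ˣ) (β : E), D e.1 - D e₀ = CFT.dv (y : fld V) ∧ β ≠ 0 ∧
        β ^ ℓ = ((y : fld V) : E) ∧ ∀ h : V, h.1 β = ζ ^ (Multiplicative.toAdd (c h)).val * β := by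
    intro e
    obtain ⟨y, hy⟩ := hcl (D e.1) (D e₀) (by rw [(hfib _).1 e.2, (hfib _).1 he₀])
    obtain ⟨β, hβ⟩ := hE.root ℓ hp.pos ((y : fld V) : E)
    have hy0 : ((y : fld V) : E) ≠ 0 := by
      simp
    have hβ0 : β ≠ 0 := by
      rintro rfl
      rw [zero_pow hp.ne_zero] at hβ
      exact hy0 hβ.symm
    obtain ⟨c, hc, hc'⟩ := kum_char hζ hζV hβ0 (by rw [hβ]; exact (y : fld V).2)
    exact ⟨c, hc, y, β, hy, hβ0, hβ, hc'⟩
  choose c hc y β hy hβ0 hβ hact using hex
  have hinj : Function.Injective c := by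
    intro e e' hee
    -- the quotient of the two radicals lies in `fld V`
    have hz : β e / β e' ∈ fld V := by
      rw [IntermediateField.mem_fixedField_iff]
      intro h hh
      have h1 := hact e ⟨h, hh⟩
      have h2 := hact e' ⟨h, hh⟩
      rw [hee] at h1
      simp only at h1 h2
      rw [map_div₀, h1, h2]
      have hζ0 : ζ ^ (Multiplicative.toAdd (c e' ⟨h, hh⟩)).val ≠ 0 :=
        pow_ne_zero _ (hζ.ne_zero hp.ne_zero)
      field_simp
    let z : fld V := ⟨β e / β e', hz⟩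
    have hz0 : z ≠ 0 := by
      intro h
      have : (z : E) = 0 := by rw [h]; rfl
      exact div_ne_zero (hβ0 e) (hβ0 e') this
    have hzpow : z ^ ℓ = (y e : fld V) / (y e' : fld V) := by
      apply Subtype.ext
      change (β e / β e') ^ ℓ = ((y e : fld V) : E) / ((y e' : fld V) : E)
      rw [div_pow, hβ, hβ]
    have hdv : ℓ • CFT.dv z = D e.1 - D e'.1 := by
      rw [← CFT.dv_pow, hzpow, CFT.dv_div (y e).ne_zero (y e').ne_zero, ← hy, ← hy]
      abel
    apply Subtype.ext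
    funext w
    have h1 := DFunLike.congr_fun hdv (pl w)
    rw [Finsupp.smul_apply, Finsupp.sub_apply, hD1, hD1, nsmul_eq_mul] at h1
    have h2 : (((e.1 w : ℕ) : ℤ) - ((e'.1 w : ℕ) : ℤ)) = 0 := by
      apply Int.eq_zero_of_abs_lt_dvd (m := (ℓ : ℤ)) ⟨_, h1.symm⟩
      have := (e.1 w).2
      have := (e'.1 w).2
      rw [abs_lt]
      constructor <;> omega
    apply Fin.ext
    omega
  refine ⟨Finset.univ.image c, ?_, ?_⟩
  · rw [Finset.card_image_of_injective _ hinj, Finset.card_univ, Fintype.card_coe]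
    exact hcount
  intro c' hc'
  obtain ⟨e, -, rfl⟩ := Finset.mem_image.1 hc'
  refine ⟨hc e, ?_⟩
  intro Q _ hQ hQJ g hg
  have hord : CFT.ord (lcCovPl (U := V) Q) (y e : fld V) = 0 := by
    rw [← CFT.dv_apply, ← hy, Finsupp.sub_apply, hD0 _ _ hQJ, hD0 _ _ hQJ, sub_zero]
  have hval : lcv Q ((y e : fld V) : E) = 1 :=
    (lc_cov_ord_eq_zero_iff (lcCovPl (U := V) Q) Q rfl (y e).ne_zero).1 hord
  have hvalβ : lcv Q (β e) = 1 := by
    rw [← hβ, map_pow] at hval
    exact (pow_eq_one_iff.1 hval).resolve_right hp.ne_zero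
  have hfix : g.1 (β e ^ ℓ ^ 1) = β e ^ ℓ ^ 1 := by
    rw [pow_one, hβ]
    exact (IntermediateField.mem_fixedField_iff _ _).1 (y e : fld V).2 g.1 g.2
  have hgβ := lc_inert_fix_root Q hQ hg hvalβ 1 hfix
  have h1 := hact e g
  rw [hgβ] at h1
  have h2 : ζ ^ (Multiplicative.toAdd (c e g)).val = 1 := by
    have := mul_right_cancel₀ (hβ0 e) (h1.symm.trans (one_mul _).symm)
    exact this
  apply lc_cov_zeta_inj hζ
  rw [h2]
  simp


end

end Claimed.Agent.R239
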