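/-
Row 239, package LC (local correspondence, Thm 2.4').  Sub-captain: helper75.
FILE LC/EX_a.lean = subtask LC.EX-a.  ONE OWNER (see table subtask); the owner replaces every sorry IN PLACE
(statements are frozen: ask helper75 before changing one) and may add private helper lemmas / helper files
LC/EX_a_*.lean.  You may import further LC files that do not (transitively) import this one.
Notation of the sketches: G' = Gal(E/N), v_P = lcv P, D_P = decomp N P, I_P = inert N P, cl(τ) = lcCl τ,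
K_U = fld U, K_U^h = fld (U ⊓ D_P) (henselisation of K_U at P inside E).  Labels (P4, V3, L1, ...) refer to
the doc-strings of the other LC files; index: LC/Chain.lean.
-/
import Claimed.Agent.R239.LC.KUM_b

set_option autoImplicit false
set_option linter.unusedSectionVars false
set_option linter.unusedVariables false

namespace Claimed.Agent.R239

open NumberField
open scoped Pointwise

section Core

open Finset

/-- shift of a periodic sum -/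
theorem lcSym_sum_shift {M : Type*} [AddCommGroup M] {ℓ : ℕ} (f : ℕ → M)
    (hf : ∀ n, f (n + ℓ) = f n) (p : ℕ) :
    ∑ i ∈ range ℓ, f (i + p) = ∑ i ∈ range ℓ, f i := by
  induction p with
  | zero => simp
  | succ p ih =>
    rw [← ih]
    have h1 := Finset.sum_range_succ (fun i => f (i + p)) ℓ
    have h2 := Finset.sum_range_succ' (fun i => f (i + p)) ℓ
    rw [h1] at h2
    have h3 : f (ℓ + p) = f (0 + p) := by rw [add_comm ℓ p, hf, zero_add]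
    rw [h3] at h2
    have h4 := add_right_cancel h2
    rw [h4]
    refine Finset.sum_congr rfl fun i _ => ?_
    congr 1
    ring

variable {E : Type*} [Field E]

theorem lcSym_geom {ℓ : ℕ} {x : E} (hx : x ^ ℓ = 1) (hx1 : x ≠ 1) : ∑ m ∈ range ℓ, x ^ m = 0 := by
  have h := geom_sum_mul x ℓ
  rw [hx, sub_self] at h
  exact (mul_eq_zero.mp h).resolve_right (sub_ne_zero.mpr hx1)

variable (ℓ : ℕ) (ζ α β : E) (c : ℕ → E)

/-- the conjugates of `y = ∑ c_j α^j` -/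
def lcSymY (n : ℕ) : E := ∑ j ∈ range ℓ, c j * (ζ ^ n * α) ^ j

/-- the partial norms of `y` -/
def lcSymP (n : ℕ) : E := ∏ j ∈ range n, lcSymY ℓ ζ α c j

/-- the Hilbert 90 resolvents -/
def lcSymW (m : ℕ) : E := ∑ i ∈ range ℓ, lcSymP ℓ ζ α c i * ((ζ ^ m * β)⁻¹) ^ i

/-- the conjugates of the element of `k(β)` of norm `α ^ ℓ` -/
def lcSymX (i : ℕ) : E := α * lcSymW ℓ ζ α β c i / lcSymW ℓ ζ α β c (i + 1)

/-- its coordinates -/
def lcSymC (j : ℕ) : E :=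
  (ℓ : E)⁻¹ * ∑ i ∈ range ℓ, lcSymX ℓ ζ α β c i * ((ζ ^ i * β)⁻¹) ^ j

variable {ℓ ζ α β c}

theorem lcSymY_congr {n n' : ℕ} (h : ζ ^ n = ζ ^ n') : lcSymY ℓ ζ α c n = lcSymY ℓ ζ α c n' := by
  simp only [lcSymY, h]

theorem lcSymY_add (hζ : ζ ^ ℓ = 1) (n : ℕ) : lcSymY ℓ ζ α c (n + ℓ) = lcSymY ℓ ζ α c n :=
  lcSymY_congr (by rw [pow_add, hζ, mul_one])

theorem lcSymP_succ (n : ℕ) :
    lcSymP ℓ ζ α c (n + 1) = lcSymP ℓ ζ α c n * lcSymY ℓ ζ α c n :=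
  Finset.prod_range_succ _ _

theorem lcSymP_zero : lcSymP ℓ ζ α c 0 = 1 := Finset.prod_range_zero _

theorem lcSymP_add (hζ : ζ ^ ℓ = 1) (h : lcNF ℓ ζ α c = β ^ ℓ) (n : ℕ) :
    lcSymP ℓ ζ α c (n + ℓ) = lcSymP ℓ ζ α c n * β ^ ℓ := by
  induction n with
  | zero =>
    rw [zero_add, lcSymP_zero, one_mul, ← h]
    rfl
  | succ n ih =>
    rw [show n + 1 + ℓ = (n + ℓ) + 1 by ring, lcSymP_succ, ih, lcSymY_add hζ, lcSymP_succ]
    ring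

theorem lcSymP_ne_zero (hl : 0 < ℓ) (hζ : ζ ^ ℓ = 1) (hβ0 : β ≠ 0) (h : lcNF ℓ ζ α c = β ^ ℓ)
    (n : ℕ) : lcSymP ℓ ζ α c n ≠ 0 := by
  intro h0
  have h1 : ∀ k, lcSymP ℓ ζ α c (n + k) = 0 := by
    intro k
    induction k with
    | zero => exact h0
    | succ k ih => rw [← add_assoc, lcSymP_succ, ih, zero_mul]
  have h2 : ∀ k, lcSymP ℓ ζ α c (k * ℓ) = (β ^ ℓ) ^ k := by
    intro k
    induction k with
    | zero => rw [zero_mul, lcSymP_zero, pow_zero]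
    | succ k ih => rw [add_mul, one_mul, lcSymP_add hζ h, ih, pow_succ]
  have h3 : n ≤ n * ℓ := Nat.le_mul_of_pos_right n hl
  obtain ⟨k, hk⟩ := Nat.exists_eq_add_of_le h3
  have h4 := h1 k
  rw [← hk, h2] at h4
  exact pow_ne_zero _ (pow_ne_zero _ hβ0) h4

theorem lcSymW_congr {m m' : ℕ} (h : ζ ^ m = ζ ^ m') :
    lcSymW ℓ ζ α β c m = lcSymW ℓ ζ α β c m' := by
  simp only [lcSymW, h]

theorem lcSymW_add (hζ : ζ ^ ℓ = 1) (m : ℕ) :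
    lcSymW ℓ ζ α β c (m + ℓ) = lcSymW ℓ ζ α β c m :=
  lcSymW_congr (by rw [pow_add, hζ, mul_one])

/-- `∑_m W_m = ℓ` -/
theorem lcSymW_sum (hζ : IsPrimitiveRoot ζ ℓ) (hl : 0 < ℓ) :
    ∑ m ∈ range ℓ, lcSymW ℓ ζ α β c m = ℓ := by
  simp only [lcSymW]
  rw [Finset.sum_comm]
  have h1 : ∀ i ∈ range ℓ, ∑ m ∈ range ℓ, lcSymP ℓ ζ α c i * ((ζ ^ m * β)⁻¹) ^ i =
      lcSymP ℓ ζ α c i * (β⁻¹) ^ i * ∑ m ∈ range ℓ, ((ζ ^ i)⁻¹) ^ m := by
    intro i _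
    rw [Finset.mul_sum]
    refine Finset.sum_congr rfl fun m _ => ?_
    rw [mul_inv, mul_pow, inv_pow, inv_pow, inv_pow, ← pow_mul, ← pow_mul, mul_comm m i]
    ring
  rw [Finset.sum_congr rfl h1, Finset.sum_eq_single 0]
  · simp [lcSymP_zero]
  · intro i hi hi0
    rw [lcSym_geom, mul_zero]
    · rw [inv_pow, ← pow_mul, mul_comm, pow_mul, hζ.pow_eq_one, one_pow, inv_one]
    · rw [ne_eq, inv_eq_one]
      exact hζ.pow_ne_one_of_pos_of_lt hi0 (Finset.mem_range.mp hi)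
  · intro h
    exact absurd (Finset.mem_range.mpr hl) h

section Aut

variable {G : Type*} [FunLike G E E] [RingHomClass G E E] (g : G) {p q : ℕ}

theorem lcSymY_map (hgζ : g ζ = ζ) (hgc : ∀ j, g (c j) = c j) (hgα : g α = ζ ^ p * α) (n : ℕ) :
    g (lcSymY ℓ ζ α c n) = lcSymY ℓ ζ α c (n + p) := by
  simp only [lcSymY, map_sum, map_mul, map_pow, hgζ, hgc, hgα]
  refine Finset.sum_congr rfl fun j _ => ?_
  rw [pow_add, mul_assoc]

theorem lcSymP_map (hgζ : g ζ = ζ) (hgc : ∀ j, g (c j) = c j) (hgα : g α = ζ ^ p * α) (n : ℕ) :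
    g (lcSymP ℓ ζ α c n) * lcSymP ℓ ζ α c p = lcSymP ℓ ζ α c (n + p) := by
  induction n with
  | zero => rw [lcSymP_zero, map_one, one_mul, zero_add]
  | succ n ih =>
    rw [lcSymP_succ, map_mul, lcSymY_map g hgζ hgc hgα, show n + 1 + p = (n + p) + 1 by ring,
      lcSymP_succ, ← ih]
    ring

theorem lcSymW_map (hζ : ζ ^ ℓ = 1) (hζ0 : ζ ≠ 0) (hβ0 : β ≠ 0) (h : lcNF ℓ ζ α c = β ^ ℓ)
    (hgζ : g ζ = ζ) (hgc : ∀ j, g (c j) = c j)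
    (hgα : g α = ζ ^ p * α) (hgβ : g β = ζ ^ q * β) (m : ℕ) :
    g (lcSymW ℓ ζ α β c m) * lcSymP ℓ ζ α c p =
      (ζ ^ (m + q) * β) ^ p * lcSymW ℓ ζ α β c (m + q) := by
  set r : E := (ζ ^ (m + q) * β)⁻¹ with hr
  have hr0 : ζ ^ (m + q) * β ≠ 0 := mul_ne_zero (pow_ne_zero _ hζ0) hβ0
  have h1 : g (lcSymW ℓ ζ α β c m) = ∑ i ∈ range ℓ, g (lcSymP ℓ ζ α c i) * r ^ i := by
    simp only [lcSymW, map_sum, map_mul, map_pow, map_inv₀, hgζ, hgβ]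
    refine Finset.sum_congr rfl fun i _ => ?_
    rw [hr, pow_add, mul_assoc]
  have hper : ∀ n, lcSymP ℓ ζ α c (n + ℓ) * r ^ (n + ℓ) = lcSymP ℓ ζ α c n * r ^ n := by
    intro n
    have hrl : r ^ ℓ = (β ^ ℓ)⁻¹ := by
      rw [hr, inv_pow, mul_pow, ← pow_mul, mul_comm (m + q) ℓ, pow_mul, hζ, one_pow, one_mul]
    rw [lcSymP_add hζ h, pow_add, hrl]
    have : β ^ ℓ ≠ 0 := pow_ne_zero _ hβ0
    field_simp
  have h2 := lcSym_sum_shift (fun i => lcSymP ℓ ζ α c i * r ^ i) hper p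
  have h3 : lcSymW ℓ ζ α β c (m + q) = ∑ i ∈ range ℓ, lcSymP ℓ ζ α c i * r ^ i := rfl
  rw [h1, h3, ← h2, Finset.sum_mul, Finset.mul_sum]
  refine Finset.sum_congr rfl fun i _ => ?_
  have h4 : (ζ ^ (m + q) * β) ^ p * r ^ p = 1 := by
    rw [← mul_pow, hr, mul_inv_cancel₀ hr0, one_pow]
  rw [← lcSymP_map g hgζ hgc hgα i, pow_add]
  linear_combination (-(g (lcSymP ℓ ζ α c i) * r ^ i * lcSymP ℓ ζ α c p)) * h4

/-- all the resolvents are non-zero, as soon as some `g` moves `β` -/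
theorem lcSymW_ne_zero (hp : ℓ.Prime) (hℓE : (ℓ : E) ≠ 0) (hζ : IsPrimitiveRoot ζ ℓ) (hβ0 : β ≠ 0)
    (h : lcNF ℓ ζ α c = β ^ ℓ) (hgζ : g ζ = ζ) (hgc : ∀ j, g (c j) = c j)
    (hgα : g α = ζ ^ p * α) (hgβ : g β = ζ ^ q * β) (hq : ζ ^ q ≠ 1) (m : ℕ) :
    lcSymW ℓ ζ α β c m ≠ 0 := by
  have hζ0 : ζ ≠ 0 := hζ.ne_zero hp.ne_zero
  have hinj : Function.Injective g := (RingHomClass.toRingHom g).injective
  have hstep : ∀ m, lcSymW ℓ ζ α β c m ≠ 0 → lcSymW ℓ ζ α β c (m + q) ≠ 0 := by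
    intro m hm h0
    have h1 := lcSymW_map g hζ.pow_eq_one hζ0 hβ0 h hgζ hgc hgα hgβ m
    rw [h0, mul_zero] at h1
    rcases mul_eq_zero.mp h1 with h2 | h2
    · exact hm (hinj (by rw [h2, map_zero]))
    · exact lcSymP_ne_zero hp.pos hζ.pow_eq_one hβ0 h p h2
  obtain ⟨m₀, hm₀⟩ : ∃ m₀, lcSymW ℓ ζ α β c m₀ ≠ 0 := by
    by_contra hcon
    replace hcon : ∀ m, lcSymW ℓ ζ α β c m = 0 := fun m => by
      by_contra hm
      exact hcon ⟨m, hm⟩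
    have h1 := lcSymW_sum (α := α) (β := β) (c := c) hζ hp.pos
    rw [Finset.sum_eq_zero fun m _ => hcon m] at h1
    exact hℓE h1.symm
  have hall : ∀ n, lcSymW ℓ ζ α β c (m₀ + n * q) ≠ 0 := by
    intro n
    induction n with
    | zero => simpa using hm₀
    | succ n ih =>
      rw [add_mul, one_mul, ← add_assoc]
      exact hstep _ ih
  have hcop : Nat.Coprime q ℓ := by
    rw [Nat.coprime_comm, Nat.Prime.coprime_iff_not_dvd hp]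
    intro hd
    exact hq ((hζ.pow_eq_one_iff_dvd q).mpr hd)
  have hζq : IsPrimitiveRoot (ζ ^ q) ℓ := hζ.pow_of_coprime q hcop
  have h1 : (ζ ^ m * (ζ ^ m₀)⁻¹) ^ ℓ = 1 := by
    rw [mul_pow, inv_pow, ← pow_mul, ← pow_mul, mul_comm m ℓ, mul_comm m₀ ℓ, pow_mul, pow_mul,
      hζ.pow_eq_one, one_pow, one_pow, inv_one, mul_one]
  have : NeZero ℓ := ⟨hp.ne_zero⟩
  obtain ⟨n, -, hn⟩ := hζq.eq_pow_of_pow_eq_one h1
  have h2 : ζ ^ (m₀ + n * q) = ζ ^ m := by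
    rw [pow_add, mul_comm n q, pow_mul, hn]
    have : ζ ^ m₀ ≠ 0 := pow_ne_zero _ hζ0
    field_simp
  rw [← lcSymW_congr h2]
  exact hall n

theorem lcSymX_map (hζ : ζ ^ ℓ = 1) (hζ0 : ζ ≠ 0) (hβ0 : β ≠ 0) (hl : 0 < ℓ)
    (h : lcNF ℓ ζ α c = β ^ ℓ)
    (hgζ : g ζ = ζ) (hgc : ∀ j, g (c j) = c j) (hgα : g α = ζ ^ p * α) (hgβ : g β = ζ ^ q * β)
    (hW : ∀ m, lcSymW ℓ ζ α β c m ≠ 0) (i : ℕ) :
    g (lcSymX ℓ ζ α β c i) = lcSymX ℓ ζ α β c (i + q) := by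
  have hP := lcSymP_ne_zero hl hζ hβ0 h p
  have h1 := lcSymW_map g hζ hζ0 hβ0 h hgζ hgc hgα hgβ i
  have h2 := lcSymW_map g hζ hζ0 hβ0 h hgζ hgc hgα hgβ (i + 1)
  have hinj : Function.Injective g := (RingHomClass.toRingHom g).injective
  have hg2 : g (lcSymW ℓ ζ α β c (i + 1)) ≠ 0 := fun h0 => hW (i + 1) (hinj (by rw [h0, map_zero]))
  have e : i + 1 + q = i + q + 1 := by ring
  rw [e] at h2
  rw [lcSymX, lcSymX, map_div₀, map_mul, hgα, div_eq_div_iff hg2 (hW _)]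
  have hA : (ζ ^ (i + q) * β) ^ p ≠ 0 := pow_ne_zero _ (mul_ne_zero (pow_ne_zero _ hζ0) hβ0)
  have h3 : (ζ ^ (i + q + 1) * β) ^ p = ζ ^ p * (ζ ^ (i + q) * β) ^ p := by
    rw [pow_succ ζ (i + q), ← mul_pow]
    ring
  rw [h3] at h2
  apply mul_right_cancel₀ hP
  apply mul_right_cancel₀ hA
  linear_combination (ζ ^ p * α * lcSymW ℓ ζ α β c (i + q + 1) * (ζ ^ (i + q) * β) ^ p) * h1 -
    (α * lcSymW ℓ ζ α β c (i + q) * (ζ ^ (i + q) * β) ^ p) * h2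

theorem lcSymX_add (hζ : ζ ^ ℓ = 1) (i : ℕ) :
    lcSymX ℓ ζ α β c (i + ℓ) = lcSymX ℓ ζ α β c i := by
  rw [lcSymX, lcSymX, lcSymW_add hζ, show i + ℓ + 1 = (i + 1) + ℓ by ring, lcSymW_add hζ]

theorem lcSymC_map (hζ : ζ ^ ℓ = 1) (hζ0 : ζ ≠ 0) (hβ0 : β ≠ 0) (hl : 0 < ℓ)
    (h : lcNF ℓ ζ α c = β ^ ℓ)
    (hgζ : g ζ = ζ) (hgc : ∀ j, g (c j) = c j) (hgα : g α = ζ ^ p * α) (hgβ : g β = ζ ^ q * β)
    (hW : ∀ m, lcSymW ℓ ζ α β c m ≠ 0) (j : ℕ) :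
    g (lcSymC ℓ ζ α β c j) = lcSymC ℓ ζ α β c j := by
  have hper : ∀ n, lcSymX ℓ ζ α β c (n + ℓ) * ((ζ ^ (n + ℓ) * β)⁻¹) ^ j =
      lcSymX ℓ ζ α β c n * ((ζ ^ n * β)⁻¹) ^ j := by
    intro n
    rw [lcSymX_add hζ, pow_add, hζ, mul_one]
  have h2 := lcSym_sum_shift (fun i => lcSymX ℓ ζ α β c i * ((ζ ^ i * β)⁻¹) ^ j) hper q
  rw [lcSymC, map_mul, map_inv₀, map_natCast, map_sum]
  conv_rhs => rw [← h2]
  congr 1
  refine Finset.sum_congr rfl fun i _ => ?_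
  rw [map_mul, lcSymX_map g hζ hζ0 hβ0 hl h hgζ hgc hgα hgβ hW, map_pow, map_inv₀, map_mul, map_pow,
    hgζ, hgβ, pow_add, mul_assoc]

end Aut

theorem lcSymX_prod (hζ : ζ ^ ℓ = 1) (hW : ∀ m, lcSymW ℓ ζ α β c m ≠ 0) :
    ∏ i ∈ range ℓ, lcSymX ℓ ζ α β c i = α ^ ℓ := by
  have h1 : ∀ n, ∏ i ∈ range n, lcSymX ℓ ζ α β c i =
      α ^ n * lcSymW ℓ ζ α β c 0 / lcSymW ℓ ζ α β c n := by
    intro n
    induction n with
    | zero =>
      rw [Finset.prod_range_zero, pow_zero, one_mul, div_self (hW 0)]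
    | succ n ih =>
      rw [Finset.prod_range_succ, ih, lcSymX]
      have := hW n
      have := hW (n + 1)
      field_simp
      ring
  have h2 : lcSymW ℓ ζ α β c ℓ = lcSymW ℓ ζ α β c 0 := by
    have := lcSymW_add (α := α) (β := β) (c := c) hζ 0
    rwa [zero_add] at this
  rw [h1, h2, mul_div_assoc, div_self (hW 0), mul_one]

theorem lcSymC_sum (hζ : IsPrimitiveRoot ζ ℓ) (hℓE : (ℓ : E) ≠ 0) (hβ0 : β ≠ 0) {n : ℕ}
    (hn : n < ℓ) :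
    ∑ j ∈ range ℓ, lcSymC ℓ ζ α β c j * (ζ ^ n * β) ^ j = lcSymX ℓ ζ α β c n := by
  have hl : 0 < ℓ := lt_of_le_of_lt (Nat.zero_le n) hn
  have hζ0 : ζ ≠ 0 := hζ.ne_zero hl.ne'
  have h1 : ∀ j ∈ range ℓ, lcSymC ℓ ζ α β c j * (ζ ^ n * β) ^ j =
      ∑ i ∈ range ℓ, (ℓ : E)⁻¹ * lcSymX ℓ ζ α β c i * (ζ ^ n * (ζ ^ i)⁻¹) ^ j := by
    intro j _
    rw [lcSymC, Finset.mul_sum, Finset.sum_mul]
    refine Finset.sum_congr rfl fun i _ => ?_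
    have e : ζ ^ n * (ζ ^ i)⁻¹ = (ζ ^ i * β)⁻¹ * (ζ ^ n * β) := by
      have : ζ ^ i ≠ 0 := pow_ne_zero _ hζ0
      field_simp
    rw [e, mul_pow]
    ring
  rw [Finset.sum_congr rfl h1, Finset.sum_comm]
  simp only [← Finset.mul_sum]
  rw [Finset.sum_eq_single n]
  · have : ζ ^ n * (ζ ^ n)⁻¹ = 1 := mul_inv_cancel₀ (pow_ne_zero _ hζ0)
    simp only [this, one_pow, Finset.sum_const, Finset.card_range, nsmul_eq_mul, mul_one]
    field_simp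
  · intro i hi hin
    rw [lcSym_geom, mul_zero]
    · rw [mul_pow, inv_pow, ← pow_mul, ← pow_mul, mul_comm n ℓ, mul_comm i ℓ, pow_mul, pow_mul,
        hζ.pow_eq_one, one_pow, one_pow, inv_one, mul_one]
    · intro h0
      have h2 : ζ ^ n = ζ ^ i := by
        have : ζ ^ i ≠ 0 := pow_ne_zero _ hζ0
        field_simp at h0
        exact h0
      exact hin (hζ.pow_inj (Finset.mem_range.mp hi) hn h2.symm)
  · intro h
    exact absurd (Finset.mem_range.mpr hn) h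

end Core

section

variable {N E : Type*} [Field N] [NumberField N] [Field E] [Algebra N E] [IsGalois N E]
  [CharZero E] [Algebra.IsAlgebraic ℚ E]
variable {ℓ : ℕ} [Fact ℓ.Prime]

omit [NumberField N] [IsGalois N E] [CharZero E] [Algebra.IsAlgebraic ℚ E] in
/-- an element of `Z` multiplies an `ℓ`-th root of an element of `fld Z` by a power of `ζ` -/
theorem lcSym_act {Z : Subgroup Gal(E/N)} {ζ : E} (hζ : IsPrimitiveRoot ζ ℓ) {g : Gal(E/N)}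
    (hg : g ∈ Z) {x : E} (hx0 : x ≠ 0) (hx : x ^ ℓ ∈ fld Z) : ∃ p : ℕ, g x = ζ ^ p * x := by
  have hp : ℓ.Prime := Fact.out
  have : NeZero ℓ := ⟨hp.ne_zero⟩
  have h1 : (g x / x) ^ ℓ = 1 := by
    rw [div_pow, ← map_pow, (IntermediateField.mem_fixedField_iff _ _).mp hx g hg,
      div_self (pow_ne_zero _ hx0)]
  obtain ⟨p, -, hp'⟩ := hζ.eq_pow_of_pow_eq_one h1
  exact ⟨p, by rw [hp']; field_simp⟩

/-- E1 (symmetry of the norm residue relation; pure algebra).  Proof: trivial if `β ∈ k = fld Z`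
(N2).  Else let `y_i = ∑ c_j (ζ^i α)^j`, `∏ y_i = β^ℓ`, `P_i = ∏_{j<i} y_j`,
`W_m = ∑_{i<ℓ} P_i (ζ^m β)^(-i)` (the resolvents of Hilbert 90 for `y / β`), `X_i = α W_i / W_{i+1}`.
Then `∏ X_i = α^ℓ`, and an element `g` of `Z` with `g β = ζ^q β` maps `X_i` to `X_{i+q}`, so that
`X_i = ∑_j c'_j (ζ^i β)^j` with `c'_j = ℓ⁻¹ ∑_i X_i (ζ^i β)^(-j) ∈ k`. -/
theorem lc_norm_symm (hℓ : ℓ ≠ 2) {Z : Subgroup Gal(E/N)} {ζ α β : E} (hζ : IsPrimitiveRoot ζ ℓ)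
    (hζZ : ζ ∈ fld Z) (hα0 : α ≠ 0) (hβ0 : β ≠ 0) (hα : α ^ ℓ ∈ fld Z) (hβ : β ^ ℓ ∈ fld Z)
    (h : lcIsNorm ℓ Z ζ α (β ^ ℓ)) : lcIsNorm ℓ Z ζ β (α ^ ℓ) := by
  have hp : ℓ.Prime := Fact.out
  have hℓE : (ℓ : E) ≠ 0 := Nat.cast_ne_zero.mpr hp.ne_zero
  have hζ0 : ζ ≠ 0 := hζ.ne_zero hp.ne_zero
  by_cases hβZ : β ∈ fld Z
  · exact lc_isNorm_split hζ hζZ hβ0 hβZ hα
  obtain ⟨c, hc, hcN⟩ := h
  have hfix : ∀ g ∈ Z, g ζ = ζ ∧ ∀ j, g (c j) = c j := fun g hg =>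
    ⟨(IntermediateField.mem_fixedField_iff _ _).mp hζZ g hg,
      fun j => (IntermediateField.mem_fixedField_iff _ _).mp (hc j) g hg⟩
  obtain ⟨g₀, hg₀, hg₀β⟩ : ∃ g₀ ∈ Z, g₀ β ≠ β := by
    by_contra hcon
    apply hβZ
    rw [IntermediateField.mem_fixedField_iff]
    intro g hg
    by_contra hne
    exact hcon ⟨g, hg, hne⟩
  have hW : ∀ m, lcSymW ℓ ζ α β c m ≠ 0 := by
    obtain ⟨p, hp'⟩ := lcSym_act hζ hg₀ hα0 hα
    obtain ⟨q, hq'⟩ := lcSym_act hζ hg₀ hβ0 hβ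
    refine lcSymW_ne_zero g₀ hp hℓE hζ hβ0 hcN (hfix g₀ hg₀).1 (hfix g₀ hg₀).2 hp' hq' ?_
    intro h1
    rw [h1, one_mul] at hq'
    exact hg₀β hq'
  refine ⟨lcSymC ℓ ζ α β c, fun j => ?_, ?_⟩
  · rw [IntermediateField.mem_fixedField_iff]
    intro g hg
    obtain ⟨p, hp'⟩ := lcSym_act hζ hg hα0 hα
    obtain ⟨q, hq'⟩ := lcSym_act hζ hg hβ0 hβ
    exact lcSymC_map g hζ.pow_eq_one hζ0 hβ0 hp.pos hcN (hfix g hg).1 (hfix g hg).2 hp' hq' hW j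
  · rw [lcNF, Finset.prod_congr rfl fun n hn => lcSymC_sum hζ hℓE hβ0 (Finset.mem_range.mp hn),
      lcSymX_prod hζ.pow_eq_one hW]

end

end Claimed.Agent.R239
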