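/-
Row 239, package LC (local correspondence, Thm 2.4').  Sub-captain: helper75.
FILE LC/EX_b.lean = subtask LC.EX-b.  ONE OWNER (see table subtask); the owner replaces every sorry IN PLACE
(statements are frozen: ask helper75 before changing one) and may add private helper lemmas / helper files
LC/EX_b_*.lean.  You may import further LC files that do not (transitively) import this one.
Notation of the sketches: G' = Gal(E/N), v_P = lcv P, D_P = decomp N P, I_P = inert N P, cl(τ) = lcCl τ,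
K_U = fld U, K_U^h = fld (U ⊓ D_P) (henselisation of K_U at P inside E).  Labels (P4, V3, L1, ...) refer to
the doc-strings of the other LC files; index: LC/Chain.lean.
-/
import Claimed.Agent.R239.LC.EX_a
import Claimed.Agent.R239.LC.NormGrp

set_option autoImplicit false
set_option linter.unusedSectionVars false
set_option linter.unusedVariables false

namespace Claimed.Agent.R239

open NumberField
open scoped Pointwise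

section

variable {N E : Type*} [Field N] [NumberField N] [Field E] [Algebra N E] [IsGalois N E]
  [CharZero E] [Algebra.IsAlgebraic ℚ E]
variable {ℓ : ℕ} [Fact ℓ.Prime]

/-- cancellation in the norm group -/
theorem lc_isNorm_cancel {Z : Subgroup Gal(E/N)} {ζ α : E} (hζ : IsPrimitiveRoot ζ ℓ)
    (hζZ : ζ ∈ fld Z) (hα0 : α ≠ 0) (hα : α ^ ℓ ∈ fld Z) {u v : E} (hv0 : v ≠ 0)
    (huv : lcIsNorm ℓ Z ζ α (u * v)) (hv : lcIsNorm ℓ Z ζ α v) : lcIsNorm ℓ Z ζ α u := by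
  have e : u = (u * v) * v⁻¹ := by field_simp
  rw [e]
  exact lc_isNorm_mul hζ.pow_eq_one hα huv (lc_isNorm_inv hζ hζZ hα0 hα hv0 hv)

/-- E2 (distinct lines have distinct norm groups).  Sketch: `V = k^×/ℓ`, `N_a` hyperplanes (lcLNI),
`b ∈ N_a ↔ a ∈ N_b` (E1, every class of `k^×` is `β^ℓ`, RadClosed).  If `N_c ⊆ N_a` then
`N_a = N_c = N₀`; pick `x ∉ N₀`; `N_x` is a hyperplane, so some `a'' = a^i c^j ≠ 1` lies in `N_x`;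
`N₀ ⊆ N_{a''}` (for `z ∈ N₀`: `a, c ∈ N_z`, a group), so `N_{a''} = N₀ ∌ x`, but `a'' ∈ N_x`. -/
theorem lc_norm_groups_ne (hE : RadClosed E) (hℓ : ℓ ≠ 2) {Z : Subgroup Gal(E/N)} {ζ α γ : E}
    (hζ : IsPrimitiveRoot ζ ℓ) (hζZ : ζ ∈ fld Z) (hlni : lcLNI ℓ N E Z ζ) (hα0 : α ≠ 0)
    (hγ0 : γ ≠ 0) (hα : α ^ ℓ ∈ fld Z) (hγ : γ ^ ℓ ∈ fld Z)
    (hind : ∀ i j : ℕ, α ^ i * γ ^ j ∈ fld Z → ℓ ∣ i ∧ ℓ ∣ j) :
    ∃ x ∈ fld Z, x ≠ 0 ∧ lcIsNorm ℓ Z ζ γ x ∧ ¬ lcIsNorm ℓ Z ζ α x := by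
  have hp : ℓ.Prime := Fact.out
  by_contra hcon
  have H : ∀ x ∈ fld Z, x ≠ 0 → lcIsNorm ℓ Z ζ γ x → lcIsNorm ℓ Z ζ α x := by
    intro x hx hx0 hxγ
    by_contra hxα
    exact hcon ⟨x, hx, hx0, hxγ, hxα⟩
  have hαZ : α ∉ fld Z := by
    intro h
    have := (hind 1 0 (by simpa using h)).1
    exact hp.one_lt.ne' (Nat.dvd_one.mp this)
  have hγZ : γ ∉ fld Z := by
    intro h
    have := (hind 0 1 (by simpa using h)).2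
    exact hp.one_lt.ne' (Nat.dvd_one.mp this)
  -- `x ∉ N(α)`
  obtain ⟨x, hx, hx0, hxα, -⟩ := hlni α hα0 hα hαZ
  have hxγ : ¬ lcIsNorm ℓ Z ζ γ x := fun h => hxα (H x hx hx0 h)
  obtain ⟨ξ, hξ⟩ := hE.root ℓ hp.pos x
  have hξ0 : ξ ≠ 0 := by
    rintro rfl
    rw [zero_pow hp.ne_zero] at hξ
    exact hx0 hξ.symm
  have hξℓ : ξ ^ ℓ ∈ fld Z := by rw [hξ]; exact hx
  have hξZ : ξ ∉ fld Z := by
    intro h
    apply hxα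
    rw [← hξ]
    exact lc_isNorm_lth hℓ hζ hα h
  -- some `a^i c^j` lies in `N(ξ)`
  obtain ⟨e₀, he₀, he₀0, he₀ξ, hall⟩ := hlni ξ hξ0 hξℓ hξZ
  obtain ⟨i, j, hij, hijξ⟩ : ∃ i j : ℕ, ¬ (ℓ ∣ i ∧ ℓ ∣ j) ∧
      lcIsNorm ℓ Z ζ ξ ((α ^ ℓ) ^ i * (γ ^ ℓ) ^ j) := by
    obtain ⟨i₁, hi₁, h₁⟩ := hall (α ^ ℓ) hα (pow_ne_zero _ hα0)
    obtain ⟨i₂, hi₂, h₂⟩ := hall (γ ^ ℓ) hγ (pow_ne_zero _ hγ0)
    by_cases h0 : i₁ = 0
    · subst h0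
      refine ⟨1, 0, fun h => hp.one_lt.ne' (Nat.dvd_one.mp h.1), ?_⟩
      simpa using h₁
    · refine ⟨i₂, (ℓ - 1) * i₁, fun h => ?_, ?_⟩
      · rcases (Nat.Prime.dvd_mul hp).mp h.2 with h3 | h3
        · exact absurd (Nat.le_of_dvd (Nat.sub_pos_of_lt hp.one_lt) h3)
            (by have := hp.pos; omega)
        · exact absurd (Nat.le_of_dvd (Nat.pos_of_ne_zero h0) h3) (by omega)
      · have h3 := lc_isNorm_pow hℓ hζ hξℓ h₁ i₂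
        have h4 := lc_isNorm_pow hℓ hζ hξℓ h₂ i₁
        have h5 : lcIsNorm ℓ Z ζ ξ (((γ ^ ℓ) ^ i₁) ^ ℓ) :=
          lc_isNorm_lth hℓ hζ hξℓ (pow_mem hγ i₁)
        have h6 := lc_isNorm_mul hζ.pow_eq_one hξℓ h3 h5
        refine lc_isNorm_cancel hζ hζZ hξ0 hξℓ (v := (γ ^ ℓ * e₀ ^ i₂) ^ i₁)
          (pow_ne_zero _ (mul_ne_zero (pow_ne_zero _ hγ0) (pow_ne_zero _ he₀0))) ?_ h4
        have e : (α ^ ℓ) ^ i₂ * (γ ^ ℓ) ^ ((ℓ - 1) * i₁) * (γ ^ ℓ * e₀ ^ i₂) ^ i₁ =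
            (α ^ ℓ * e₀ ^ i₁) ^ i₂ * ((γ ^ ℓ) ^ i₁) ^ ℓ := by
          obtain ⟨n, rfl⟩ : ∃ n, ℓ = n + 1 := ⟨ℓ - 1, by have := hp.pos; omega⟩
          simp only [Nat.add_sub_cancel]
          ring
        rw [e]
        exact h6
  set θ : E := α ^ i * γ ^ j with hθ
  have hθ0 : θ ≠ 0 := mul_ne_zero (pow_ne_zero _ hα0) (pow_ne_zero _ hγ0)
  have hθe : θ ^ ℓ = (α ^ ℓ) ^ i * (γ ^ ℓ) ^ j := by rw [hθ]; ring
  have hθℓ : θ ^ ℓ ∈ fld Z := by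
    rw [hθe]
    exact (fld Z).mul_mem (pow_mem hα i) (pow_mem hγ j)
  have hθZ : θ ∉ fld Z := fun h => hij (hind i j h)
  -- `x ∈ N(θ)`
  have hxθ : lcIsNorm ℓ Z ζ θ x := by
    rw [← hξ]
    refine lc_norm_symm hℓ hζ hζZ hξ0 hθ0 hξℓ hθℓ ?_
    rw [hθe]
    exact hijξ
  -- `N(γ) ⊆ N(θ)`
  have hsub : ∀ z ∈ fld Z, z ≠ 0 → lcIsNorm ℓ Z ζ γ z → lcIsNorm ℓ Z ζ θ z := by
    intro z hz hz0 hzγ
    obtain ⟨η, hη⟩ := hE.root ℓ hp.pos z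
    have hη0 : η ≠ 0 := by
      rintro rfl
      rw [zero_pow hp.ne_zero] at hη
      exact hz0 hη.symm
    have hηℓ : η ^ ℓ ∈ fld Z := by rw [hη]; exact hz
    have h1 : lcIsNorm ℓ Z ζ η (γ ^ ℓ) :=
      lc_norm_symm hℓ hζ hζZ hγ0 hη0 hγ hηℓ (by rw [hη]; exact hzγ)
    have h2 : lcIsNorm ℓ Z ζ η (α ^ ℓ) :=
      lc_norm_symm hℓ hζ hζZ hα0 hη0 hα hηℓ (by rw [hη]; exact H z hz hz0 hzγ)
    rw [← hη]
    refine lc_norm_symm hℓ hζ hζZ hη0 hθ0 hηℓ hθℓ ?_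
    rw [hθe]
    exact lc_isNorm_mul hζ.pow_eq_one hηℓ (lc_isNorm_pow hℓ hζ hηℓ h2 i)
      (lc_isNorm_pow hℓ hζ hηℓ h1 j)
  -- `N(θ)` is everything
  obtain ⟨b, hb, hb0, hbθ, -⟩ := hlni θ hθ0 hθℓ hθZ
  obtain ⟨e₁, he₁, he₁0, he₁γ, hall₁⟩ := hlni γ hγ0 hγ hγZ
  obtain ⟨m, hm, hxm⟩ := hall₁ x hx hx0
  have hm0 : m ≠ 0 := by
    rintro rfl
    apply hxγ
    simpa using hxm
  have h1 : lcIsNorm ℓ Z ζ θ (x * e₁ ^ m) :=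
    hsub _ ((fld Z).mul_mem hx (pow_mem he₁ m)) (mul_ne_zero hx0 (pow_ne_zero _ he₁0)) hxm
  have h2 : lcIsNorm ℓ Z ζ θ (e₁ ^ m) := by
    rw [mul_comm] at h1
    exact lc_isNorm_cancel hζ hζZ hθ0 hθℓ hx0 h1 hxθ
  have h3 : lcIsNorm ℓ Z ζ θ e₁ :=
    lc_isNorm_of_pow hℓ hζ hζZ hθ0 hθℓ he₁ he₁0
      (fun hd => absurd (Nat.le_of_dvd (Nat.pos_of_ne_zero hm0) hd) (by omega)) h2
  obtain ⟨n, -, hbn⟩ := hall₁ b hb hb0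
  have h4 : lcIsNorm ℓ Z ζ θ (b * e₁ ^ n) :=
    hsub _ ((fld Z).mul_mem hb (pow_mem he₁ n)) (mul_ne_zero hb0 (pow_ne_zero _ he₁0)) hbn
  exact hbθ (lc_isNorm_cancel hζ hζZ hθ0 hθℓ (pow_ne_zero _ he₁0) h4
    (lc_isNorm_pow hℓ hζ hθℓ h3 n))

end

end Claimed.Agent.R239
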