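/-
Row 239, package LC (local correspondence, Thm 2.4').  Sub-captain: helper75.
FILE LC/EX_c.lean = subtask LC.EX-c.  ONE OWNER (see table subtask); the owner replaces every sorry IN PLACE
(statements are frozen: ask helper75 before changing one) and may add private helper lemmas / helper files
LC/EX_c_*.lean.  You may import further LC files that do not (transitively) import this one.
Notation of the sketches: G' = Gal(E/N), v_P = lcv P, D_P = decomp N P, I_P = inert N P, cl(τ) = lcCl τ,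
K_U = fld U, K_U^h = fld (U ⊓ D_P) (henselisation of K_U at P inside E).  Labels (P4, V3, L1, ...) refer to
the doc-strings of the other LC files; index: LC/Chain.lean.
-/
import Claimed.Agent.R239.LC.EX_b

set_option autoImplicit false
set_option linter.unusedSectionVars false
set_option linter.unusedVariables false

namespace Claimed.Agent.R239

open NumberField
open scoped Pointwise

section Tools

open Finset

/-- shift of a periodic product -/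
theorem lcTr_prod_shift {M : Type*} [CommMonoid M] {ℓ : ℕ} (f : ℕ → M)
    (hf : ∀ n, f (n + ℓ) = f n) (p : ℕ) :
    ∏ i ∈ range ℓ, f (i + p) = ∏ i ∈ range ℓ, f i := by
  induction p with
  | zero => simp
  | succ p ih =>
    rw [← ih]
    cases ℓ with
    | zero => simp
    | succ n =>
      rw [Finset.prod_range_succ, Finset.prod_range_succ' (fun i => f (i + p))]
      have h3 : f (n + (p + 1)) = f (0 + p) := by
        rw [show n + (p + 1) = p + (n + 1) by ring, hf, zero_add]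
      rw [h3]
      congr 1
      refine Finset.prod_congr rfl fun i _ => ?_
      congr 1
      ring

variable {E : Type*} [Field E]

open Polynomial in
/-- reduction of a polynomial modulo `T ^ ℓ - a` -/
theorem lcTr_reduce {ℓ : ℕ} (hl : 0 < ℓ) (K : Subfield E) {a : E} (ha : a ∈ K) (F : E[X])
    (hF : ∀ n, F.coeff n ∈ K) :
    ∃ d : ℕ → E, (∀ j, d j ∈ K) ∧
      ∀ t : E, t ^ ℓ = a → F.eval t = ∑ j ∈ range ℓ, d j * t ^ j := by
  refine ⟨fun j => ∑ n ∈ range (F.natDegree + 1) with n % ℓ = j, F.coeff n * a ^ (n / ℓ),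
    fun j => ?_, fun t ht => ?_⟩
  · exact K.sum_mem fun n _ => K.mul_mem (hF n) (K.pow_mem ha _)
  · rw [Polynomial.eval_eq_sum_range,
      ← Finset.sum_fiberwise_of_maps_to (s := range (F.natDegree + 1)) (t := range ℓ)
        (g := fun n => n % ℓ) (fun n _ => Finset.mem_range.mpr (Nat.mod_lt n hl))]
    refine Finset.sum_congr rfl fun j _ => ?_
    rw [Finset.sum_mul]
    refine Finset.sum_congr rfl fun n hn => ?_
    have hnj : n % ℓ = j := (Finset.mem_filter.mp hn).2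
    have e : t ^ n = a ^ (n / ℓ) * t ^ j := by
      conv_lhs => rw [← Nat.div_add_mod n ℓ, pow_add, pow_mul, ht, hnj]
    rw [e]
    ring

/-- the action of an automorphism on the norm form -/
theorem lcTr_map_lcNF {G : Type*} [FunLike G E E] [RingHomClass G E E] (g : G) {ℓ p : ℕ}
    {ζ α : E} (hζ : ζ ^ ℓ = 1) (hgζ : g ζ = ζ) (hgα : g α = ζ ^ p * α) (c : ℕ → E) :
    g (lcNF ℓ ζ α c) = lcNF ℓ ζ α (fun j => g (c j)) := by
  have h1 := lcTr_prod_shift (ℓ := ℓ) (fun i => ∑ j ∈ range ℓ, g (c j) * (ζ ^ i * α) ^ j)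
    (fun n => by simp only [pow_add, hζ, mul_one]) p
  rw [lcNF, lcNF, ← h1, map_prod]
  refine Finset.prod_congr rfl fun i _ => ?_
  rw [map_sum]
  refine Finset.sum_congr rfl fun j _ => ?_
  rw [map_mul, map_pow, map_mul, map_pow, hgζ, hgα, pow_add, mul_assoc]

end Tools

section Gal

variable {N E : Type*} [Field N] [Field E] [Algebra N E] {ℓ : ℕ}

theorem lcTr_pow_act {g : Gal(E/N)} {ζ x : E} {q : ℕ} (hgζ : g ζ = ζ) (hgx : g x = ζ ^ q * x)
    (m : ℕ) : (g ^ m) x = ζ ^ (q * m) * x := by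
  induction m with
  | zero => simp
  | succ m ih =>
    rw [pow_succ', AlgEquiv.mul_apply, ih, map_mul, map_pow, hgζ, hgx]
    ring

variable [Fact ℓ.Prime] {Z Z' : Subgroup Gal(E/N)} {ζ γ : E}

/-- an element of `Z` permutes the conjugates `s ^ m c`, `c ∈ fld Z'`, cyclically -/
theorem lcTr_perm (hζ : IsPrimitiveRoot ζ ℓ) (hζZ : ζ ∈ fld Z) (hγ : γ ^ ℓ ∈ fld Z)
    (hZ' : ∀ g ∈ Z, g γ = γ ↔ g ∈ Z') {s : Gal(E/N)} (hs : s ∈ Z) (hsγ : s γ ≠ γ)
    {g : Gal(E/N)} (hg : g ∈ Z) :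
    ∃ n : ℕ, ∀ (m : ℕ) (c : E), c ∈ fld Z' → g ((s ^ m) c) = (s ^ (m + n)) c := by
  have hp : ℓ.Prime := Fact.out
  have : NeZero ℓ := ⟨hp.ne_zero⟩
  have hγ0 : γ ≠ 0 := by
    rintro rfl
    exact hsγ (map_zero s)
  have hfix : ∀ g ∈ Z, g ζ = ζ := fun g hg => (IntermediateField.mem_fixedField_iff _ _).mp hζZ g hg
  obtain ⟨q, hq⟩ := lcSym_act hζ hs hγ0 hγ
  obtain ⟨q', hq'⟩ := lcSym_act hζ hg hγ0 hγ
  have hq1 : ζ ^ q ≠ 1 := by
    intro h1
    rw [h1, one_mul] at hq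
    exact hsγ hq
  have hcop : Nat.Coprime q ℓ := by
    rw [Nat.coprime_comm, Nat.Prime.coprime_iff_not_dvd hp]
    intro hd
    exact hq1 ((hζ.pow_eq_one_iff_dvd q).mpr hd)
  have hζq : IsPrimitiveRoot (ζ ^ q) ℓ := hζ.pow_of_coprime q hcop
  have h1 : (ζ ^ q') ^ ℓ = 1 := by rw [← pow_mul, mul_comm, pow_mul, hζ.pow_eq_one, one_pow]
  obtain ⟨n, -, hn⟩ := hζq.eq_pow_of_pow_eq_one h1
  refine ⟨n, fun m c hc => ?_⟩
  set h : Gal(E/N) := (s ^ (m + n))⁻¹ * g * s ^ m with hh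
  have e : s ^ (m + n) * h = g * s ^ m := by rw [hh]; group
  have hhZ : h ∈ Z := Z.mul_mem (Z.mul_mem (Z.inv_mem (Z.pow_mem hs _)) hg) (Z.pow_mem hs _)
  have hhγ : h γ = γ := by
    apply (s ^ (m + n)).injective
    rw [← AlgEquiv.mul_apply, e, AlgEquiv.mul_apply, lcTr_pow_act (hfix s hs) hq,
      lcTr_pow_act (hfix s hs) hq, map_mul, map_pow, hfix g hg, hq', ← hn]
    ring
  have hhc : h c = c := (IntermediateField.mem_fixedField_iff _ _).mp hc h ((hZ' h hhZ).mp hhγ)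
  rw [← AlgEquiv.mul_apply, ← e, AlgEquiv.mul_apply, hhc]

theorem lcTr_pow_add (hζ : IsPrimitiveRoot ζ ℓ) (hζZ : ζ ∈ fld Z) (hγ : γ ^ ℓ ∈ fld Z)
    (hZ' : ∀ g ∈ Z, g γ = γ ↔ g ∈ Z') {s : Gal(E/N)} (hs : s ∈ Z) (hsγ : s γ ≠ γ)
    {c : E} (hc : c ∈ fld Z') (m : ℕ) : (s ^ (m + ℓ)) c = (s ^ m) c := by
  have hγ0 : γ ≠ 0 := by
    rintro rfl
    exact hsγ (map_zero s)
  have hsζ : s ζ = ζ := (IntermediateField.mem_fixedField_iff _ _).mp hζZ s hs
  obtain ⟨q, hq⟩ := lcSym_act hζ hs hγ0 hγ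
  have h1 : (s ^ ℓ) γ = γ := by
    rw [lcTr_pow_act hsζ hq, mul_comm q ℓ, pow_mul, hζ.pow_eq_one, one_pow, one_mul]
  have h2 : s ^ ℓ ∈ Z' := (hZ' _ (Z.pow_mem hs ℓ)).mp h1
  rw [pow_add, AlgEquiv.mul_apply, (IntermediateField.mem_fixedField_iff _ _).mp hc _ h2]

/-- the norm from `fld Z'` to `fld Z` -/
theorem lcTr_norm_mem (hζ : IsPrimitiveRoot ζ ℓ) (hζZ : ζ ∈ fld Z) (hγ : γ ^ ℓ ∈ fld Z)
    (hZ' : ∀ g ∈ Z, g γ = γ ↔ g ∈ Z') {s : Gal(E/N)} (hs : s ∈ Z) (hsγ : s γ ≠ γ)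
    {y : E} (hy : y ∈ fld Z') : ∏ m ∈ Finset.range ℓ, (s ^ m) y ∈ fld Z := by
  rw [IntermediateField.mem_fixedField_iff]
  intro g hg
  obtain ⟨n, hn⟩ := lcTr_perm hζ hζZ hγ hZ' hs hsγ hg
  rw [map_prod, Finset.prod_congr rfl fun m _ => hn m y hy]
  exact lcTr_prod_shift (fun m => (s ^ m) y) (fun m => lcTr_pow_add hζ hζZ hγ hZ' hs hsγ hy m) n

end Gal

section

variable {N E : Type*} [Field N] [NumberField N] [Field E] [Algebra N E] [IsGalois N E]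
  [CharZero E] [Algebra.IsAlgebraic ℚ E]
variable {ℓ : ℕ} [Fact ℓ.Prime]

open Polynomial in
/-- E3a (transitivity of norms in `k(α, γ)`).  Proof: `x = ∏_i f(ζ^i α)`, `f = ∑ c_j T^j`,
`c_j ∈ k' = fld Z'`; then `s^m x = ∏_i (s^m f)(ζ^i α)`, the polynomial `F = ∏_{m<ℓ} s^m f` has its
coefficients in `k` (an element of `Z` permutes the factors cyclically), and `F` is reduced modulo
`T^ℓ - α^ℓ`. -/
theorem lc_norm_trans (hℓ : ℓ ≠ 2) {Z Z' : Subgroup Gal(E/N)} {ζ α γ x : E}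
    (hζ : IsPrimitiveRoot ζ ℓ) (hζZ : ζ ∈ fld Z) (hα0 : α ≠ 0) (hα : α ^ ℓ ∈ fld Z)
    (hγ : γ ^ ℓ ∈ fld Z) (hle : Z' ≤ Z) (hZ' : ∀ g ∈ Z, g γ = γ ↔ g ∈ Z') {s : Gal(E/N)} (hs : s ∈ Z)
    (hsγ : s γ ≠ γ) (hx : lcIsNorm ℓ Z' ζ α x) :
    lcIsNorm ℓ Z ζ α (∏ m ∈ Finset.range ℓ, (s ^ m) x) := by
  have hp : ℓ.Prime := Fact.out
  obtain ⟨c, hc, rfl⟩ := hx
  have hsζ : s ζ = ζ := (IntermediateField.mem_fixedField_iff _ _).mp hζZ s hs
  obtain ⟨p, hp'⟩ := lcSym_act hζ hs hα0 hα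
  set f : ℕ → E[X] := fun m => ∑ j ∈ Finset.range ℓ, C ((s ^ m) (c j)) * X ^ j with hf
  set F : E[X] := ∏ m ∈ Finset.range ℓ, f m with hF
  have hfper : ∀ m, f (m + ℓ) = f m := by
    intro m
    simp only [hf]
    refine Finset.sum_congr rfl fun j _ => ?_
    rw [lcTr_pow_add hζ hζZ hγ hZ' hs hsγ (hc j)]
  have hFc : ∀ n, F.coeff n ∈ (fld Z).toSubfield := by
    intro n
    change F.coeff n ∈ fld Z
    rw [IntermediateField.mem_fixedField_iff]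
    intro g hg
    obtain ⟨k, hk⟩ := lcTr_perm hζ hζZ hγ hZ' hs hsγ hg
    have h1 : F.map (g : E →+* E) = F := by
      rw [hF, Polynomial.map_prod, ← lcTr_prod_shift f hfper k]
      refine Finset.prod_congr rfl fun m _ => ?_
      simp only [hf, Polynomial.map_sum, Polynomial.map_mul, Polynomial.map_C, Polynomial.map_pow,
        Polynomial.map_X]
      refine Finset.sum_congr rfl fun j _ => ?_
      congr 2
      exact hk m (c j) (hc j)
    conv_rhs => rw [← h1, Polynomial.coeff_map]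
    rfl
  obtain ⟨d, hd, hev⟩ := lcTr_reduce hp.pos (fld Z).toSubfield hα F hFc
  refine ⟨d, hd, ?_⟩
  have h1 : ∀ i, ∑ j ∈ Finset.range ℓ, d j * (ζ ^ i * α) ^ j =
      ∏ m ∈ Finset.range ℓ, ∑ j ∈ Finset.range ℓ, (s ^ m) (c j) * (ζ ^ i * α) ^ j := by
    intro i
    rw [← hev (ζ ^ i * α) (by
      rw [mul_pow, ← pow_mul, mul_comm i ℓ, pow_mul, hζ.pow_eq_one, one_pow, one_mul]), hF,
      Polynomial.eval_prod]
    refine Finset.prod_congr rfl fun m _ => ?_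
    simp only [hf, Polynomial.eval_finsetSum, Polynomial.eval_mul, Polynomial.eval_C,
      Polynomial.eval_pow, Polynomial.eval_X]
  rw [lcNF, Finset.prod_congr rfl fun i _ => h1 i, Finset.prod_comm]
  refine Finset.prod_congr rfl fun m _ => ?_
  have h2 : (s ^ m) ζ = ζ := by
    have := lcTr_pow_act (q := 0) (x := ζ) hsζ (by simpa using hsζ) m
    simpa using this
  rw [lcTr_map_lcNF (s ^ m) hζ.pow_eq_one h2 (lcTr_pow_act hsζ hp' m) c]
  rfl

end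

section

variable {N E : Type*} [Field N] [NumberField N] [Field E] [Algebra N E] [IsGalois N E]
  [CharZero E] [Algebra.IsAlgebraic ℚ E]
variable {ℓ : ℕ} [Fact ℓ.Prime]

/-- E3 (going up kills the norm residue symbol).  Sketch: `k = fld Z`, `k' = fld Z' = k(γ)`.  If
`α ∈ k'`: N2.  Else `𝒩 = {x ∈ k'^× : lcIsNorm Z' α x}` has index `ℓ` (lcLNI Z'),
`𝒩' = {x : lcIsNorm Z α (N_{k'/k} x)} ⊇ 𝒩` (E3a), `𝒩' ≠ k'^×` (E2: some norm from `k(γ)` is not a norm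
from `k(α)`), so `𝒩 = 𝒩'`; and `N_{k'/k} b = b^ℓ` is a norm from `k(α)` (N4). -/
theorem lc_norm_up (hE : RadClosed E) (hℓ : ℓ ≠ 2) {Z Z' : Subgroup Gal(E/N)} {ζ α γ b : E}
    (hζ : IsPrimitiveRoot ζ ℓ) (hζZ : ζ ∈ fld Z) (hlni : lcLNI ℓ N E Z ζ)
    (hlni' : lcLNI ℓ N E Z' ζ) (hα0 : α ≠ 0) (hα : α ^ ℓ ∈ fld Z) (hγ : γ ^ ℓ ∈ fld Z)
    (hγZ : γ ∉ fld Z) (hle : Z' ≤ Z) (hZ' : ∀ g ∈ Z, g γ = γ ↔ g ∈ Z') (hb : b ∈ fld Z) :
    lcIsNorm ℓ Z' ζ α b := by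
  have hp : ℓ.Prime := Fact.out
  have : NeZero ℓ := ⟨hp.ne_zero⟩
  have hmono : ∀ {x : E}, x ∈ fld Z → x ∈ fld Z' := fun hx => lc_fld_mono hle hx
  by_cases hb0 : b = 0
  · refine ⟨fun _ => 0, fun _ => (fld Z').zero_mem, ?_⟩
    rw [hb0, lcNF]
    exact Finset.prod_eq_zero (Finset.mem_range.mpr hp.pos) (by simp)
  by_cases hαZ' : α ∈ fld Z'
  · exact lc_isNorm_split hζ (hmono hζZ) hα0 hαZ' (hmono hb)
  have hγ0 : γ ≠ 0 := by
    rintro rfl
    exact hγZ (fld Z).zero_mem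
  have hγZ' : γ ∈ fld Z' := by
    rw [IntermediateField.mem_fixedField_iff]
    exact fun g hg => (hZ' g (hle hg)).mpr hg
  have hfix : ∀ g ∈ Z, g ζ = ζ := fun g hg => (IntermediateField.mem_fixedField_iff _ _).mp hζZ g hg
  -- an element `s` of `Z` with `s γ = ζ γ`
  obtain ⟨s, hs, hsγ⟩ : ∃ s ∈ Z, s γ = ζ ^ 1 * γ := by
    obtain ⟨s₀, hs₀, hs₀γ⟩ : ∃ g₀ ∈ Z, g₀ γ ≠ γ := by
      by_contra hcon
      apply hγZ
      rw [IntermediateField.mem_fixedField_iff]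
      intro g hg
      by_contra hne
      exact hcon ⟨g, hg, hne⟩
    obtain ⟨q, hq⟩ := lcSym_act hζ hs₀ hγ0 hγ
    have hq1 : ζ ^ q ≠ 1 := by
      intro h1
      rw [h1, one_mul] at hq
      exact hs₀γ hq
    have hcop : Nat.Coprime q ℓ := by
      rw [Nat.coprime_comm, Nat.Prime.coprime_iff_not_dvd hp]
      intro hd
      exact hq1 ((hζ.pow_eq_one_iff_dvd q).mpr hd)
    obtain ⟨u, -, hu⟩ := (hζ.pow_of_coprime q hcop).eq_pow_of_pow_eq_one hζ.pow_eq_one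
    refine ⟨s₀ ^ u, Z.pow_mem hs₀ u, ?_⟩
    rw [lcTr_pow_act (hfix s₀ hs₀) hq, pow_mul, hu, pow_one]
  have hsγ' : s γ ≠ γ := by
    rw [hsγ, pow_one]
    intro h1
    exact hζ.ne_one hp.one_lt (mul_right_cancel₀ hγ0 (h1.trans (one_mul γ).symm))
  have hsm : ∀ m, (s ^ m) γ = ζ ^ m * γ := by
    intro m
    rw [lcTr_pow_act (hfix s hs) hsγ, one_mul]
  have hsk : ∀ m, ∀ x ∈ fld Z, (s ^ m) x = x := fun m x hx =>
    (IntermediateField.mem_fixedField_iff _ _).mp hx _ (Z.pow_mem hs m)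
  -- the norm
  set Nm : E → E := fun y => ∏ m ∈ Finset.range ℓ, (s ^ m) y with hNm
  have hNm_mul : ∀ y y', Nm (y * y') = Nm y * Nm y' := by
    intro y y'
    simp only [hNm, map_mul, Finset.prod_mul_distrib]
  have hNm_pow : ∀ y (n : ℕ), Nm (y ^ n) = Nm y ^ n := by
    intro y n
    simp only [hNm, map_pow, Finset.prod_pow]
  have hNm_k : ∀ x ∈ fld Z, Nm x = x ^ ℓ := by
    intro x hx
    simp only [hNm]
    rw [Finset.prod_congr rfl fun m _ => hsk m x hx, Finset.prod_const, Finset.card_range]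
  have hNm_ne : ∀ y, y ≠ 0 → Nm y ≠ 0 := by
    intro y hy
    simp only [hNm]
    exact Finset.prod_ne_zero_iff.mpr fun m _ => (map_ne_zero _).mpr hy
  have T : ∀ y, lcIsNorm ℓ Z' ζ α y → lcIsNorm ℓ Z ζ α (Nm y) := fun y hy =>
    lc_norm_trans hℓ hζ hζZ hα0 hα hγ hle hZ' hs hsγ' hy
  -- independence
  have hind : ∀ i j : ℕ, α ^ i * γ ^ j ∈ fld Z → ℓ ∣ i ∧ ℓ ∣ j := by
    intro i j hij
    have hi : ℓ ∣ i := by
      by_contra hi
      apply hαZ'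
      refine lc_mem_of_pow_mem hα0 hi ?_ (hmono hα)
      have e : α ^ i = (α ^ i * γ ^ j) * (γ ^ j)⁻¹ := by
        have : γ ^ j ≠ 0 := pow_ne_zero _ hγ0
        field_simp
      rw [e]
      exact (fld Z').mul_mem (hmono hij) ((fld Z').inv_mem (pow_mem hγZ' j))
    refine ⟨hi, ?_⟩
    by_contra hj
    apply hγZ
    refine lc_mem_of_pow_mem hγ0 hj ?_ hγ
    obtain ⟨i', rfl⟩ := hi
    have e : γ ^ j = (α ^ (ℓ * i') * γ ^ j) * ((α ^ ℓ) ^ i')⁻¹ := by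
      have : α ^ ℓ ≠ 0 := pow_ne_zero _ hα0
      rw [pow_mul]
      field_simp
    rw [e]
    exact (fld Z).mul_mem hij ((fld Z).inv_mem (pow_mem hα i'))
  -- an element `w` of `k'` whose norm is not a norm from `k(α)`
  obtain ⟨x₀, hx₀, hx₀0, ⟨e, he, hex⟩, hx₀α⟩ :=
    lc_norm_groups_ne hE hℓ hζ hζZ hlni hα0 hγ0 hα hγ hind
  set w : E := ∑ j ∈ Finset.range ℓ, e j * γ ^ j with hw
  have hwZ' : w ∈ fld Z' :=
    (fld Z').sum_mem fun j _ => (fld Z').mul_mem (hmono (he j)) (pow_mem hγZ' j)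
  have hNw : Nm w = x₀ := by
    rw [← hex, lcNF]
    simp only [hNm]
    refine Finset.prod_congr rfl fun m _ => ?_
    rw [hw, map_sum]
    refine Finset.sum_congr rfl fun j _ => ?_
    rw [map_mul, map_pow, hsm, hsk m _ (he j)]
  have hw0 : w ≠ 0 := by
    intro h0
    apply hx₀0
    rw [← hNw, h0]
    simp only [hNm, map_zero]
    exact Finset.prod_eq_zero (Finset.mem_range.mpr hp.pos) rfl
  obtain ⟨b₀, hb₀, hb₀0, -, hall⟩ := hlni' α hα0 (hmono hα) hαZ'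
  have hB : Nm b₀ ∈ fld Z := lcTr_norm_mem hζ hζZ hγ hZ' hs hsγ' hb₀
  have hB0 : Nm b₀ ≠ 0 := hNm_ne b₀ hb₀0
  have hBN : ¬ lcIsNorm ℓ Z ζ α (Nm b₀) := by
    intro hBN
    obtain ⟨i, -, hwi⟩ := hall w hwZ' hw0
    have h1 := T _ hwi
    rw [hNm_mul, hNm_pow, hNw] at h1
    exact hx₀α (lc_isNorm_cancel hζ hζZ hα0 hα (pow_ne_zero _ hB0) h1
      (lc_isNorm_pow hℓ hζ hα hBN i))
  obtain ⟨n, hn, hbn⟩ := hall b (hmono hb) hb0
  have h1 := T _ hbn
  rw [hNm_mul, hNm_pow, hNm_k b hb, mul_comm] at h1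
  have h2 : lcIsNorm ℓ Z ζ α (Nm b₀ ^ n) :=
    lc_isNorm_cancel hζ hζZ hα0 hα (pow_ne_zero _ hb0) h1 (lc_isNorm_lth hℓ hζ hα hb)
  have hn0 : n = 0 := by
    by_contra hn0
    exact hBN (lc_isNorm_of_pow hℓ hζ hζZ hα0 hα hB hB0
      (fun hd => absurd (Nat.le_of_dvd (Nat.pos_of_ne_zero hn0) hd) (by omega)) h2)
  rw [hn0, pow_zero, mul_one] at hbn
  exact hbn

end

end Claimed.Agent.R239
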