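/-
Row 239, package LC (local correspondence, Thm 2.4').  Sub-captain: helper75.
FILE LC/LOC_b.lean = subtask LC.LOC-b.  ONE OWNER (see table subtask); the owner replaces every sorry IN PLACE
(statements are frozen: ask helper75 before changing one) and may add private helper lemmas / helper files
LC/LOC_b_*.lean.  You may import further LC files that do not (transitively) import this one.
Notation of the sketches: G' = Gal(E/N), v_P = lcv P, D_P = decomp N P, I_P = inert N P, cl(τ) = lcCl τ,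
K_U = fld U, K_U^h = fld (U ⊓ D_P) (henselisation of K_U at P inside E).  Labels (P4, V3, L1, ...) refer to
the doc-strings of the other LC files; index: LC/Chain.lean.
-/
import Claimed.Agent.R239.LC.VAL_b
import Claimed.Agent.R239.LC.VAL_c

set_option autoImplicit false

namespace Claimed.Agent.R239

open NumberField
open scoped Pointwise

section Helpers

variable {N E : Type*} [Field N] [NumberField N] [Field E] [Algebra N E] [IsGalois N E]
  [CharZero E] [Algebra.IsAlgebraic ℚ E]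
variable (P : Ideal (𝓞 E)) [P.IsMaximal]

omit [NumberField N] [IsGalois N E] [CharZero E] [Algebra.IsAlgebraic ℚ E] in
theorem lc_locb_smul_isMaximal (g : Gal(E/N)) (Q : Ideal (𝓞 E)) [Q.IsMaximal] :
    (g • Q).IsMaximal := by
  rw [Ideal.pointwise_smul_eq_comap]
  exact Ideal.comap_isMaximal_of_equiv _

/-- separation of `P` from a conjugate `σ⁻¹ P`, `σ ∈ U ∖ S`, by an integer of `fld S`. -/
theorem lc_locb_sep {U S : Subgroup Gal(E/N)} (hS : IsClosed (S : Set Gal(E/N)))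
    (hDS : U ⊓ decomp N P ≤ S) (hSU : S ≤ U) {σ : Gal(E/N)} (hσU : σ ∈ U) (hσS : σ ∉ S) :
    ∃ w : 𝓞 E, (w : E) ∈ fld S ∧ 1 - w ∈ P ∧ σ • w ∈ P := by
  haveI : (σ⁻¹ • P).IsMaximal := lc_locb_smul_isMaximal σ⁻¹ P
  have hp : (below S P).IsMaximal := Ideal.isMaximal_comap_of_isIntegral_of_isMaximal P
  have hq : (below S (σ⁻¹ • P)).IsMaximal := Ideal.isMaximal_comap_of_isIntegral_of_isMaximal _
  have hne : below S P ≠ below S (σ⁻¹ • P) := by
    intro heq
    obtain ⟨g, hgS, hg⟩ := lc_transitive P hS (σ⁻¹ • P) (by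
      intro y hy
      have hint : IsIntegral ℤ (⟨(y : E), hy⟩ : fld S) :=
        (isIntegral_algebraMap_iff (algebraMap (fld S) E).injective).1
          (RingOfIntegers.isIntegral_coe y)
      have hy' : algebraMap (𝓞 (fld S)) (𝓞 E) ⟨⟨(y : E), hy⟩, hint⟩ = y := RingOfIntegers.ext rfl
      have h1 : (⟨⟨(y : E), hy⟩, hint⟩ : 𝓞 (fld S)) ∈ below S P ↔ y ∈ P := by
        conv_rhs => rw [← hy']
        exact Iff.rfl
      have h2 : (⟨⟨(y : E), hy⟩, hint⟩ : 𝓞 (fld S)) ∈ below S (σ⁻¹ • P) ↔ y ∈ σ⁻¹ • P := by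
        conv_rhs => rw [← hy']
        exact Iff.rfl
      rw [← h1, ← h2, heq])
    have h2 : (σ * g) • P = P := by rw [mul_smul, ← hg, smul_inv_smul]
    have h3 : σ * g ∈ S := hDS ⟨U.mul_mem hσU (hSU hgS), h2⟩
    exact hσS (by simpa using S.mul_mem h3 (S.inv_mem hgS))
  have hsup : below S P ⊔ below S (σ⁻¹ • P) = ⊤ := Ideal.IsMaximal.coprime_of_ne hp hq hne
  obtain ⟨u, hu, w', hw', huw⟩ := Submodule.mem_sup.1 ((Ideal.eq_top_iff_one _).1 hsup)
  refine ⟨algebraMap (𝓞 (fld S)) (𝓞 E) w', (w' : fld S).2, ?_, ?_⟩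
  · have h1 : 1 - algebraMap (𝓞 (fld S)) (𝓞 E) w' = algebraMap (𝓞 (fld S)) (𝓞 E) u := by
      rw [← map_one (algebraMap (𝓞 (fld S)) (𝓞 E)), ← huw, map_add]
      ring
    rw [h1]
    exact hu
  · have h1 : algebraMap (𝓞 (fld S)) (𝓞 E) w' ∈ σ⁻¹ • P := hw'
    have h2 := Ideal.smul_mem_pointwise_smul σ _ _ h1
    rwa [smul_inv_smul] at h2

omit [NumberField N] [Algebra N E] [IsGalois N E] [Field N] in
theorem lc_locb_val_one_sub_pow (a : 𝓞 E) (n : ℕ) :
    lcv P (1 - (a : E) ^ n) ≤ lcv P (1 - (a : E)) := by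
  have h1 : (1 - (a : E) ^ n) = (1 - (a : E)) * ((∑ i ∈ Finset.range n, a ^ i : 𝓞 E) : E) := by
    have h0 := congrArg (algebraMap (𝓞 E) E) (mul_neg_geom_sum a n)
    rw [map_mul, map_sub, map_sub, map_one, map_pow] at h0
    exact h0.symm
  rw [h1, map_mul]
  exact mul_le_of_le_one_right zero_le (lc_val_le_one P _)

end Helpers

section

variable {N E : Type*} [Field N] [NumberField N] [Field E] [Algebra N E] [IsGalois N E]
  [CharZero E] [Algebra.IsAlgebraic ℚ E]
variable {ℓ : ℕ} [Fact ℓ.Prime]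
variable (P : Ideal (𝓞 E)) [P.IsMaximal]

/-- L2 (density of `K_U` in `K_U^h`).  Sketch: `F/K_U` finite Galois in `E` containing `x`, group
`G₀`, `D₀` the stabiliser of `P ∩ F`, `Z₀ = F^{D₀} ∋ x`.  `P ∩ F` is the only prime of `F` above
`P ∩ Z₀`.  CRT: `ε ∈ Z₀`, `ε ≡ 1` at `P ∩ Z₀`, `ε ≡ 0` to high order at the other primes of `Z₀`
above `P ∩ K_U`.  `y = Tr_{Z₀/K_U}(ε x)`: the terms `σ(ε x)`, `σ ∉ D₀`, are small at `P`. -/
theorem lc_dense {U : Subgroup Gal(E/N)} (hU : IsOpen (U : Set Gal(E/N))) {x t : E}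
    (hx : x ∈ fld (U ⊓ decomp N P)) (ht : t ≠ 0) : ∃ y ∈ fld U, lcv P (x - y) ≤ lcv P t := by
  classical
  -- the stabiliser of `x` in `U`
  let S : Subgroup Gal(E/N) := U ⊓ MulAction.stabilizer Gal(E/N) x
  have hSopen : IsOpen (S : Set Gal(E/N)) := by
    have := hU.inter (stabilizer_isOpen_of_isIntegral (K := N) x)
    simpa [S, Subgroup.coe_inf] using this
  have hSclosed : IsClosed (S : Set Gal(E/N)) := S.isClosed_of_isOpen hSopen
  have hSU : S ≤ U := inf_le_left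
  have hDS : U ⊓ decomp N P ≤ S := fun g hg =>
    ⟨hg.1, (IntermediateField.mem_fixedField_iff _ _).1 hx g hg⟩
  have hxS : x ∈ fld S := by
    rw [IntermediateField.mem_fixedField_iff]
    exact fun g hg => hg.2
  let S' : Subgroup U := S.subgroupOf U
  haveI : Finite (U ⧸ S') :=
    Subgroup.quotient_finite_of_isOpen' U S' hU (Subgroup.subgroupOf_isOpen U S hSopen)
  haveI : Fintype (U ⧸ S') := Fintype.ofFinite _
  -- evaluation at a coset
  have hout : ∀ z ∈ fld S, ∀ σ : U, ((σ : U ⧸ S').out).1 z = σ.1 z := by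
    intro z hz σ
    obtain ⟨h, hh⟩ := QuotientGroup.mk_out_eq_mul S' σ
    rw [hh]
    change σ.1 (h.1.1 z) = σ.1 z
    rw [(IntermediateField.mem_fixedField_iff _ _).1 hz h.1.1 h.2]
  have hnotS : ∀ c : U ⧸ S', c ≠ ((1 : U) : U ⧸ S') → (c.out).1 ∉ S := by
    intro c hc hmem
    apply hc
    rw [← QuotientGroup.out_eq' c, QuotientGroup.eq]
    change (c.out⁻¹ * 1 : U).1 ∈ S
    simpa using S.inv_mem hmem
  -- the separating integer
  have hw : ∀ c : U ⧸ S', ∃ w : 𝓞 E, (w : E) ∈ fld S ∧ 1 - w ∈ P ∧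
      (c ≠ ((1 : U) : U ⧸ S') → (c.out).1 • w ∈ P) := by
    intro c
    by_cases hc : c = ((1 : U) : U ⧸ S')
    · exact ⟨1, by simpa using (fld S).one_mem, by simp, fun h => absurd hc h⟩
    · obtain ⟨w, h1, h2, h3⟩ := lc_locb_sep P hSclosed hDS hSU (c.out).2 (hnotS c hc)
      exact ⟨w, h1, h2, fun _ => h3⟩
  choose wc hwc1 hwc2 hwc3 using hw
  let w : 𝓞 E := ∏ c, wc c
  have hwS : (w : E) ∈ fld S := by
    change algebraMap (𝓞 E) E (∏ c, wc c) ∈ fld S
    rw [map_prod]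
    exact prod_mem fun c _ => hwc1 c
  have hw1 : 1 - w ∈ P := by
    rw [← Ideal.Quotient.eq, map_one, map_prod]
    symm
    refine Finset.prod_eq_one fun c _ => ?_
    rw [← map_one (Ideal.Quotient.mk P), eq_comm, Ideal.Quotient.eq]
    exact hwc2 c
  have hw2 : ∀ c : U ⧸ S', c ≠ ((1 : U) : U ⧸ S') → (c.out).1 • w ∈ P := by
    intro c hc
    obtain ⟨r, hr⟩ := Finset.dvd_prod_of_mem wc (Finset.mem_univ c)
    change (c.out).1 • (∏ c, wc c) ∈ P
    rw [hr, smul_mul']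
    exact P.mul_mem_right _ (hwc3 c hc)
  -- the idempotent-like elements
  let ε : ℕ → E := fun n => 1 - (1 - (w : E) ^ n) ^ n
  have hεS : ∀ n, ε n ∈ fld S := fun n =>
    (fld S).sub_mem (fld S).one_mem (pow_mem ((fld S).sub_mem (fld S).one_mem (pow_mem hwS n)) n)
  let φ : ℕ → U ⧸ S' → E := fun n c => (c.out).1 (ε n * x)
  have hφ : ∀ n (σ : U), φ n (σ : U ⧸ S') = σ.1 (ε n * x) := fun n σ =>
    hout _ ((fld S).mul_mem (hεS n) hxS) σ
  -- bounds
  have hbound : ∀ c : U ⧸ S', ∃ n₀ : ℕ, ∀ n, n₀ ≤ n →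
      lcv P ((if c = ((1 : U) : U ⧸ S') then x else 0) - φ n c) ≤ lcv P t := by
    intro c
    by_cases hc : c = ((1 : U) : U ⧸ S')
    · have hlt : lcv P (1 - (w : E)) < 1 := by
        have := (lc_val_lt_one_iff P (1 - w)).2 hw1
        simpa using this
      obtain ⟨n₀, hn₀⟩ := lc_val_arch_mul P x hlt ht
      refine ⟨n₀, fun n hn => ?_⟩
      rw [if_pos hc, hc, hφ]
      have e : x - (1 : U).1 (ε n * x) = (1 - (w : E) ^ n) ^ n * x := by
        change x - (1 - (1 - (w : E) ^ n) ^ n) * x = _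
        ring
      rw [e, map_mul, map_pow]
      refine le_trans ?_ (hn₀ n hn)
      rw [map_pow]
      exact mul_le_mul_left (pow_le_pow_left₀ zero_le (lc_locb_val_one_sub_pow P w n) n) _
    · have hlt : lcv P (((c.out).1 • w : 𝓞 E) : E) < 1 := (lc_val_lt_one_iff P _).2 (hw2 c hc)
      obtain ⟨n₀, hn₀⟩ := lc_val_arch_mul P ((c.out).1 x) hlt ht
      refine ⟨n₀, fun n hn => ?_⟩
      rw [if_neg hc, zero_sub, Valuation.map_neg]
      change lcv P ((c.out).1 (ε n * x)) ≤ _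
      rw [map_mul, map_mul]
      refine le_trans ?_ (hn₀ n hn)
      refine mul_le_mul_left ?_ _
      have e : (c.out).1 (ε n)
          = 1 - ((1 - ((c.out).1 • w) ^ n : 𝓞 E) : E) ^ n := by
        change (c.out).1 (1 - (1 - (w : E) ^ n) ^ n) = _
        simp only [map_sub, map_one, map_pow]
        rfl
      rw [e]
      refine le_trans (lc_locb_val_one_sub_pow P _ n) ?_
      have e2 : (1 : E) - ((1 - ((c.out).1 • w) ^ n : 𝓞 E) : E) = (((c.out).1 • w : 𝓞 E) : E) ^ n := by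
        simp only [map_sub, map_one, map_pow]
        ring
      rw [e2]
  choose n₀ hn₀ using hbound
  let n : ℕ := Finset.univ.sup n₀
  refine ⟨∑ c, φ n c, ?_, ?_⟩
  · rw [IntermediateField.mem_fixedField_iff]
    intro g hg
    rw [map_sum]
    have h1 : ∀ c : U ⧸ S', g (φ n c) = φ n ((⟨g, hg⟩ : U) • c) := by
      intro c
      conv_rhs => rw [← QuotientGroup.out_eq' c]
      rw [MulAction.Quotient.smul_coe, hφ]
      rfl
    rw [Finset.sum_congr rfl fun c _ => h1 c]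
    exact Equiv.sum_comp (MulAction.toPerm (⟨g, hg⟩ : U)) (φ n)
  · have e : x - ∑ c, φ n c
        = ∑ c, ((if c = ((1 : U) : U ⧸ S') then x else 0) - φ n c) := by
      rw [Finset.sum_sub_distrib, Finset.sum_ite_eq' Finset.univ]
      simp
    rw [e]
    exact Valuation.map_sum_le _ fun c _ => hn₀ c n (Finset.le_sup (Finset.mem_univ c))

end

section

variable {M Ω : Type*} [Field M] [NumberField M] [Field Ω] [Algebra M Ω] [IsGalois M Ω]
  [CharZero Ω] [Algebra.IsAlgebraic ℚ Ω]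
variable {ℓ : ℕ} [Fact ℓ.Prime]
variable (P : Ideal (𝓞 Ω)) [P.IsMaximal]

/-- S0a (`K_U^h` has the value group of `K_U`).  Sketch: L2 with `t = x`·(element of valuation < 1). -/
theorem lct_decomp_val {U : Subgroup Gal(Ω/M)} (hU : IsOpen (U : Set Gal(Ω/M))) {x : Ω}
    (hx : x ∈ fld (U ⊓ decomp M P)) (hx0 : x ≠ 0) : ∃ y ∈ fld U, lcv P x = lcv P y := by
  obtain ⟨p, hpp, hp⟩ := lc_exists_over P
  have hp0 : (p : Ω) ≠ 0 := Nat.cast_ne_zero.2 hpp.ne_zero
  obtain ⟨y, hyU, hy⟩ := lc_dense P hU hx (mul_ne_zero hx0 hp0)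
  refine ⟨y, hyU, ?_⟩
  have h1 : lcv P (x - y) < lcv P x := by
    refine lt_of_le_of_lt hy ?_
    rw [map_mul]
    exact mul_lt_of_lt_one_right (lc_val_pos P hx0) (lc_val_over_lt_one P hp)
  have h2 : lcv P (x - (x - y)) = lcv P x := Valuation.map_sub_eq_of_lt_left _ h1
  rw [sub_sub_cancel] at h2
  exact h2.symm

end

end Claimed.Agent.R239
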