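/-
Row 239, package LC (local correspondence, Thm 2.4').  Sub-captain: helper75.
FILE LC/LOC_c.lean = subtask LC.LOC-c.  ONE OWNER (see table subtask); the owner replaces every sorry IN PLACE
(statements are frozen: ask helper75 before changing one) and may add private helper lemmas / helper files
LC/LOC_c_*.lean.  You may import further LC files that do not (transitively) import this one.
Notation of the sketches: G' = Gal(E/N), v_P = lcv P, D_P = decomp N P, I_P = inert N P, cl(τ) = lcCl τ,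
K_U = fld U, K_U^h = fld (U ⊓ D_P) (henselisation of K_U at P inside E).  Labels (P4, V3, L1, ...) refer to
the doc-strings of the other LC files; index: LC/Chain.lean.
-/
import Claimed.Agent.R239.LC.LOC_a
import Claimed.Agent.R239.LC.LOC_b
import Claimed.Agent.R239.LC.KUM_b

set_option autoImplicit false

namespace Claimed.Agent.R239

open NumberField
open scoped Pointwise

section general

variable {E Γ : Type*} [Field E] [LinearOrderedCommGroupWithZero Γ] (V : Valuation E Γ)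

/-- continuity at `c` (for the `V`-adic topology) of a function of the coordinates `j < ℓ` -/
private def LocCts (ℓ : ℕ) (f : (ℕ → E) → E) (c : ℕ → E) : Prop :=
  ∀ t : E, t ≠ 0 → ∃ s : E, s ≠ 0 ∧
    ∀ c' : ℕ → E, (∀ j < ℓ, V (c' j - c j) ≤ V s) → V (f c' - f c) ≤ V t

private lemma locc_min (s₁ s₂ : E) (h₁ : s₁ ≠ 0) (h₂ : s₂ ≠ 0) :
    ∃ s : E, s ≠ 0 ∧ V s ≤ V s₁ ∧ V s ≤ V s₂ := by
  rcases le_total (V s₁) (V s₂) with h | h
  · exact ⟨s₁, h₁, le_rfl, h⟩
  · exact ⟨s₂, h₂, h, le_rfl⟩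

private lemma locc_scale (t a : E) (ht : t ≠ 0) :
    ∃ t' : E, t' ≠ 0 ∧ V t' ≤ V t ∧ V t' * V a ≤ V t := by
  rcases le_total (V a) 1 with h | h
  · exact ⟨t, ht, le_rfl, mul_le_of_le_one_right' h⟩
  · have ha : a ≠ 0 := by
      rintro rfl
      rw [map_zero] at h
      exact absurd h (not_le.2 zero_lt_one)
    have hVa : V a ≠ 0 := (V.ne_zero_iff).2 ha
    refine ⟨t / a, div_ne_zero ht ha, ?_, ?_⟩
    · rw [map_div₀, div_le_iff₀ (zero_lt_iff.2 hVa)]
      exact le_mul_of_one_le_right' h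
    · rw [map_div₀, div_mul_cancel₀ _ hVa]

private lemma locc_const (ℓ : ℕ) (a : E) (c : ℕ → E) : LocCts V ℓ (fun _ => a) c := by
  intro t _
  exact ⟨1, one_ne_zero, fun c' _ => by simp⟩

private lemma locc_proj (ℓ : ℕ) {j : ℕ} (hj : j < ℓ) (c : ℕ → E) :
    LocCts V ℓ (fun c' => c' j) c := by
  intro t ht
  exact ⟨t, ht, fun c' h => h j hj⟩

private lemma locc_add {ℓ : ℕ} {f g : (ℕ → E) → E} {c : ℕ → E} (hf : LocCts V ℓ f c)
    (hg : LocCts V ℓ g c) : LocCts V ℓ (fun c' => f c' + g c') c := by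
  intro t ht
  obtain ⟨s₁, h₁, hs₁⟩ := hf t ht
  obtain ⟨s₂, h₂, hs₂⟩ := hg t ht
  obtain ⟨s, hs, hl₁, hl₂⟩ := locc_min V s₁ s₂ h₁ h₂
  refine ⟨s, hs, fun c' h => ?_⟩
  have e : f c' + g c' - (f c + g c) = (f c' - f c) + (g c' - g c) := by ring
  rw [e]
  exact le_trans (V.map_add _ _) (max_le (hs₁ c' fun j hj => (h j hj).trans hl₁)
    (hs₂ c' fun j hj => (h j hj).trans hl₂))

private lemma locc_mul {ℓ : ℕ} {f g : (ℕ → E) → E} {c : ℕ → E} (hf : LocCts V ℓ f c)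
    (hg : LocCts V ℓ g c) : LocCts V ℓ (fun c' => f c' * g c') c := by
  intro t ht
  obtain ⟨t₁, ht₁, ha₁, hb₁⟩ := locc_scale V t (g c) ht
  obtain ⟨t₀, ht₀, ha₀, hb₀⟩ := locc_min V t 1 ht one_ne_zero
  obtain ⟨t₂, ht₂, ha₂, hb₂⟩ := locc_scale V t₀ (f c) ht₀
  obtain ⟨s₁, h₁, hs₁⟩ := hf t₁ ht₁
  obtain ⟨s₂, h₂, hs₂⟩ := hg t₂ ht₂
  obtain ⟨s, hs, hl₁, hl₂⟩ := locc_min V s₁ s₂ h₁ h₂
  refine ⟨s, hs, fun c' h => ?_⟩
  have hF := hs₁ c' fun j hj => (h j hj).trans hl₁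
  have hG := hs₂ c' fun j hj => (h j hj).trans hl₂
  have e : f c' * g c' - f c * g c
      = (f c' - f c) * (g c' - g c) + ((f c' - f c) * g c + (g c' - g c) * f c) := by ring
  rw [e]
  refine le_trans (V.map_add _ _) (max_le ?_ (le_trans (V.map_add _ _) (max_le ?_ ?_)))
  · rw [map_mul]
    calc V (f c' - f c) * V (g c' - g c) ≤ V t₁ * V t₂ := mul_le_mul' hF hG
      _ ≤ V t * 1 := mul_le_mul' ha₁ (ha₂.trans (by simpa using hb₀))
      _ = V t := mul_one _
  · rw [map_mul]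
    exact le_trans (mul_le_mul_left hF _) hb₁
  · rw [map_mul]
    exact le_trans (mul_le_mul_left hG _) (hb₂.trans ha₀)

private lemma locc_sum {ℓ : ℕ} {ι : Type*} (S : Finset ι) {f : ι → (ℕ → E) → E} {c : ℕ → E}
    (hf : ∀ i ∈ S, LocCts V ℓ (f i) c) : LocCts V ℓ (fun c' => ∑ i ∈ S, f i c') c := by
  classical
  induction S using Finset.induction_on with
  | empty => simpa using locc_const V ℓ 0 c
  | insert a S ha ih =>
    simp only [Finset.sum_insert ha]
    exact locc_add V (hf a (Finset.mem_insert_self a S))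
      (ih fun i hi => hf i (Finset.mem_insert_of_mem hi))

private lemma locc_prod {ℓ : ℕ} {ι : Type*} (S : Finset ι) {f : ι → (ℕ → E) → E} {c : ℕ → E}
    (hf : ∀ i ∈ S, LocCts V ℓ (f i) c) : LocCts V ℓ (fun c' => ∏ i ∈ S, f i c') c := by
  classical
  induction S using Finset.induction_on with
  | empty => simpa using locc_const V ℓ 1 c
  | insert a S ha ih =>
    simp only [Finset.prod_insert ha]
    exact locc_mul V (hf a (Finset.mem_insert_self a S))
      (ih fun i hi => hf i (Finset.mem_insert_of_mem hi))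

private lemma locc_NF (ℓ : ℕ) (ζ α : E) (c : ℕ → E) : LocCts V ℓ (lcNF ℓ ζ α) c := by
  unfold lcNF
  refine locc_prod V _ fun i _ => locc_sum V _ fun j hj => ?_
  exact locc_mul V (locc_proj V ℓ (Finset.mem_range.1 hj) c) (locc_const V ℓ _ c)

end general

section

variable {N E : Type*} [Field N] [NumberField N] [Field E] [Algebra N E] [IsGalois N E]
  [CharZero E] [Algebra.IsAlgebraic ℚ E]
variable {ℓ : ℕ} [Fact ℓ.Prime]
variable (P : Ideal (𝓞 E)) [P.IsMaximal]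

/-- L3a.  Sketch: approximate the coefficients by L2; the norm form is a polynomial in them. -/
theorem lc_locNorm_of_isNorm {U : Subgroup Gal(E/N)} (hU : IsOpen (U : Set Gal(E/N)))
    {ζ α b : E} (h : lcIsNorm ℓ (U ⊓ decomp N P) ζ α b) : lcLocNorm ℓ U P ζ α b := by
  obtain ⟨c, hc, rfl⟩ := h
  intro t ht
  obtain ⟨s, hs, hcts⟩ := locc_NF (lcv P) ℓ ζ α c t ht
  choose c' hc' hclose using fun j => lc_dense P hU (hc j) hs
  refine ⟨c', hc', hcts c' fun j _ => ?_⟩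
  rw [Valuation.map_sub_swap]
  exact hclose j

end

section

variable {N E : Type*} [Field N] [NumberField N] [Field E] [Algebra N E] [IsGalois N E]
  [CharZero E] [Algebra.IsAlgebraic ℚ E]
variable {ℓ : ℕ} [Fact ℓ.Prime]
variable (P : Ideal (𝓞 E)) [P.IsMaximal]

/-- L3b.  Sketch: `lcNF c` close to `b` gives `b / lcNF c = d^ℓ`, `d ∈ K_U^h` (L1), a norm by N4;
conclude by N1 and N0. -/
theorem lc_isNorm_of_locNorm (hE : RadClosed E) (hℓ : ℓ ≠ 2) {U : Subgroup Gal(E/N)}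
    {ζ α b : E} (hζ : IsPrimitiveRoot ζ ℓ) (hζU : ζ ∈ fld U) (hα : α ^ ℓ ∈ fld U)
    (hb : b ∈ fld U) (hb0 : b ≠ 0) (h : lcLocNorm ℓ U P ζ α b) :
    lcIsNorm ℓ (U ⊓ decomp N P) ζ α b := by
  have hp : ℓ.Prime := Fact.out
  obtain ⟨p, hpp, hpP⟩ := lc_exists_over P
  have hp0 : (p : E) ≠ 0 := Nat.cast_ne_zero.2 hpp.ne_zero
  have hℓ0 : (ℓ : E) ≠ 0 := Nat.cast_ne_zero.2 hp.ne_zero
  have hVp : lcv P (p : E) < 1 := lc_val_over_lt_one P hpP
  have hVℓ : lcv P (ℓ : E) ≤ 1 := by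
    have := lc_val_le_one P (ℓ : 𝓞 E)
    simpa using this
  obtain ⟨c, hc, hclose⟩ := h (b * (ℓ : E) ^ 2 * (p : E))
    (mul_ne_zero (mul_ne_zero hb0 (pow_ne_zero _ hℓ0)) hp0)
  set n : E := lcNF ℓ ζ α c with hn
  have hnorm : lcIsNorm ℓ U ζ α n := ⟨c, hc, rfl⟩
  have hnU : n ∈ fld U := lc_isNorm_mem hζ hζU hα hnorm
  have hVb : 0 < lcv P b := lc_val_pos P hb0
  have hVℓ2 : 0 < lcv P (ℓ : E) ^ 2 := pow_pos (lc_val_pos P hℓ0) 2
  have hlt : lcv P (n - b) < lcv P b * lcv P (ℓ : E) ^ 2 := by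
    refine lt_of_le_of_lt hclose ?_
    rw [map_mul, map_mul, map_pow]
    exact mul_lt_of_lt_one_right (mul_pos hVb hVℓ2) hVp
  have hlt' : lcv P (n - b) < lcv P b :=
    lt_of_lt_of_le hlt (mul_le_of_le_one_right' (pow_le_one' hVℓ 2))
  have hVn : lcv P n = lcv P b := by
    have e : n = b + (n - b) := by ring
    rw [e]
    exact Valuation.map_add_eq_of_lt_left _ hlt'
  have hn0 : n ≠ 0 := by
    intro h0
    rw [h0, map_zero] at hVn
    exact hVb.ne hVn
  have hle : U ⊓ decomp N P ≤ U := inf_le_left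
  have hmono : ∀ {x : E}, x ∈ fld U → x ∈ fld (U ⊓ decomp N P) := by
    intro x hx
    rw [IntermediateField.mem_fixedField_iff] at hx ⊢
    exact fun g hg => hx g (hle hg)
  have hu : b / n ∈ fld (U ⊓ decomp N P) := hmono ((fld U).div_mem hb hnU)
  have hclose2 : lcv P (b / n - 1) < lcv P (ℓ : E) ^ 2 := by
    have e : b / n - 1 = (b - n) / n := by field_simp
    rw [e, map_div₀, hVn, Valuation.map_sub_swap, div_lt_iff₀ hVb, mul_comm]
    exact hlt
  obtain ⟨d, hd, hdu⟩ := lc_hensel_root P hE inf_le_right hu hclose2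
  have h1 : lcIsNorm ℓ (U ⊓ decomp N P) ζ α (d ^ ℓ * (α ^ ℓ) ^ 0) :=
    lc_isNorm_monomial hℓ hζ (hmono hα) hd 0
  have h2 : lcIsNorm ℓ (U ⊓ decomp N P) ζ α n := lc_isNorm_mono hle hnorm
  have h3 := lc_isNorm_mul hζ.pow_eq_one (hmono hα) h1 h2
  have e : d ^ ℓ * (α ^ ℓ) ^ 0 * n = b := by
    rw [pow_zero, mul_one, hdu, div_mul_cancel₀ _ hn0]
  rwa [e] at h3

end

end Claimed.Agent.R239
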