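/-
Row 239, package LC (local correspondence, Thm 2.4').  Sub-captain: helper75.
FILE LC/EX_d.lean = subtask LC.EX-d.  ONE OWNER (see table subtask); the owner replaces every sorry IN PLACE
(statements are frozen: ask helper75 before changing one) and may add private helper lemmas / helper files
LC/EX_d_*.lean.  You may import further LC files that do not (transitively) import this one.
Notation of the sketches: G' = Gal(E/N), v_P = lcv P, D_P = decomp N P, I_P = inert N P, cl(τ) = lcCl τ,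
K_U = fld U, K_U^h = fld (U ⊓ D_P) (henselisation of K_U at P inside E).  Labels (P4, V3, L1, ...) refer to
the doc-strings of the other LC files; index: LC/Chain.lean.
-/
import Claimed.Agent.R239.LC.LOC_c
import Claimed.Agent.R239.LC.NormGrp

set_option autoImplicit false
set_option linter.unusedSectionVars false
set_option linter.unusedVariables false

namespace Claimed.Agent.R239

open NumberField
open scoped Pointwise

section

variable {N E : Type*} [Field N] [NumberField N] [Field E] [Algebra N E] [IsGalois N E]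
  [CharZero E] [Algebra.IsAlgebraic ℚ E]
variable {ℓ : ℕ} [Fact ℓ.Prime]

/-- the norm form of `α c`, `c` in the base field, has the same values as the norm form of `α` -/
theorem lc_isNorm_scale {Z : Subgroup Gal(E/N)} {ζ α c b : E} (hc : c ∈ fld Z) (hc0 : c ≠ 0)
    (h : lcIsNorm ℓ Z ζ α b) : lcIsNorm ℓ Z ζ (α * c) b := by
  obtain ⟨a, ha, rfl⟩ := h
  refine ⟨fun j => a j * (c⁻¹) ^ j, fun j => (fld Z).mul_mem (ha j) (pow_mem ((fld Z).inv_mem hc) j),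
    ?_⟩
  rw [lcNF, lcNF]
  refine Finset.prod_congr rfl fun i _ => Finset.sum_congr rfl fun j _ => ?_
  rw [← mul_assoc (ζ ^ i) α c, mul_pow (ζ ^ i * α) c j, inv_pow]
  have : c ^ j ≠ 0 := pow_ne_zero _ hc0
  field_simp

/-- every element of `K_U^h` is an element of `K_U` times an `ℓ`-th power (L2 + L1) -/
theorem lc_hens_decomp (hE : RadClosed E) {U : Subgroup Gal(E/N)} (hU : IsOpen (U : Set Gal(E/N)))
    (P : Ideal (𝓞 E)) [P.IsMaximal] {x : E} (hx : x ∈ fld (U ⊓ decomp N P)) (hx0 : x ≠ 0) :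
    ∃ y ∈ fld U, y ≠ 0 ∧ ∃ c ∈ fld (U ⊓ decomp N P), c ≠ 0 ∧ y = x * c ^ ℓ := by
  have hp : ℓ.Prime := Fact.out
  obtain ⟨p, hpp, hpP⟩ := lc_exists_over P
  have hπ1 : lcv P (p : E) < 1 := lc_val_over_lt_one P hpP
  have hπ0 : (p : E) ≠ 0 := Nat.cast_ne_zero.mpr hpp.ne_zero
  have hℓ0 : (ℓ : E) ≠ 0 := Nat.cast_ne_zero.mpr hp.ne_zero
  have hℓ1 : lcv P (ℓ : E) ≤ 1 := by
    have := lc_val_le_one P (ℓ : 𝓞 E)
    exact_mod_cast this
  obtain ⟨y, hyU, hy⟩ := lc_dense P hU hx (t := x * (ℓ : E) ^ 2 * (p : E))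
    (mul_ne_zero (mul_ne_zero hx0 (pow_ne_zero _ hℓ0)) hπ0)
  have hyZ : y ∈ fld (U ⊓ decomp N P) := lc_fld_mono inf_le_left hyU
  have hA : 0 < lcv P (ℓ : E) ^ 2 := pow_pos (lc_val_pos P hℓ0) 2
  have hclose : lcv P (y / x - 1) < lcv P (ℓ : E) ^ 2 := by
    have e : y / x - 1 = (y - x) / x := by field_simp
    rw [e, map_div₀, (lcv P).map_sub_swap]
    have hvx : 0 < lcv P x := lc_val_pos P hx0
    rw [div_lt_iff₀ hvx]
    refine lt_of_le_of_lt hy ?_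
    rw [map_mul, map_mul, map_pow, mul_comm (lcv P x), mul_assoc, mul_comm (lcv P x), ← mul_assoc]
    exact mul_lt_mul_of_pos_right (mul_lt_of_lt_one_right hA hπ1) hvx
  obtain ⟨c, hcZ, hc⟩ := lc_hensel_root P hE (Z := U ⊓ decomp N P) inf_le_right
    ((fld _).div_mem hyZ hx) hclose
  have hy0 : y ≠ 0 := by
    rintro rfl
    rw [zero_div, zero_sub, Valuation.map_neg, map_one] at hclose
    exact absurd hclose (not_lt.mpr (pow_le_one' hℓ1 2))
  have hc0 : c ≠ 0 := by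
    rintro rfl
    rw [zero_pow hp.ne_zero] at hc
    exact (div_ne_zero hy0 hx0) hc.symm
  exact ⟨y, hyU, hy0, c, hcZ, hc0, by rw [hc]; field_simp⟩

/-- E4 (local norm index for the henselisation).  Sketch: `k = K_U^h`.  `α^ℓ = a₀ d^ℓ` with
`a₀ ∈ K_U`, `d ∈ k` (L2 + L1), so wlog `α^ℓ ∈ K_U`; every `b ∈ k^×` is `b₁ e^ℓ`, `b₁ ∈ K_U`;
translate by L3a/L3b. -/
theorem lc_lni_hens (hE : RadClosed E) (hℓ : ℓ ≠ 2) (hlni : LCLni ℓ N E)
    {U : Subgroup Gal(E/N)} (hU : IsOpen (U : Set Gal(E/N))) (P : Ideal (𝓞 E)) [P.IsMaximal]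
    {ζ : E} (hζ : IsPrimitiveRoot ζ ℓ) (hζU : ζ ∈ fld U) :
    lcLNI ℓ N E (U ⊓ decomp N P) ζ := by
  intro α hα0 hα hαZ
  have hmono : ∀ {x : E}, x ∈ fld U → x ∈ fld (U ⊓ decomp N P) := fun hx =>
    lc_fld_mono inf_le_left hx
  obtain ⟨a₀, ha₀U, ha₀0, c, hcZ, hc0, hac⟩ := lc_hens_decomp (ℓ := ℓ) hE hU P hα (pow_ne_zero _ hα0)
  have hα'0 : α * c ≠ 0 := mul_ne_zero hα0 hc0
  have hα'U : (α * c) ^ ℓ ∈ fld U := by rw [mul_pow, ← hac]; exact ha₀U
  have hα'Z : α * c ∉ fld (U ⊓ decomp N P) := by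
    intro h
    apply hαZ
    have e : α = (α * c) * c⁻¹ := by field_simp
    rw [e]
    exact (fld _).mul_mem h ((fld _).inv_mem hcZ)
  have hback : ∀ {b : E}, lcIsNorm ℓ (U ⊓ decomp N P) ζ (α * c) b →
      lcIsNorm ℓ (U ⊓ decomp N P) ζ α b := by
    intro b h
    have h1 := lc_isNorm_scale ((fld _).inv_mem hcZ) (inv_ne_zero hc0) h
    rwa [mul_assoc, mul_inv_cancel₀ hc0, mul_one] at h1
  obtain ⟨b₀, hb₀U, hb₀0, hb₀N, hall⟩ := hlni U hU P ζ (α * c) hζ hζU hα'0 hα'U hα'Z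
  refine ⟨b₀, hmono hb₀U, hb₀0, fun h => ?_, fun b hb hb0 => ?_⟩
  · exact hb₀N (lc_locNorm_of_isNorm P hU (lc_isNorm_scale hcZ hc0 h))
  · obtain ⟨b₁, hb₁U, hb₁0, e, heZ, he0, hbe⟩ := lc_hens_decomp (ℓ := ℓ) hE hU P hb hb0
    obtain ⟨i, hi, hloc⟩ := hall b₁ hb₁U hb₁0
    refine ⟨i, hi, hback ?_⟩
    have h1 : lcIsNorm ℓ (U ⊓ decomp N P) ζ (α * c) (b₁ * b₀ ^ i) :=
      lc_isNorm_of_locNorm P hE hℓ hζ hζU hα'U ((fld U).mul_mem hb₁U (pow_mem hb₀U i))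
        (mul_ne_zero hb₁0 (pow_ne_zero _ hb₀0)) hloc
    have e1 : b * b₀ ^ i = (b₁ * b₀ ^ i) * (e⁻¹) ^ ℓ := by
      rw [hbe, inv_pow]
      have : e ^ ℓ ≠ 0 := pow_ne_zero _ he0
      field_simp
    rw [e1]
    exact lc_isNorm_mul hζ.pow_eq_one (hmono hα'U) h1
      (lc_isNorm_lth hℓ hζ (hmono hα'U) ((fld _).inv_mem heZ))

end

end Claimed.Agent.R239
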