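/-
Row 239, package LC (local correspondence, Thm 2.4').  Sub-captain: helper75.
FILE LC/EX_e.lean = subtask LC.EX-e.  ONE OWNER (see table subtask); the owner replaces every sorry IN PLACE
(statements are frozen: ask helper75 before changing one) and may add private helper lemmas / helper files
LC/EX_e_*.lean.  You may import further LC files that do not (transitively) import this one.
Notation of the sketches: G' = Gal(E/N), v_P = lcv P, D_P = decomp N P, I_P = inert N P, cl(τ) = lcCl τ,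
K_U = fld U, K_U^h = fld (U ⊓ D_P) (henselisation of K_U at P inside E).  Labels (P4, V3, L1, ...) refer to
the doc-strings of the other LC files; index: LC/Chain.lean.
-/
import Claimed.Agent.R239.LC.LOC_b
import Claimed.Agent.R239.LC.BR_a
import Claimed.Agent.R239.LC.NormGrp

set_option autoImplicit false
set_option linter.unusedSectionVars false
set_option linter.unusedVariables false

namespace Claimed.Agent.R239

open NumberField
open scoped Pointwise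

section general

theorem lcE5_ring_one_add_pow {R : Type*} [CommRing R] (y : R) (n : ℕ) :
    ∃ r : R, (1 + y) ^ n = 1 + n * y + y ^ 2 * r := by
  induction n with
  | zero => exact ⟨0, by simp⟩
  | succ n ih =>
    obtain ⟨r, hr⟩ := ih
    refine ⟨n + r + r * y, ?_⟩
    rw [pow_succ, hr]
    push_cast
    ring

variable {E Γ : Type*} [Field E] [LinearOrderedCommGroupWithZero Γ] (V : Valuation E Γ) {ℓ : ℕ}

theorem lcE5_one_add_pow {y : E} (hy : V y ≤ 1) (n : ℕ) :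
    ∃ r : E, V r ≤ 1 ∧ (1 + y) ^ n = 1 + n * y + y ^ 2 * r := by
  obtain ⟨r, hr⟩ := lcE5_ring_one_add_pow (⟨y, hy⟩ : V.integer) n
  refine ⟨r.1, r.2, ?_⟩
  have := congrArg Subtype.val hr
  simpa using this

theorem lcE5_one_add_pow_prime (hp : ℓ.Prime) {x : E} (hx : V x ≤ 1) :
    ∃ r : E, V r ≤ 1 ∧ (1 + x) ^ ℓ = 1 + x ^ ℓ + ℓ * x * r := by
  obtain ⟨r, hr⟩ := exists_add_pow_prime_eq hp (1 : V.integer) (⟨x, hx⟩ : V.integer)
  refine ⟨r.1, r.2, ?_⟩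
  have := congrArg Subtype.val hr
  simpa using this

/-- an `ℓ`-th power which is `≡ 1` modulo the maximal ideal is `≡ 1` modulo `ϖ ^ 3` -/
theorem lcE5_key (hp : ℓ.Prime) (h3 : 3 ≤ ℓ) (k : Subfield E) {w : Γ} (hw1 : w < 1)
    (hw : ∀ x ∈ k, V x < 1 → V x ≤ w) (hℓw : V (ℓ : E) ≤ w ^ 2) {d : E} (hd : d ∈ k)
    (h : V (d ^ ℓ - 1) < 1) : V (d ^ ℓ - 1) ≤ w ^ 3 := by
  have hd1 : V d = 1 := by
    have h1 : V (d ^ ℓ) = 1 := by
      have := V.map_one_add_of_lt h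
      rwa [add_sub_cancel] at this
    rw [map_pow] at h1
    exact (pow_eq_one_iff_left hp.ne_zero).1 h1
  have hx1 : V (d - 1) ≤ 1 := le_trans (V.map_sub _ _) (max_le hd1.le (by simp))
  obtain ⟨r, hr1, hr⟩ := lcE5_one_add_pow_prime V hp hx1
  rw [add_sub_cancel] at hr
  have hℓ1 : V (ℓ : E) < 1 := lt_of_le_of_lt hℓw (pow_lt_one' hw1 two_ne_zero)
  have e1 : d ^ ℓ - 1 = (d - 1) ^ ℓ + ℓ * (d - 1) * r := by rw [hr]; ring
  have hxlt : V (d - 1) < 1 := by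
    by_contra hcon
    have hx : V (d - 1) = 1 := le_antisymm hx1 (not_lt.mp hcon)
    have e2 : (d - 1) ^ ℓ = (d ^ ℓ - 1) - ℓ * (d - 1) * r := by rw [e1]; ring
    have h2 : V ((d - 1) ^ ℓ) < 1 := by
      rw [e2]
      refine lt_of_le_of_lt (V.map_sub _ _) (max_lt h ?_)
      rw [map_mul, map_mul, hx, mul_one]
      exact lt_of_le_of_lt (mul_le_of_le_one_right' hr1) hℓ1
    rw [map_pow, hx, one_pow] at h2
    exact lt_irrefl _ h2
  have hxw : V (d - 1) ≤ w := hw _ (k.sub_mem hd k.one_mem) hxlt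
  rw [e1]
  refine le_trans (V.map_add _ _) (max_le ?_ ?_)
  · rw [map_pow]
    exact le_trans (pow_le_pow_left' hxw ℓ) (pow_le_pow_right_of_le_one' hw1.le h3)
  · rw [map_mul, map_mul, pow_succ w 2]
    exact le_trans (mul_le_of_le_one_right' hr1) (mul_le_mul' hℓw hxw)

theorem lcE5_val_root_one (hp : ℓ.Prime) {μ : E} (h : μ ^ ℓ = 1) : V μ = 1 := by
  have h1 : V μ ^ ℓ = 1 := by rw [← map_pow, h, map_one]
  exact (pow_eq_one_iff_left hp.ne_zero).1 h1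

theorem lcE5_val_one_sub_pow_le {x : E} (hx : V x ≤ 1) (k : ℕ) : V (1 - x ^ k) ≤ V (1 - x) := by
  rw [← mul_neg_geom_sum x k, map_mul]
  refine mul_le_of_le_one_right' ?_
  refine V.map_sum_le (fun i _ => ?_)
  rw [map_pow]
  exact pow_le_one' hx i

theorem lcE5_val_one_sub_eq (hp : ℓ.Prime) {ζ μ : E} (hζ : IsPrimitiveRoot ζ ℓ)
    (hμ : IsPrimitiveRoot μ ℓ) : V (1 - μ) = V (1 - ζ) := by
  have : NeZero ℓ := ⟨hp.ne_zero⟩
  obtain ⟨k, -, hk⟩ := hζ.eq_pow_of_pow_eq_one hμ.pow_eq_one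
  obtain ⟨j, -, hj⟩ := hμ.eq_pow_of_pow_eq_one hζ.pow_eq_one
  refine le_antisymm ?_ ?_
  · rw [← hk]; exact lcE5_val_one_sub_pow_le V (lcE5_val_root_one V hp hζ.pow_eq_one).le k
  · rw [← hj]; exact lcE5_val_one_sub_pow_le V (lcE5_val_root_one V hp hμ.pow_eq_one).le j

theorem lcE5_val_pow_eq (hp : ℓ.Prime) {ζ : E} (hζ : IsPrimitiveRoot ζ ℓ) :
    V (1 - ζ) ^ (ℓ - 1) = V (ℓ : E) := by
  have : Fact ℓ.Prime := ⟨hp⟩
  have h1 : (ℓ : E) = ∏ μ ∈ primitiveRoots ℓ E, (1 - μ) := by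
    have := Polynomial.cyclotomic_eq_prod_X_sub_primitiveRoots hζ
    have h2 := congrArg (Polynomial.eval 1) this
    rw [Polynomial.eval_one_cyclotomic_prime, Polynomial.eval_prod] at h2
    simpa using h2
  rw [h1, map_prod]
  rw [Finset.prod_congr rfl (fun μ hμ => lcE5_val_one_sub_eq V hp hζ
    ((mem_primitiveRoots hp.pos).1 hμ))]
  rw [Finset.prod_const, hζ.card_primitiveRoots, Nat.totient_prime hp]

theorem lcE5_small {ϖ T s a : E} {j : ℕ} (hw1 : V ϖ < 1) (hs : V s ≤ 1) (ha : V a ≤ 1)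
    (hj : j ≠ 0) (hT : T = a * ϖ ^ j + ϖ ^ (j + 1) * s) : V T < 1 := by
  rw [hT]
  refine lt_of_le_of_lt (V.map_add _ _) (max_lt ?_ ?_)
  · rw [map_mul, map_pow]
    exact lt_of_le_of_lt (mul_le_of_le_one_left' ha) (pow_lt_one' hw1 hj)
  · rw [map_mul, map_pow]
    exact lt_of_le_of_lt (mul_le_of_le_one_right' hs) (pow_lt_one' hw1 (Nat.succ_ne_zero j))

theorem lcE5_coef {ϖ T s a : E} {j : ℕ} (hϖ0 : ϖ ≠ 0) (hw1 : V ϖ < 1) (hs : V s ≤ 1)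
    (hj : j + 1 ≤ 3) (hT : T = a * ϖ ^ j + ϖ ^ (j + 1) * s) (hT3 : V T ≤ V ϖ ^ 3) :
    V a ≤ V ϖ := by
  have hw0 : 0 < V ϖ ^ j := pow_pos (zero_lt_iff.mpr ((map_ne_zero V).mpr hϖ0)) j
  have e : a * ϖ ^ j = T - ϖ ^ (j + 1) * s := by rw [hT]; ring
  have h1 : V a * V ϖ ^ j ≤ V ϖ * V ϖ ^ j := by
    rw [← map_pow, ← map_mul, e, map_pow, ← pow_succ']
    refine le_trans (V.map_sub _ _) (max_le ?_ ?_)
    · exact le_trans hT3 (pow_le_pow_right_of_le_one' hw1.le hj)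
    · rw [map_mul, map_pow]
      exact mul_le_of_le_one_right' hs
  exact le_of_mul_le_mul_right h1 hw0

end general

section

variable {N E : Type*} [Field N] [NumberField N] [Field E] [Algebra N E] [IsGalois N E]
  [CharZero E] [Algebra.IsAlgebraic ℚ E]
variable {ℓ : ℕ} [Fact ℓ.Prime]

open IsDedekindDomain in
/-- a uniformiser of `K_U` at `P` -/
theorem lcE5_uniformizer {U : Subgroup Gal(E/N)} (hU : IsOpen (U : Set Gal(E/N)))
    (P : Ideal (𝓞 E)) [P.IsMaximal] :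
    ∃ ϖ ∈ fld U, ϖ ≠ 0 ∧ lcv P ϖ < 1 ∧ ∀ y ∈ fld U, lcv P y < 1 → lcv P y ≤ lcv P ϖ := by
  have := lc_numberField hU
  obtain ⟨p, hpp, hpP⟩ := lc_exists_over P
  have hmax : (below U P).IsMaximal := Ideal.isMaximal_comap_of_isIntegral_of_isMaximal P
  have hne : below U P ≠ ⊥ := by
    intro hbot
    have h1 : (p : 𝓞 (fld U)) ∈ below U P := by
      rw [lc_mem_below_iff, map_natCast]
      exact hpP
    rw [hbot, Ideal.mem_bot] at h1
    exact hpp.ne_zero (Nat.cast_eq_zero.mp h1)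
  let v : CFT.Pl (fld U) := ⟨below U P, hmax.isPrime, hne⟩
  have hv : below U P = v.asIdeal := rfl
  obtain ⟨π, hπ⟩ := v.valuation_exists_uniformizer (fld U)
  have hπ0 : π ≠ 0 := by
    rintro rfl
    rw [map_zero] at hπ
    exact WithZero.exp_ne_zero hπ.symm
  refine ⟨π, π.2, fun h0 => hπ0 (Subtype.ext h0), ?_, ?_⟩
  · apply lc_val_lt_one_of_lt_one v P hv
    rw [hπ, ← WithZero.exp_zero, WithZero.exp_lt_exp]
    norm_num
  · intro y hy hy1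
    have h1 : v.valuation (fld U) ⟨y, hy⟩ < 1 := by
      by_contra hcon
      rw [not_lt, ← map_one (v.valuation (fld U)), lc_val_compare v P hv] at hcon
      have e1 : ((1 : fld U) : E) = 1 := rfl
      rw [e1, map_one] at hcon
      exact absurd hy1 (not_lt.mpr hcon)
    have h2 : v.valuation (fld U) ⟨y, hy⟩ ≤ v.valuation (fld U) π := by
      rw [hπ]
      by_cases hy0 : v.valuation (fld U) ⟨y, hy⟩ = 0
      · rw [hy0]
        exact zero_le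
      · apply WithZero.le_exp_of_log_le
        have h3 : WithZero.log (v.valuation (fld U) ⟨y, hy⟩) < 0 := by
          rw [WithZero.log_lt_iff_lt_exp hy0, WithZero.exp_zero]
          exact h1
        omega
    exact (lc_val_compare v P hv ⟨y, hy⟩ π).mp h2

/-- E5 (`dim k^×/ℓ ≥ 3` for `ℓ`-adic `k ∋ ζ`).  Proof: `ϖ` a uniformiser of `K_U` at `P`;
`c₁ = ϖ`, `c₂ = 1 + ϖ`, `c₃ = 1 + ϖ²`.  The value group of `K_U^h` is that of `K_U` (S0a), which gives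
`ℓ ∣ e₁`; a unit of `K_U^h` which is an `ℓ`-th power and `≡ 1 mod ϖ` is `≡ 1 mod ϖ³`, since
`v(ℓ) = v(1 - ζ)^(ℓ-1) ≤ v(ϖ)²` and `ℓ ≥ 3`. -/
theorem lc_dim_ge_three (hℓ : ℓ ≠ 2) {U : Subgroup Gal(E/N)} (hU : IsOpen (U : Set Gal(E/N)))
    (P : Ideal (𝓞 E)) [P.IsMaximal] (hP : Over P ℓ) {ζ : E} (hζ : IsPrimitiveRoot ζ ℓ)
    (hζU : ζ ∈ fld U) :
    ∃ c₁ ∈ fld U, ∃ c₂ ∈ fld U, ∃ c₃ ∈ fld U, c₁ ≠ 0 ∧ c₂ ≠ 0 ∧ c₃ ≠ 0 ∧
      ∀ e₁ e₂ e₃ : ℕ, (∃ d ∈ fld (U ⊓ decomp N P), c₁ ^ e₁ * c₂ ^ e₂ * c₃ ^ e₃ = d ^ ℓ) →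
        ℓ ∣ e₁ ∧ ℓ ∣ e₂ ∧ ℓ ∣ e₃ := by
  have hp : ℓ.Prime := Fact.out
  have h3 : 3 ≤ ℓ := by
    have := hp.two_le
    omega
  obtain ⟨ϖ, hϖU, hϖ0, hϖ1, hϖmax⟩ := lcE5_uniformizer hU P
  have hw0 : 0 < lcv P ϖ := lc_val_pos P hϖ0
  have hmono : ∀ {x : E}, x ∈ fld U → x ∈ fld (U ⊓ decomp N P) := fun hx =>
    lc_fld_mono inf_le_left hx
  have hmaxk : ∀ x ∈ (fld (U ⊓ decomp N P)).toSubfield, lcv P x < 1 → lcv P x ≤ lcv P ϖ := by
    intro x hx hx1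
    by_cases hx0 : x = 0
    · rw [hx0, map_zero]
      exact zero_le
    obtain ⟨y, hyU, hxy⟩ := lct_decomp_val P hU hx hx0
    rw [hxy] at hx1 ⊢
    exact hϖmax y hyU hx1
  have hℓ1 : lcv P (ℓ : E) < 1 := lc_val_over_lt_one P hP
  have hlam : lcv P (1 - ζ) ^ (ℓ - 1) = lcv P (ℓ : E) := lcE5_val_pow_eq (lcv P) hp hζ
  have hlam1 : lcv P (1 - ζ) < 1 := by
    by_contra hcon
    rw [not_lt] at hcon
    have := one_le_pow_of_one_le' hcon (ℓ - 1)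
    rw [hlam] at this
    exact absurd hℓ1 (not_lt.mpr this)
  have hlamw : lcv P (1 - ζ) ≤ lcv P ϖ := hϖmax _ ((fld U).sub_mem (fld U).one_mem hζU) hlam1
  have hℓw : lcv P (ℓ : E) ≤ lcv P ϖ ^ 2 := by
    rw [← hlam]
    exact le_trans (pow_le_pow_left' hlamw _) (pow_le_pow_right_of_le_one' hϖ1.le (by omega))
  have key : ∀ {d : E}, d ∈ fld (U ⊓ decomp N P) → lcv P (d ^ ℓ - 1) < 1 →
      lcv P (d ^ ℓ - 1) ≤ lcv P ϖ ^ 3 := fun {d} hd h =>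
    lcE5_key (lcv P) hp h3 (fld (U ⊓ decomp N P)).toSubfield hϖ1 hmaxk hℓw hd h
  have hnat : ∀ n : ℕ, lcv P (n : E) ≤ 1 := by
    intro n
    have := lc_val_le_one P (n : 𝓞 E)
    exact_mod_cast this
  have hdvd : ∀ n : ℕ, lcv P (n : E) ≤ lcv P ϖ → ℓ ∣ n := by
    intro n hn
    by_contra hnd
    have hc : n.Coprime ℓ := ((Nat.Prime.coprime_iff_not_dvd hp).2 hnd).symm
    rw [lc_val_natCast_eq_one P hP hc] at hn
    exact absurd hϖ1 (not_lt.mpr hn)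
  have hϖ2 : lcv P (ϖ ^ 2) < 1 := by
    rw [map_pow]
    exact pow_lt_one' hϖ1 two_ne_zero
  have hc2 : lcv P (1 + ϖ) = 1 := (lcv P).map_one_add_of_lt hϖ1
  have hc3 : lcv P (1 + ϖ ^ 2) = 1 := (lcv P).map_one_add_of_lt hϖ2
  have hc20 : 1 + ϖ ≠ 0 := by
    intro h0
    rw [h0, map_zero] at hc2
    exact zero_ne_one hc2
  have hc30 : 1 + ϖ ^ 2 ≠ 0 := by
    intro h0
    rw [h0, map_zero] at hc3
    exact zero_ne_one hc3
  have hc2U : 1 + ϖ ∈ fld U := (fld U).add_mem (fld U).one_mem hϖU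
  refine ⟨ϖ, hϖU, 1 + ϖ, hc2U, 1 + ϖ ^ 2,
    (fld U).add_mem (fld U).one_mem (pow_mem hϖU 2), hϖ0, hc20, hc30, ?_⟩
  rintro e₁ e₂ e₃ ⟨d, hd, hde⟩
  -- Step 0: `ℓ ∣ e₁`
  set q := e₁ / ℓ with hq
  set r := e₁ % ℓ with hr
  have he₁ : e₁ = ℓ * q + r := (Nat.div_add_mod e₁ ℓ).symm
  have hrℓ : r < ℓ := Nat.mod_lt _ hp.pos
  set z : E := d / ϖ ^ q with hz
  have hzk : z ∈ fld (U ⊓ decomp N P) := (fld _).div_mem hd (pow_mem (hmono hϖU) q)
  have hzℓ : z ^ ℓ = ϖ ^ r * (1 + ϖ) ^ e₂ * (1 + ϖ ^ 2) ^ e₃ := by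
    rw [hz, div_pow, ← hde, he₁, pow_add, ← pow_mul, mul_comm q ℓ]
    have : ϖ ^ (ℓ * q) ≠ 0 := pow_ne_zero _ hϖ0
    field_simp
  have hr0 : r = 0 := by
    by_contra hr0
    have h1 : lcv P z ^ ℓ = lcv P ϖ ^ r := by
      rw [← map_pow, hzℓ, map_mul, map_mul, map_pow, map_pow, map_pow, hc2, hc3, one_pow, one_pow,
        mul_one, mul_one]
    have h2 : lcv P z < 1 := by
      by_contra hcon
      rw [not_lt] at hcon
      have := one_le_pow_of_one_le' hcon ℓ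
      rw [h1] at this
      exact absurd (pow_lt_one' hϖ1 hr0) (not_lt.mpr this)
    have h4 := pow_le_pow_left' (hmaxk z hzk h2) ℓ
    rw [h1] at h4
    exact absurd (pow_lt_pow_right_of_lt_one₀ hw0 hϖ1 hrℓ) (not_lt.mpr h4)
  rw [hr0, pow_zero, one_mul] at hzℓ
  have hdvd₁ : ℓ ∣ e₁ := Nat.dvd_of_mod_eq_zero hr0
  -- Step A: `ℓ ∣ e₂`
  obtain ⟨r₁, hr₁, hA⟩ := lcE5_one_add_pow (lcv P) hϖ1.le e₂
  obtain ⟨r₂, hr₂, hB⟩ := lcE5_one_add_pow (lcv P) hϖ2.le e₃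
  have hdvd₂ : ℓ ∣ e₂ := by
    have hs : lcv P (r₁ + ((e₃ : E) + ϖ ^ 2 * r₂) * (1 + ϖ) ^ e₂) ≤ 1 := by
      refine le_trans ((lcv P).map_add _ _) (max_le hr₁ ?_)
      rw [map_mul, map_pow, hc2, one_pow, mul_one]
      refine le_trans ((lcv P).map_add _ _) (max_le (hnat e₃) ?_)
      rw [map_mul]
      exact le_trans (mul_le_of_le_one_right' hr₂) hϖ2.le
    have hT : z ^ ℓ - 1 = (e₂ : E) * ϖ ^ 1 +
        ϖ ^ (1 + 1) * (r₁ + ((e₃ : E) + ϖ ^ 2 * r₂) * (1 + ϖ) ^ e₂) := by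
      linear_combination hzℓ + (1 + ϖ) ^ e₂ * hB + hA
    exact hdvd e₂ (lcE5_coef (lcv P) hϖ0 hϖ1 hs (by norm_num) hT
      (key hzk (lcE5_small (lcv P) hϖ1 hs (hnat e₂) one_ne_zero hT)))
  -- Step B: `ℓ ∣ e₃`
  obtain ⟨m, hm⟩ := hdvd₂
  have hdvd₃ : ℓ ∣ e₃ := by
    set z' : E := z / (1 + ϖ) ^ m with hz'
    have hz'k : z' ∈ fld (U ⊓ decomp N P) := (fld _).div_mem hzk (pow_mem (hmono hc2U) m)
    have hz'ℓ : z' ^ ℓ = (1 + ϖ ^ 2) ^ e₃ := by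
      rw [hz', div_pow, hzℓ, hm, ← pow_mul, mul_comm m ℓ]
      have : (1 + ϖ) ^ (ℓ * m) ≠ 0 := pow_ne_zero _ hc20
      field_simp
    have hs : lcv P (ϖ * r₂) ≤ 1 := by
      rw [map_mul]
      exact le_trans (mul_le_of_le_one_right' hr₂) hϖ1.le
    have hT : z' ^ ℓ - 1 = (e₃ : E) * ϖ ^ 2 + ϖ ^ (2 + 1) * (ϖ * r₂) := by
      linear_combination hz'ℓ + hB
    exact hdvd e₃ (lcE5_coef (lcv P) hϖ0 hϖ1 hs (by norm_num) hT
      (key hz'k (lcE5_small (lcv P) hϖ1 hs (hnat e₃) two_ne_zero hT)))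
  exact ⟨hdvd₁, ⟨m, hm⟩, hdvd₃⟩

end

end Claimed.Agent.R239
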