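/-
Row 239, package LC (local correspondence, Thm 2.4').  Sub-captain: helper75.
FILE LC/J.lean = subtask LC.J.  ONE OWNER (see table subtask; owner: helper199); the owner replaces every sorry IN PLACE
(statements are frozen: ask helper75 before changing one) and may add private helper lemmas / helper files
LC/J_*.lean.  You may import further LC files that do not (transitively) import this one.
Notation of the sketches: G' = Gal(E/N), v_P = lcv P, D_P = decomp N P, I_P = inert N P, cl(τ) = lcCl τ,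
K_U = fld U, K_U^h = fld (U ⊓ D_P) (henselisation of K_U at P inside E).  Labels (P4, V3, L1, ...) refer to
the doc-strings of the other LC files; index: LC/Chain.lean.
-/
import Claimed.Agent.R239.LC.KUM_a
import Claimed.Agent.R239.LC.PROF_a

set_option autoImplicit false

namespace Claimed.Agent.R239

open NumberField
open scoped Pointwise

section

variable {N E : Type*} [Field N] [NumberField N] [Field E] [Algebra N E] [IsGalois N E]
  [CharZero E] [Algebra.IsAlgebraic ℚ E]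
variable {ℓ : ℕ} [Fact ℓ.Prime]
variable {M Ω : Type*} [Field M] [NumberField M] [Field Ω] [Algebra M Ω] [IsGalois M Ω]

/-- an element killed by `ℓ` is pro-`ℓ`. -/
theorem lc_isProL_of_pow_eq_one {G : Type*} [Group G] [TopologicalSpace G] {g : G}
    (hg : g ^ ℓ = 1) : IsProL ℓ g := fun V _ => ⟨1, by rw [pow_one, hg]; exact V.one_mem⟩

/-- the core of J1: no eigenvector with a non trivial eigenvalue. -/
theorem lc_no_torsion_aux (hE : RadClosed E) (hℓ : ℓ ≠ 2) {g : Gal(E/N)} (hg : g ^ ℓ = 1)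
    {α ξ : E} (hα : α ≠ 0) (hξ : ξ ^ ℓ = 1) (hgα : g α = ξ * α) : ξ = 1 := by
  have hp : ℓ.Prime := Fact.out
  have hpro : IsProL ℓ g := lc_isProL_of_pow_eq_one hg
  have hgξ : g ξ = ξ := kum_zeta_fixed hpro hξ
  obtain ⟨β, hβ⟩ := hE.root ℓ hp.pos α
  have hpow : ∀ i : ℕ, (g ^ i) α = ξ ^ i * α := by
    intro i
    induction i with
    | zero => simp
    | succ i ih =>
      rw [pow_succ', AlgEquiv.mul_apply, ih, map_mul, map_pow, hgξ, hgα]
      ring
  have hβ0 : β ≠ 0 := by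
    rintro rfl
    rw [zero_pow hp.ne_zero] at hβ
    exact hα hβ.symm
  have hfix : g (∏ i ∈ Finset.range ℓ, (g ^ i) β) = ∏ i ∈ Finset.range ℓ, (g ^ i) β := by
    rw [map_prod]
    have h1 : ∀ i, g ((g ^ i) β) = (g ^ (i + 1)) β := by
      intro i
      rw [pow_succ', AlgEquiv.mul_apply]
    simp only [h1]
    have h2 := Finset.prod_range_succ' (fun i => (g ^ i) β) ℓ
    have h3 := Finset.prod_range_succ (fun i => (g ^ i) β) ℓ
    rw [h2] at h3
    simp only [hg, pow_zero, AlgEquiv.one_apply] at h3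
    exact mul_right_cancel₀ hβ0 h3
  have hodd : ∃ k, ℓ = 2 * k + 1 := hp.odd_of_ne_two hℓ
  have hnorm : (∏ i ∈ Finset.range ℓ, (g ^ i) β) ^ ℓ = α ^ ℓ := by
    rw [← Finset.prod_pow]
    have h1 : ∀ i ∈ Finset.range ℓ, ((g ^ i) β) ^ ℓ = ξ ^ i * α := by
      intro i _
      rw [← map_pow, hβ, hpow]
    rw [Finset.prod_congr rfl h1, Finset.prod_mul_distrib, Finset.prod_const, Finset.card_range,
      Finset.prod_pow_eq_pow_sum]
    obtain ⟨k, hk⟩ := hodd
    have h2 : ∑ i ∈ Finset.range ℓ, i = ℓ * k := by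
      have := Finset.sum_range_id_mul_two ℓ
      have h3 : ℓ - 1 = 2 * k := by omega
      rw [h3] at this
      nlinarith
    rw [h2, pow_mul, hξ, one_pow, one_mul]
  have hu : ((∏ i ∈ Finset.range ℓ, (g ^ i) β) / α) ^ ℓ = 1 := by
    rw [div_pow, hnorm, div_self (pow_ne_zero _ hα)]
  have hgu := kum_zeta_fixed hpro hu
  rw [map_div₀, hfix, hgα] at hgu
  have hN0 : (∏ i ∈ Finset.range ℓ, (g ^ i) β) ≠ 0 := by
    intro h0
    rw [h0, zero_pow hp.ne_zero] at hnorm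
    exact pow_ne_zero _ hα hnorm.symm
  have hξ0 : ξ ≠ 0 := by
    rintro rfl
    rw [zero_pow hp.ne_zero] at hξ
    exact zero_ne_one hξ
  rw [div_eq_div_iff (mul_ne_zero hξ0 hα) hα] at hgu
  have h5 : (∏ i ∈ Finset.range ℓ, (g ^ i) β) * α * 1 = (∏ i ∈ Finset.range ℓ, (g ^ i) β) * α * ξ := by
    linear_combination hgu
  exact (mul_left_cancel₀ (mul_ne_zero hN0 hα) h5).symm

/-- J1 (no `ℓ`-torsion, Artin-Schreier argument).  Sketch: `g ≠ 1`, `K = fld <g>`, `E/K` cyclic of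
degree `ℓ`, `ζ ∈ K` (K3), `E = K(α)`, `α^ℓ = a ∈ K` (K1), `β^ℓ = α`; `N(β)^ℓ = N(α) = a` (`ℓ` odd),
so `α = ζ^i N(β) ∈ K`. -/
theorem lc_no_torsion (hE : RadClosed E) (hℓ : ℓ ≠ 2) {g : Gal(E/N)} (hg : g ^ ℓ = 1) : g = 1 := by
  by_contra hg1
  have hp : ℓ.Prime := Fact.out
  have hpro : IsProL ℓ g := lc_isProL_of_pow_eq_one hg
  obtain ⟨ζ, hζ⟩ := hE.prim ℓ hp.pos
  have hord : orderOf g = ℓ := orderOf_eq_prime hg hg1
  have hcard : Nat.card (Subgroup.zpowers g) = ℓ := by rw [Nat.card_zpowers, hord]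
  have hfin : Finite (Subgroup.zpowers g) := Nat.finite_of_card_ne_zero (by rw [hcard]; exact hp.ne_zero)
  have hclosed : IsClosed ((Subgroup.zpowers g : Subgroup Gal(E/N)) : Set Gal(E/N)) :=
    (Set.toFinite _).isClosed
  have hζH : ζ ∈ fld (Subgroup.zpowers g) := by
    rw [IntermediateField.mem_fixedField_iff]
    intro h hh
    obtain ⟨n, rfl⟩ := Subgroup.mem_zpowers_iff.1 hh
    have : IsProL ℓ (g ^ n) := lc_isProL_of_pow_eq_one (by rw [← zpow_natCast, ← zpow_mul, mul_comm,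
      zpow_mul, zpow_natCast, hg, one_zpow])
    exact kum_zeta_fixed this hζ.pow_eq_one
  let c : Subgroup.zpowers g ≃* Multiplicative (ZMod ℓ) :=
    mulEquivOfPrimeCardEq hcard (by rw [Nat.card_eq_fintype_card, Fintype.card_multiplicative, ZMod.card])
  obtain ⟨α, hα0, -, hα⟩ := kum_exists hclosed hζ hζH c.toMonoidHom continuous_of_discreteTopology
  have h1 := hα ⟨g, Subgroup.mem_zpowers g⟩
  have h2 := lc_no_torsion_aux hE hℓ hg hα0
    (by rw [← pow_mul, mul_comm, pow_mul, hζ.pow_eq_one, one_pow]) h1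
  have h3 := (hζ.pow_eq_one_iff_dvd _).1 h2
  have h4 : (Multiplicative.toAdd (c.toMonoidHom ⟨g, Subgroup.mem_zpowers g⟩)).val = 0 :=
    Nat.eq_zero_of_dvd_of_lt h3 (ZMod.val_lt _)
  have h5 : c ⟨g, Subgroup.mem_zpowers g⟩ = 1 := by
    have h6 := (ZMod.val_eq_zero _).1 h4
    exact Multiplicative.toAdd.injective (by simpa using h6)
  have h7 : (⟨g, Subgroup.mem_zpowers g⟩ : Subgroup.zpowers g) = 1 := by
    rw [← c.map_eq_one_iff]
    exact h5
  exact hg1 (congrArg Subtype.val h7)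

end

section

variable {N E : Type*} [Field N] [NumberField N] [Field E] [Algebra N E] [IsGalois N E]
  [CharZero E] [Algebra.IsAlgebraic ℚ E]
variable {ℓ : ℕ} [Fact ℓ.Prime]
variable {M Ω : Type*} [Field M] [NumberField M] [Field Ω] [Algebra M Ω] [IsGalois M Ω]

/-- J1 for `ℓ`-power torsion. -/
theorem lc_no_torsion_pow (hE : RadClosed E) (hℓ : ℓ ≠ 2) {g : Gal(E/N)} (k : ℕ)
    (hg : g ^ ℓ ^ k = 1) : g = 1 := by
  induction k with
  | zero => simpa using hg
  | succ k ih =>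
    apply ih
    apply lc_no_torsion hE hℓ
    rw [← pow_mul, ← pow_succ]
    exact hg

/-- J2.  Sketch: `x ≠ 1`, `φ x = 1` gives `τ^(ℓ^k) ∈ cl x ≤ ker φ` (P4), so `φ τ` has order `ℓ^j`,
`j ≥ 1`; `(φ τ)^(ℓ^(j-1))` contradicts J1. -/
theorem lc_injOn_cl {Γ : Type*} [Group Γ] [TopologicalSpace Γ] [IsTopologicalGroup Γ]
    [CompactSpace Γ] [TotallyDisconnectedSpace Γ] [T2Space Γ]
    (hE : RadClosed E) (hℓ : ℓ ≠ 2) (φ : Γ →* Gal(E/N))
    (hφ : Continuous φ) {τ : Γ} (hτ : IsProL ℓ τ) (hact : φ τ ≠ 1) {x : Γ}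
    (hx : x ∈ lcCl τ) (h : φ x = 1) : x = 1 := by
  by_contra hx1
  obtain ⟨k, hk⟩ := prof_pow_mem_cl hτ hx hx1
  have hker : IsClosed ((φ.ker : Subgroup Γ) : Set Γ) := by
    have : ((φ.ker : Subgroup Γ) : Set Γ) = φ ⁻¹' {1} := by
      ext y
      simp [MonoidHom.mem_ker]
    rw [this]
    exact isClosed_singleton.preimage hφ
  have hle : lcCl x ≤ φ.ker :=
    Subgroup.topologicalClosure_minimal _ ((Subgroup.zpowers_le).2 (MonoidHom.mem_ker.2 h)) hker
  have h1 : φ τ ^ ℓ ^ k = 1 := by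
    rw [← map_pow]
    exact MonoidHom.mem_ker.1 (hle hk)
  exact hact (lc_no_torsion_pow hE hℓ k h1)

end

section

variable {G : Type*} [Group G] [TopologicalSpace G] [IsTopologicalGroup G]

/-- continuous homomorphisms map `cl τ` into `cl (φ τ)`. -/
theorem lc_j_map_mem_cl {G' : Type*} [Group G'] [TopologicalSpace G'] [IsTopologicalGroup G']
    (φ : G →* G') (hφ : Continuous φ) {τ x : G} (hx : x ∈ lcCl τ) : φ x ∈ lcCl (φ τ) := by
  have hcl : IsClosed (((lcCl (φ τ)).comap φ : Subgroup G) : Set G) :=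
    (Subgroup.isClosed_topologicalClosure _).preimage hφ
  have hle : lcCl τ ≤ (lcCl (φ τ)).comap φ :=
    Subgroup.topologicalClosure_minimal _ ((Subgroup.zpowers_le).2
      (Subgroup.mem_comap.2 (Subgroup.le_topologicalClosure _ (Subgroup.mem_zpowers _)))) hcl
  exact hle hx

end

section

variable {M Ω N E : Type*} [Field M] [NumberField M] [Field Ω] [Algebra M Ω] [IsGalois M Ω]
  [CharZero Ω] [Algebra.IsAlgebraic ℚ Ω]
  [Field N] [NumberField N] [Field E] [Algebra N E] [IsGalois N E]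
  [CharZero E] [Algebra.IsAlgebraic ℚ E]
variable {ℓ : ℕ} [Fact ℓ.Prime]

/-- M0.  The image of an `LCPair` under `φ` with `φ τ ≠ 1` is an `LCPair` (P1, J2). -/
theorem lc_pair_map {Γ : Type*} [Group Γ] [TopologicalSpace Γ] [IsTopologicalGroup Γ]
    [CompactSpace Γ] [TotallyDisconnectedSpace Γ] [T2Space Γ]
    (hE : RadClosed E) (hℓ : ℓ ≠ 2) (φ : Γ →* Gal(E/N)) (hφ : Continuous φ)
    {τ σ : Γ} (hp : LCPair ℓ τ σ) (hact : φ τ ≠ 1) : LCPair ℓ (φ τ) (φ σ) := by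
  obtain ⟨x, hx, hrel⟩ := hp.rel
  refine ⟨prof_isProL_map φ hφ hp.proτ, prof_isProL_map φ hφ hp.proσ,
    ⟨φ x, lc_j_map_mem_cl φ hφ hx, ?_⟩, ?_⟩
  · rw [← map_inv, ← map_mul, ← map_mul, hrel, map_mul, map_pow]
  · intro hcon
    rw [← map_inv, ← map_mul, ← map_mul, hrel, map_mul] at hcon
    have h1 : φ (x ^ ℓ) = 1 := mul_left_cancel (hcon.trans (mul_one _).symm)
    have h2 : x ^ ℓ = 1 := lc_injOn_cl hE hℓ φ hφ hp.proτ hact ((lcCl τ).pow_mem hx ℓ) h1
    apply hp.ne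
    rw [hrel, h2, mul_one]

end

section

variable {G : Type*} [Group G] [TopologicalSpace G] [IsTopologicalGroup G]
variable {ℓ : ℕ}

/-- G1.  Sketch: open subgroups of `T` are the `V ⊓ T`, `V` open in `G` (`T` open). -/
theorem lc_isProL_subtype {T : Subgroup G} (hT : IsOpen (T : Set G)) {τ : G} (h : τ ∈ T) :
    IsProL ℓ (⟨τ, h⟩ : T) ↔ IsProL ℓ τ := by
  constructor
  · intro hp V hV
    obtain ⟨k, hk⟩ := hp (V.subgroupOf T) (hV.preimage continuous_subtype_val)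
    exact ⟨k, hk⟩
  · intro hp V hV
    have hopen : IsOpen ((V.map T.subtype : Subgroup G) : Set G) := by
      rw [Subgroup.coe_map]
      exact hT.isOpenMap_subtype_val _ hV
    obtain ⟨k, hk⟩ := hp _ hopen
    obtain ⟨y, hy, hyk⟩ := Subgroup.mem_map.1 hk
    refine ⟨k, ?_⟩
    have : y = (⟨τ, h⟩ : T) ^ ℓ ^ k := Subtype.ext hyk
    rw [← this]
    exact hy

/-- G2.  Sketch: `T → G` is a closed embedding. -/
theorem lc_mem_cl_subtype {T : Subgroup G} (hT : IsClosed (T : Set G)) {τ x : G} (hτ : τ ∈ T)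
    (hx : x ∈ T) : (⟨x, hx⟩ : T) ∈ lcCl (⟨τ, hτ⟩ : T) ↔ x ∈ lcCl τ := by
  have e : (Subtype.val : T → G) '' ((Subgroup.zpowers (⟨τ, hτ⟩ : T) : Subgroup T) : Set T)
      = ((Subgroup.zpowers τ : Subgroup G) : Set G) := by
    ext y
    constructor
    · rintro ⟨z, hz, rfl⟩
      obtain ⟨n, rfl⟩ := Subgroup.mem_zpowers_iff.1 hz
      exact Subgroup.mem_zpowers_iff.2 ⟨n, by simp⟩
    · intro hy
      obtain ⟨n, rfl⟩ := Subgroup.mem_zpowers_iff.1 hy
      exact ⟨(⟨τ, hτ⟩ : T) ^ n, Subgroup.mem_zpowers_iff.2 ⟨n, rfl⟩, by simp⟩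
  show (⟨x, hx⟩ : T) ∈ closure ((Subgroup.zpowers (⟨τ, hτ⟩ : T) : Subgroup T) : Set T) ↔
    x ∈ closure ((Subgroup.zpowers τ : Subgroup G) : Set G)
  rw [closure_subtype, e]

/-- G3. -/
theorem lc_cl_le {T : Subgroup G} (hT : IsClosed (T : Set G)) {τ : G} (hτ : τ ∈ T) :
    lcCl τ ≤ T :=
  Subgroup.topologicalClosure_minimal _ ((Subgroup.zpowers_le).2 hτ) hT

/-- G4.  From G1-G3. -/
theorem lc_pair_subtype {T : Subgroup G} (hT : IsOpen (T : Set G)) {τ σ : G} (hτ : τ ∈ T)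
    (hσ : σ ∈ T) (h : LCPair ℓ τ σ) : LCPair ℓ (⟨τ, hτ⟩ : T) (⟨σ, hσ⟩ : T) := by
  have hTc : IsClosed (T : Set G) := T.isClosed_of_isOpen hT
  refine ⟨(lc_isProL_subtype hT hτ).2 h.proτ, (lc_isProL_subtype hT hσ).2 h.proσ, ?_, ?_⟩
  · obtain ⟨x, hx, hrel⟩ := h.rel
    have hxT : x ∈ T := lc_cl_le hTc hτ hx
    exact ⟨⟨x, hxT⟩, (lc_mem_cl_subtype hTc hτ hxT).2 hx, Subtype.ext hrel⟩
  · intro hcon
    exact h.ne (congrArg Subtype.val hcon)

end

end Claimed.Agent.R239
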