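/-
Row 239, package LC (local correspondence, Thm 2.4').  Sub-captain: helper75.
FILE LC/NN.lean = subtask LC.NN.  ONE OWNER (see table subtask; owner: helper199); the owner replaces every sorry IN PLACE
(statements are frozen: ask helper75 before changing one) and may add private helper lemmas / helper files
LC/NN_*.lean.  You may import further LC files that do not (transitively) import this one.
Notation of the sketches: G' = Gal(E/N), v_P = lcv P, D_P = decomp N P, I_P = inert N P, cl(τ) = lcCl τ,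
K_U = fld U, K_U^h = fld (U ⊓ D_P) (henselisation of K_U at P inside E).  Labels (P4, V3, L1, ...) refer to
the doc-strings of the other LC files; index: LC/Chain.lean.
-/
import Claimed.Agent.R239.LC.KUM_a
import Claimed.Agent.R239.LC.KUM_b
import Claimed.Agent.R239.LC.PROF_a
import Claimed.Agent.R239.LC.J
import Claimed.Agent.R239.LC.Stab

set_option autoImplicit false

namespace Claimed.Agent.R239

open NumberField
open scoped Pointwise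

section

variable {G : Type*} [Group G] [TopologicalSpace G] [IsTopologicalGroup G] [CompactSpace G]
  [TotallyDisconnectedSpace G] [T2Space G]
variable {ℓ : ℕ}

/-- `σ^k τ σ^(-k) ∈ τ (cl τ)^ℓ`. -/
theorem lc_nn_conj {τ σ : G} (hrel : ∃ x ∈ lcCl τ, σ * τ * σ⁻¹ = τ * x ^ ℓ) (k : ℕ) :
    ∃ z ∈ lcCl τ, σ ^ k * τ * (σ ^ k)⁻¹ = τ * z ^ ℓ := by
  obtain ⟨x, hx, hrel⟩ := hrel
  have hconjτ : σ * τ * σ⁻¹ ∈ lcCl τ := by
    rw [hrel]
    exact (lcCl τ).mul_mem (prof_self_mem_cl τ) ((lcCl τ).pow_mem hx ℓ)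
  have hstab : ∀ z ∈ lcCl τ, σ * z * σ⁻¹ ∈ lcCl τ := by
    intro z hz
    have hcont : Continuous (MulAut.conj σ).toMonoidHom := by
      show Continuous fun y => σ * y * σ⁻¹
      fun_prop
    exact prof_cl_le hconjτ (lc_j_map_mem_cl (MulAut.conj σ).toMonoidHom hcont hz)
  induction k with
  | zero => exact ⟨1, (lcCl τ).one_mem, by simp⟩
  | succ k ih =>
    obtain ⟨z, hz, hk⟩ := ih
    refine ⟨x * (σ * z * σ⁻¹), (lcCl τ).mul_mem hx (hstab z hz), ?_⟩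
    have hcomm : Commute x (σ * z * σ⁻¹) := prof_cl_comm hx (hstab z hz)
    rw [hcomm.mul_pow, ← mul_assoc, ← hrel, conj_pow]
    have e : σ ^ (k + 1) * τ * (σ ^ (k + 1))⁻¹ = σ * (σ ^ k * τ * (σ ^ k)⁻¹) * σ⁻¹ := by
      rw [pow_succ']
      group
    rw [e, hk]
    group

end

section

variable {E : Type*} [Field E] {ℓ : ℕ}

/-- the norm form does not depend on the primitive root of unity. -/
theorem lc_nn_NF_root {ζ ζ' : E} (hζ : IsPrimitiveRoot ζ ℓ) (hζ' : IsPrimitiveRoot ζ' ℓ) (α : E)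
    (c : ℕ → E) : lcNF ℓ ζ α c = lcNF ℓ ζ' α c := by
  have h1 : ∀ ξ : E, lcNF ℓ ξ α c
      = (((Multiset.range ℓ).map (ξ ^ · * α)).map
          (fun x => ∑ j ∈ Finset.range ℓ, c j * x ^ j)).prod := by
    intro ξ
    rw [Multiset.map_map]
    rfl
  rw [h1, h1, ← hζ.nthRoots_eq rfl, ← hζ'.nthRoots_eq rfl]

end

section

variable {N E : Type*} [Field N] [NumberField N] [Field E] [Algebra N E] [IsGalois N E]
variable {ℓ : ℕ} [Fact ℓ.Prime]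

/-- NN.  Sketch: let `b = β^ℓ = lcNF c`, `y = ∑ c_j α^j`, `η^ℓ = y`, `θ = ∏_{k<ℓ} σ^(-k) η`.  Then
`θ^ℓ = ∏_k σ^(-k) y = b` (the `σ^(-k) y` run through the factors of the norm form as `σ α = ζ^m α`,
`m ≠ 0`), so `θ = ζ^r β` and `τ θ ≠ θ`.  But `τ σ^(-k) η = σ^(-k) (σ^k τ σ^(-k)) η`,
`σ^k τ σ^(-k) = τ x_k^ℓ` with `x_k ∈ cl τ` (induction, `cl τ` abelian, stable under `σ`-conjugation);
`τ`, `x_k` fix `y` and `ζ`, so `g ↦ g η / η` is a character on them and `(τ x_k^ℓ) η = (τ η/η) η`;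
hence `τ θ = (τ η / η)^ℓ θ = θ`. -/
theorem lc_not_norm (hE : RadClosed E) {τ σ : Gal(E/N)}
    (hrel : ∃ x ∈ lcCl τ, σ * τ * σ⁻¹ = τ * x ^ ℓ) {ζ α β : E} (hζ : IsPrimitiveRoot ζ ℓ)
    (hζH : ζ ∈ fld (lcCl2 τ σ)) (hα0 : α ≠ 0) (hβ0 : β ≠ 0) (hα : α ^ ℓ ∈ fld (lcCl2 τ σ))
    (hβ : β ^ ℓ ∈ fld (lcCl2 τ σ)) (h1 : τ α = α) (h2 : σ α ≠ α) (h3 : τ β ≠ β) :
    ¬ lcIsNorm ℓ (lcCl2 τ σ) ζ α (β ^ ℓ) := by
  rintro ⟨c, hc, hb⟩
  have hp : ℓ.Prime := Fact.out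
  have hτm : τ ∈ lcCl2 τ σ := prof_left_mem_cl2 τ σ
  have hσm : σ ∈ lcCl2 τ σ := prof_right_mem_cl2 τ σ
  have hρm : σ⁻¹ ∈ lcCl2 τ σ := (lcCl2 τ σ).inv_mem hσm
  have hfix : ∀ {x : E}, x ∈ fld (lcCl2 τ σ) → ∀ g ∈ lcCl2 τ σ, g x = x := fun hx g hg =>
    (IntermediateField.mem_fixedField_iff _ _).1 hx g hg
  -- `σ⁻¹ α = ξ α`
  have hρα : σ⁻¹ α ≠ α := by
    intro h
    apply h2
    have := congrArg σ h
    rw [← AlgEquiv.mul_apply, mul_inv_cancel, AlgEquiv.one_apply] at this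
    exact this.symm
  have hξℓ : (σ⁻¹ α / α) ^ ℓ = 1 := by
    rw [div_pow, ← map_pow, hfix hα _ hρm, div_self (pow_ne_zero _ hα0)]
  obtain ⟨m, hmℓ, hm⟩ := hζ.eq_pow_of_pow_eq_one hξℓ
  have hρα' : σ⁻¹ α = ζ ^ m * α := by
    rw [hm]
    field_simp
  have hm0 : ¬ ℓ ∣ m := by
    intro hdvd
    apply hρα
    rw [hρα', (hζ.pow_eq_one_iff_dvd m).2 hdvd, one_mul]
  have hζ' : IsPrimitiveRoot (ζ ^ m) ℓ :=
    hζ.pow_of_coprime m ((Nat.Prime.coprime_iff_not_dvd hp).2 hm0).symm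
  have hρζ : ∀ k : ℕ, (σ⁻¹ ^ k) ζ = ζ := fun k => hfix hζH _ ((lcCl2 τ σ).pow_mem hρm k)
  have hρk : ∀ k : ℕ, (σ⁻¹ ^ k) α = (ζ ^ m) ^ k * α := by
    intro k
    induction k with
    | zero => simp
    | succ k ih =>
      rw [pow_succ', AlgEquiv.mul_apply, ih, map_mul, map_pow, map_pow, hfix hζH _ hρm, hρα']
      ring
  -- `y`, `η`, `θ`
  obtain ⟨η, hη⟩ := hE.root ℓ hp.pos (∑ j ∈ Finset.range ℓ, c j * α ^ j)
  have hθℓ : (∏ k ∈ Finset.range ℓ, (σ⁻¹ ^ k) η) ^ ℓ = β ^ ℓ := by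
    rw [← hb, lc_nn_NF_root hζ hζ', ← Finset.prod_pow]
    unfold lcNF
    refine Finset.prod_congr rfl fun k _ => ?_
    rw [← map_pow, hη, map_sum]
    refine Finset.sum_congr rfl fun j _ => ?_
    rw [map_mul, map_pow, hρk, hfix (hc j) _ ((lcCl2 τ σ).pow_mem hρm k)]
  have hθ0 : (∏ k ∈ Finset.range ℓ, (σ⁻¹ ^ k) η) ≠ 0 := by
    intro h0
    rw [h0, zero_pow hp.ne_zero] at hθℓ
    exact pow_ne_zero _ hβ0 hθℓ.symm
  have hη0 : η ≠ 0 := by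
    rintro rfl
    apply hθ0
    exact Finset.prod_eq_zero (Finset.mem_range.2 hp.pos) (map_zero _)
  -- the character of `η` on `cl τ`
  have hcl2 : lcCl τ ≤ lcCl2 τ σ := lc_cl_le (prof_cl2_isClosed τ σ) hτm
  have hζτ : ζ ∈ fld (lcCl τ) := lc_fld_mono hcl2 hζH
  have hyτ : η ^ ℓ ∈ fld (lcCl τ) := by
    apply lc_mem_fld_of_le_stab
    apply lc_cl_le ((lcStab N (η ^ ℓ)).isClosed_of_isOpen (lc_stab_isOpen _))
    rw [lc_mem_stab, hη, map_sum]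
    refine Finset.sum_congr rfl fun j _ => ?_
    rw [map_mul, map_pow, h1, hfix (hc j) _ hτm]
  obtain ⟨χ, -, hχ⟩ := kum_char hζ hζτ hη0 hyτ
  have hτθ : τ (∏ k ∈ Finset.range ℓ, (σ⁻¹ ^ k) η) = ∏ k ∈ Finset.range ℓ, (σ⁻¹ ^ k) η := by
    have hk : ∀ k ∈ Finset.range ℓ, τ ((σ⁻¹ ^ k) η)
        = ζ ^ (Multiplicative.toAdd (χ ⟨τ, prof_self_mem_cl τ⟩)).val * (σ⁻¹ ^ k) η := by
      intro k _
      obtain ⟨z, hz, hzk⟩ := lc_nn_conj hrel k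
      have hw : τ * z ^ ℓ ∈ lcCl τ :=
        (lcCl τ).mul_mem (prof_self_mem_cl τ) ((lcCl τ).pow_mem hz ℓ)
      have hχw : χ ⟨τ * z ^ ℓ, hw⟩ = χ ⟨τ, prof_self_mem_cl τ⟩ := by
        have e : (⟨τ * z ^ ℓ, hw⟩ : lcCl τ) = ⟨τ, prof_self_mem_cl τ⟩ * ⟨z, hz⟩ ^ ℓ := rfl
        rw [e, map_mul, map_pow, lc_mult_zmod_pow, mul_one]
      have e1 : τ * σ⁻¹ ^ k = σ⁻¹ ^ k * (τ * z ^ ℓ) := by
        rw [← hzk, inv_pow]
        group
      rw [← AlgEquiv.mul_apply, e1, AlgEquiv.mul_apply]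
      have := hχ ⟨τ * z ^ ℓ, hw⟩
      rw [hχw] at this
      rw [this, map_mul, map_pow, hρζ]
    rw [map_prod, Finset.prod_congr rfl hk, Finset.prod_mul_distrib, Finset.prod_const,
      Finset.card_range, ← pow_mul, Nat.mul_comm, pow_mul, hζ.pow_eq_one, one_pow, one_mul]
  -- conclusion
  have hu : ((∏ k ∈ Finset.range ℓ, (σ⁻¹ ^ k) η) / β) ^ ℓ = 1 := by
    rw [div_pow, hθℓ, div_self (pow_ne_zero _ hβ0)]
  obtain ⟨r, -, hr⟩ := hζ.eq_pow_of_pow_eq_one hu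
  have hτu : τ ((∏ k ∈ Finset.range ℓ, (σ⁻¹ ^ k) η) / β) = (∏ k ∈ Finset.range ℓ, (σ⁻¹ ^ k) η) / β := by
    rw [← hr, map_pow, hfix hζH _ hτm]
  rw [map_div₀, hτθ] at hτu
  apply h3
  have hτβ0 : τ β ≠ 0 := (map_ne_zero τ).2 hβ0
  rw [div_eq_div_iff hτβ0 hβ0] at hτu
  exact (mul_left_cancel₀ hθ0 hτu).symm

end

end Claimed.Agent.R239
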