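/-
Row 239, package LC (local correspondence, Thm 2.4').  Sub-captain: helper75.
FILE LC/EX_f.lean = subtask LC.EX-f.  ONE OWNER (see table subtask); the owner replaces every sorry IN PLACE
(statements are frozen: ask helper75 before changing one) and may add private helper lemmas / helper files
LC/EX_f_*.lean.  You may import further LC files that do not (transitively) import this one.
Notation of the sketches: G' = Gal(E/N), v_P = lcv P, D_P = decomp N P, I_P = inert N P, cl(τ) = lcCl τ,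
K_U = fld U, K_U^h = fld (U ⊓ D_P) (henselisation of K_U at P inside E).  Labels (P4, V3, L1, ...) refer to
the doc-strings of the other LC files; index: LC/Chain.lean.
-/
import Claimed.Agent.R239.LC.EX_c
import Claimed.Agent.R239.LC.EX_d
import Claimed.Agent.R239.LC.EX_e
import Claimed.Agent.R239.LC.NN
import Claimed.Agent.R239.LC.PROF_c
import Claimed.Agent.R239.LC.KUM_a
import Claimed.Agent.R239.LC.Stab

set_option autoImplicit false

namespace Claimed.Agent.R239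

open NumberField
open scoped Pointwise

section

/-- three vectors in `𝔽_ℓ^2` are linearly dependent -/
theorem lc_dep3 (ℓ : ℕ) [Fact ℓ.Prime] (i j : Fin 3 → ℕ) :
    ∃ e : Fin 3 → ℕ, (¬ ∀ m, ℓ ∣ e m) ∧ ℓ ∣ ∑ m, e m * i m ∧ ℓ ∣ ∑ m, e m * j m := by
  let f : (Fin 3 → ZMod ℓ) →ₗ[ZMod ℓ] (Fin 2 → ZMod ℓ) :=
    { toFun := fun e => ![∑ m, e m * (i m : ZMod ℓ), ∑ m, e m * (j m : ZMod ℓ)]
      map_add' := by
        intro x y
        ext k
        fin_cases k <;> simp [add_mul, Finset.sum_add_distrib]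
      map_smul' := by
        intro c x
        ext k
        fin_cases k <;> simp [Finset.mul_sum, mul_assoc] }
  have hker : LinearMap.ker f ≠ ⊥ := by
    apply LinearMap.ker_ne_bot_of_finrank_lt
    simp
  obtain ⟨e, he, he0⟩ := (Submodule.ne_bot_iff _).1 hker
  have hfe : f e = 0 := he
  refine ⟨fun m => (e m).val, ?_, ?_, ?_⟩
  · intro hall
    apply he0
    ext m
    have h1 := hall m
    have h2 : (e m).val < ℓ := ZMod.val_lt _
    have h3 := Nat.eq_zero_of_dvd_of_lt h1 h2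
    simpa using (ZMod.val_eq_zero _).1 h3
  · rw [← ZMod.natCast_eq_zero_iff]
    have := congrFun hfe 0
    simpa [f] using this
  · rw [← ZMod.natCast_eq_zero_iff]
    have := congrFun hfe 1
    simpa [f] using this

end

section

variable {N E : Type*} [Field N] [NumberField N] [Field E] [Algebra N E] [IsGalois N E]
  [CharZero E] [Algebra.IsAlgebraic ℚ E]
variable {ℓ : ℕ} [Fact ℓ.Prime]

/-- E6.  Sketch: suppose `Q ∣ ℓ`.  `U ⊇ H` open with `ζ, α^ℓ, β^ℓ ∈ K_U`.  E5 gives `c₁ c₂ c₃`.  In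
`fld H` each `c_m = a^{i_m} b^{j_m} d_m^ℓ` (K2 + P9 + K-theory: the character of an `ℓ`-th root of
`c_m` is `ca^i cb^j`), three vectors in `𝔽_ℓ^2` are dependent: `c = ∏ c_m^{e_m} = γ^ℓ`, `γ ∈ fld H`,
`γ ∉ K_U^h`.  `U' = U ⊓ Stab γ ⊇ H`.  E3 with `Z = U ⊓ D_Q`, `Z' = U' ⊓ D_Q` (E4 for both):
`lcIsNorm Z' ζ α b`, hence over `fld H` (N0, `H ≤ Z'`), contradicting NN. -/
theorem lc_not_over_ell (hE : RadClosed E) (hℓ : ℓ ≠ 2) (hlni : LCLni ℓ N E)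
    {τ σ : Gal(E/N)} (hp : LCPair ℓ τ σ) (Q : Ideal (𝓞 E)) [Q.IsMaximal]
    (hQ : lcCl2 τ σ ≤ decomp N Q) : ¬ Over Q ℓ := by
  intro hov
  obtain ⟨ζ, α, β, hζ, hζH, hα0, hβ0, hα, hβ, h1, h2, h3, h4⟩ := lc_pair_data hE hp
  have hnn := lc_not_norm hE hp.rel hζ hζH hα0 hβ0 hα hβ h1 h2 h3
  set H : Subgroup Gal(E/N) := lcCl2 τ σ with hHdef
  -- the level `U`
  set U : Subgroup Gal(E/N) := lcStab N ζ ⊓ lcStab N (α ^ ℓ) ⊓ lcStab N (β ^ ℓ) with hUdef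
  have hU : IsOpen (U : Set Gal(E/N)) := by
    rw [hUdef, Subgroup.coe_inf, Subgroup.coe_inf]
    exact ((lc_stab_isOpen ζ).inter (lc_stab_isOpen _)).inter (lc_stab_isOpen _)
  have hHU : H ≤ U := le_inf (le_inf (lc_le_stab hζH) (lc_le_stab hα)) (lc_le_stab hβ)
  have hζU : ζ ∈ fld U := lc_mem_fld_of_le_stab (inf_le_left.trans inf_le_left)
  have hαU : α ^ ℓ ∈ fld U := lc_mem_fld_of_le_stab (inf_le_left.trans inf_le_right)
  have hβU : β ^ ℓ ∈ fld U := lc_mem_fld_of_le_stab inf_le_right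
  obtain ⟨c₁, hc₁, c₂, hc₂, c₃, hc₃, hc₁0, hc₂0, hc₃0, hind⟩ := lc_dim_ge_three hℓ hU Q hov hζ hζU
  obtain ⟨i₁, j₁, d₁, hd₁, e₁⟩ := lc_pair_decomp hE hp hζ hα0 hβ0 hα hβ h1 h2 h3 h4
    (lc_fld_mono hHU hc₁) hc₁0
  obtain ⟨i₂, j₂, d₂, hd₂, e₂⟩ := lc_pair_decomp hE hp hζ hα0 hβ0 hα hβ h1 h2 h3 h4
    (lc_fld_mono hHU hc₂) hc₂0
  obtain ⟨i₃, j₃, d₃, hd₃, e₃⟩ := lc_pair_decomp hE hp hζ hα0 hβ0 hα hβ h1 h2 h3 h4
    (lc_fld_mono hHU hc₃) hc₃0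
  obtain ⟨e, hne, hI, hJ⟩ := lc_dep3 ℓ ![i₁, i₂, i₃] ![j₁, j₂, j₃]
  simp only [Fin.sum_univ_three, Matrix.cons_val_zero, Matrix.cons_val_one, Matrix.cons_val] at hI hJ
  obtain ⟨I, hI⟩ := hI
  obtain ⟨J, hJ⟩ := hJ
  -- the element `γ`
  set γ : E := (α ^ ℓ) ^ I * (β ^ ℓ) ^ J * (d₁ ^ e 0 * d₂ ^ e 1 * d₃ ^ e 2) with hγdef
  have hγH : γ ∈ fld H :=
    (fld H).mul_mem ((fld H).mul_mem (pow_mem hα I) (pow_mem hβ J))
      ((fld H).mul_mem ((fld H).mul_mem (pow_mem hd₁ _) (pow_mem hd₂ _)) (pow_mem hd₃ _))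
  have hγℓ : c₁ ^ e 0 * c₂ ^ e 1 * c₃ ^ e 2 = γ ^ ℓ := by
    have hA : ((α ^ ℓ) ^ I) ^ ℓ = (α ^ ℓ) ^ (e 0 * i₁ + e 1 * i₂ + e 2 * i₃) := by
      rw [hI, ← pow_mul, mul_comm I ℓ]
    have hB : ((β ^ ℓ) ^ J) ^ ℓ = (β ^ ℓ) ^ (e 0 * j₁ + e 1 * j₂ + e 2 * j₃) := by
      rw [hJ, ← pow_mul, mul_comm J ℓ]
    rw [hγdef, mul_pow, mul_pow, hA, hB, e₁, e₂, e₃]
    ring
  have hγnot : γ ∉ fld (U ⊓ decomp N Q) := by
    intro hγ
    obtain ⟨a1, a2, a3⟩ := hind (e 0) (e 1) (e 2) ⟨γ, hγ, hγℓ⟩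
    apply hne
    intro m
    fin_cases m
    · exact a1
    · exact a2
    · exact a3
  set U' : Subgroup Gal(E/N) := U ⊓ lcStab N γ with hU'def
  have hU' : IsOpen (U' : Set Gal(E/N)) := by
    rw [hU'def, Subgroup.coe_inf]
    exact hU.inter (lc_stab_isOpen γ)
  have hHU' : H ≤ U' := le_inf hHU (lc_le_stab hγH)
  have hU'U : U' ≤ U := inf_le_left
  have hZ : U ⊓ decomp N Q ≤ U := inf_le_left
  have hup := lc_norm_up hE hℓ (Z := U ⊓ decomp N Q) (Z' := U' ⊓ decomp N Q) (γ := γ) (b := β ^ ℓ)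
    hζ (lc_fld_mono hZ hζU) (lc_lni_hens hE hℓ hlni hU Q hζ hζU)
    (lc_lni_hens hE hℓ hlni hU' Q hζ (lc_fld_mono hU'U hζU)) hα0 (lc_fld_mono hZ hαU)
    (by
      rw [← hγℓ]
      exact lc_fld_mono hZ ((fld U).mul_mem ((fld U).mul_mem (pow_mem hc₁ _) (pow_mem hc₂ _))
        (pow_mem hc₃ _)))
    hγnot (inf_le_inf_right _ hU'U)
    (by
      intro g hg
      constructor
      · intro h
        exact ⟨⟨hg.1, h⟩, hg.2⟩
      · intro h
        exact h.1.2)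
    (lc_fld_mono hZ hβU)
  exact hnn (lc_isNorm_mono (le_inf hHU' hQ) hup)

end

end Claimed.Agent.R239
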