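/-
Row 239, package LC (local correspondence, Thm 2.4').  Sub-captain: helper75.
FILE LC/LOC_d.lean = subtask LC.LOC-d.  ONE OWNER (see table subtask); the owner replaces every sorry IN PLACE
(statements are frozen: ask helper75 before changing one) and may add private helper lemmas / helper files
LC/LOC_d_*.lean.  You may import further LC files that do not (transitively) import this one.
Notation of the sketches: G' = Gal(E/N), v_P = lcv P, D_P = decomp N P, I_P = inert N P, cl(τ) = lcCl τ,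
K_U = fld U, K_U^h = fld (U ⊓ D_P) (henselisation of K_U at P inside E).  Labels (P4, V3, L1, ...) refer to
the doc-strings of the other LC files; index: LC/Chain.lean.
-/
import Claimed.Agent.R239.LC.LOC_c
import Claimed.Agent.R239.LC.TC_a
import Claimed.Agent.R239.LC.KUM_a
import Claimed.Agent.R239.Tame.HilProf

set_option autoImplicit false

namespace Claimed.Agent.R239

open NumberField
open scoped Pointwise

section

variable {N E : Type*} [Field N] [NumberField N] [Field E] [Algebra N E] [IsGalois N E]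
  [CharZero E] [Algebra.IsAlgebraic ℚ E]
variable {ℓ : ℕ} [Fact ℓ.Prime]
variable (P : Ideal (𝓞 E)) [P.IsMaximal]

/-- an element fixed by a Frobenius lift and by the inertia group lies in `K_U^h` -/
private lemma locd_mem_fld {U : Subgroup Gal(E/N)} (hU : IsOpen (U : Set Gal(E/N)))
    {σ : Gal(E/N)} (hσ : IsFrob U P σ) {x : E} (h1 : σ x = x)
    (h2 : ∀ g ∈ inert N P ⊓ U, g x = x) : x ∈ fld (U ⊓ decomp N P) := by
  have hopen : IsOpen ((MulAction.stabilizer Gal(E/N) x : Subgroup Gal(E/N)) : Set Gal(E/N)) :=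
    lc_kuma_stab_isOpen x
  have hclosed := Subgroup.isClosed_of_isOpen _ hopen
  have hle : (Subgroup.zpowers σ ⊔ (inert N P ⊓ U) : Subgroup Gal(E/N))
      ≤ MulAction.stabilizer Gal(E/N) x := by
    refine sup_le ?_ ?_
    · rw [Subgroup.zpowers_le]
      exact h1
    · exact fun g hg => h2 g hg
  rw [IntermediateField.mem_fixedField_iff]
  intro g hg
  have h3 := hilp_decomp_closure hU hσ (g := g) ⟨hg.2, hg.1⟩
  exact closure_minimal hle hclosed h3

/-- the Kummer exponent of `g` on a radical -/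
private lemma locd_exp {ζ : E} (hζ : IsPrimitiveRoot ζ ℓ) {g : Gal(E/N)} {γ : E} (hγ : γ ≠ 0)
    (h : g (γ ^ ℓ) = γ ^ ℓ) : ∃ r : ℕ, g γ = ζ ^ r * γ := by
  have hp : ℓ.Prime := Fact.out
  have : NeZero ℓ := ⟨hp.ne_zero⟩
  have h1 : (g γ / γ) ^ ℓ = 1 := by
    rw [div_pow, ← map_pow, h, div_self (pow_ne_zero _ hγ)]
  obtain ⟨r, -, hr⟩ := hζ.eq_pow_of_pow_eq_one h1
  exact ⟨r, by rw [hr, div_mul_cancel₀ _ hγ]⟩

/-- L4 (units are local norms at good primes).  Sketch: residue field `κ` of `K_U` at `P` is finite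
and contains `ζ̄`; the norm form of `ā` over `κ` represents `b̄` (split case, or surjectivity of the
norm of finite fields): `c_j ∈ 𝓞 K_U` with `lcNF c ≡ b mod P`; then `b / lcNF c ∈ 1 + m` is an
`ℓ`-th power in `K_U^h` (L1, `v(ℓ) = 1`), so `b` is a norm over `K_U^h`; L3a.
(Proof given here, Kummer-dual: `β^ℓ = b`; inertia fixes `α`, `β`; a Frobenius lift `σ` acts by
`ζ^r`, `ζ^s`; if `ζ^r = 1` then `α ∈ K_U^h` (split case N2), else `β / α^i ∈ K_U^h` for `i r = s`,
so `b = d^ℓ (α^ℓ)^i` is a norm by N4; L3a.) -/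
theorem lc_locNorm_of_unit (hE : RadClosed E) (hℓ : ℓ ≠ 2) {U : Subgroup Gal(E/N)}
    (hU : IsOpen (U : Set Gal(E/N))) {ζ α b : E} (hζ : IsPrimitiveRoot ζ ℓ) (hζU : ζ ∈ fld U)
    (hα : α ^ ℓ ∈ fld U) (hb : b ∈ fld U) (hPℓ : ¬ Over P ℓ) (hvα : lcv P α = 1)
    (hvb : lcv P b = 1) : lcLocNorm ℓ U P ζ α b := by
  have hp : ℓ.Prime := Fact.out
  have : NeZero ℓ := ⟨hp.ne_zero⟩
  refine lc_locNorm_of_isNorm P hU ?_
  obtain ⟨σ, hσ⟩ := hilp_exists_frob U hU P
  obtain ⟨β, hβ⟩ := hE.root ℓ hp.pos b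
  have hα0 : α ≠ 0 := by
    rintro rfl
    rw [map_zero] at hvα
    exact zero_ne_one hvα
  have hb0 : b ≠ 0 := by
    rintro rfl
    rw [map_zero] at hvb
    exact zero_ne_one hvb
  have hβ0 : β ≠ 0 := by
    rintro rfl
    rw [zero_pow hp.ne_zero] at hβ
    exact hb0 hβ.symm
  have hvβ : lcv P β = 1 := by
    have h1 : lcv P β ^ ℓ = 1 := by rw [← map_pow, hβ, hvb]
    exact (pow_eq_one_iff_left hp.ne_zero).1 h1
  have hmono : ∀ {x : E}, x ∈ fld U → x ∈ fld (U ⊓ decomp N P) := by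
    intro x hx
    rw [IntermediateField.mem_fixedField_iff] at hx ⊢
    exact fun g hg => hx g hg.1
  have hfixU : ∀ {x : E}, x ∈ fld U → ∀ g ∈ U, g x = x := by
    intro x hx
    exact (IntermediateField.mem_fixedField_iff _ _).1 hx
  -- inertia fixes `α` and `β`
  have hIα : ∀ g ∈ inert N P ⊓ U, g α = α := by
    intro g hg
    exact lc_inert_fix_root P hPℓ hg.1 hvα 1 (by rw [pow_one]; exact hfixU hα g hg.2)
  have hIβ : ∀ g ∈ inert N P ⊓ U, g β = β := by
    intro g hg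
    exact lc_inert_fix_root P hPℓ hg.1 hvβ 1 (by rw [pow_one, hβ]; exact hfixU hb g hg.2)
  obtain ⟨r, hr⟩ := locd_exp hζ (g := σ) hα0 (hfixU hα σ hσ.1)
  obtain ⟨s, hs⟩ := locd_exp hζ (g := σ) hβ0 (by rw [hβ]; exact hfixU hb σ hσ.1)
  have hσζ : σ ζ = ζ := hfixU hζU σ hσ.1
  by_cases hr0 : (r : ZMod ℓ) = 0
  · -- split case
    have h1 : ζ ^ r = 1 := by
      have := (lc_kuma_pow_eq_iff hζ hp.pos r 0).2 (by simpa using hr0)
      simpa using this
    have hαZ : α ∈ fld (U ⊓ decomp N P) :=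
      locd_mem_fld P hU hσ (by rw [hr, h1, one_mul]) hIα
    exact lc_isNorm_split hζ (hmono hζU) hα0 hαZ (hmono hb)
  · -- `β / α ^ i` is fixed
    set i : ℕ := ((s : ZMod ℓ) * (r : ZMod ℓ)⁻¹).val with hi
    have hir : ζ ^ (r * i) = ζ ^ s := by
      rw [lc_kuma_pow_eq_iff hζ hp.pos]
      push_cast
      rw [hi, ZMod.natCast_val, ZMod.cast_id', id_eq]
      field_simp
    have hd : β / α ^ i ∈ fld (U ⊓ decomp N P) := by
      refine locd_mem_fld P hU hσ ?_ ?_
      · rw [map_div₀, map_pow, hr, hs, mul_pow, ← pow_mul, hir]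
        have hζs : ζ ^ s ≠ 0 := pow_ne_zero _ (hζ.ne_zero hp.ne_zero)
        field_simp
      · intro g hg
        rw [map_div₀, map_pow, hIα g hg, hIβ g hg]
    have h1 := lc_isNorm_monomial hℓ hζ (hmono hα) hd i
    have e : (β / α ^ i) ^ ℓ * (α ^ ℓ) ^ i = b := by
      rw [div_pow, hβ, ← pow_mul, ← pow_mul, mul_comm i ℓ, div_mul_cancel₀ _ (pow_ne_zero _ hα0)]
    rwa [e] at h1

end

end Claimed.Agent.R239
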