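/-
Row 239, package LC (local correspondence, Thm 2.4').  Sub-captain: helper75.
FILE LC/HN_a.lean = subtask LC.HN-a.  ONE OWNER (see table subtask; owner: helper51); the owner replaces every sorry IN PLACE
(statements are frozen: ask helper75 before changing one) and may add private helper lemmas / helper files
LC/HN_a_*.lean.  You may import further LC files that do not (transitively) import this one.
Notation of the sketches: G' = Gal(E/N), v_P = lcv P, D_P = decomp N P, I_P = inert N P, cl(τ) = lcCl τ,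
K_U = fld U, K_U^h = fld (U ⊓ D_P) (henselisation of K_U at P inside E).  Labels (P4, V3, L1, ...) refer to
the doc-strings of the other LC files; index: LC/Chain.lean.
-/
import Claimed.Agent.R239.LC.LOC_d
import Claimed.Agent.R239.LC.Stab

set_option autoImplicit false
set_option linter.unusedSectionVars false

namespace Claimed.Agent.R239

open NumberField
open scoped Pointwise

/-! ### Ultralimits of ideals (compactness of the patch topology) -/

section Lim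

variable {R : Type*} [CommRing R]

/-- the ultralimit of ideals -/
def hnaLim (𝔉 : Ultrafilter (Ideal R)) : Ideal R where
  carrier := {x | ∀ᶠ P in (𝔉 : Filter (Ideal R)), x ∈ P}
  add_mem' := fun {a b} ha hb => by
    filter_upwards [ha, hb] with P h1 h2 using P.add_mem h1 h2
  zero_mem' := Filter.Eventually.of_forall fun P => P.zero_mem
  smul_mem' := fun c x hx => by
    filter_upwards [hx] with P h using P.mul_mem_left c h

theorem hna_mem_lim {𝔉 : Ultrafilter (Ideal R)} {x : R} :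
    x ∈ hnaLim 𝔉 ↔ ∀ᶠ P in (𝔉 : Filter (Ideal R)), x ∈ P := Iff.rfl

theorem hna_lim_isPrime {𝔉 : Ultrafilter (Ideal R)}
    (h : ∀ᶠ P in (𝔉 : Filter (Ideal R)), P.IsPrime) : (hnaLim 𝔉).IsPrime := by
  refine ⟨?_, ?_⟩
  · rw [Ideal.ne_top_iff_one]
    intro h1
    obtain ⟨P, hP, hP1⟩ := (h.and (hna_mem_lim.1 h1)).exists
    exact hP.one_notMem hP1
  · intro x y hxy
    have h2 : ∀ᶠ P in (𝔉 : Filter (Ideal R)), x ∈ P ∨ y ∈ P := by
      filter_upwards [h, hna_mem_lim.1 hxy] with P hP hP2 using hP.mem_or_mem hP2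
    exact Ultrafilter.eventually_or.1 h2

end Lim

section

variable {N E : Type*} [Field N] [NumberField N] [Field E] [Algebra N E] [IsGalois N E]

/-- the fixed field of an open subgroup is a number field -/
theorem hna_numberField {U : Subgroup Gal(E/N)} (hU : IsOpen (U : Set Gal(E/N))) :
    NumberField (fld U) := by
  have hcl : IsClosed (U : Set Gal(E/N)) := U.isClosed_of_isOpen hU
  have h1 : (fld U).fixingSubgroup = U :=
    InfiniteGalois.fixingSubgroup_fixedField (⟨U, hcl⟩ : ClosedSubgroup Gal(E/N))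
  have h2 : FiniteDimensional N (fld U) := by
    rw [← InfiniteGalois.isOpen_iff_finite, h1]
    exact hU
  exact NumberField.of_module_finite N (fld U)

end

section

variable {N E : Type*} [Field N] [NumberField N] [Field E] [Algebra N E] [IsGalois N E]
  [CharZero E] [Algebra.IsAlgebraic ℚ E]
variable {ℓ : ℕ} [Fact ℓ.Prime]

/-! ### Equivariance -/

theorem hna_loc_smul (P : Ideal (𝓞 E)) [P.IsMaximal] (g : Gal(E/N)) [(g • P).IsMaximal] {x : E}
    (hx : x ∈ lcLoc P) : g x ∈ lcLoc (g • P) := by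
  obtain ⟨a, s, hs, h⟩ := hx
  refine ⟨g • a, g • s, ?_, ?_⟩
  · rw [Ideal.smul_mem_pointwise_smul_iff]
    exact hs
  · show g x * g (s : E) = g (a : E)
    rw [← map_mul, h]

theorem hna_val_smul (P : Ideal (𝓞 E)) [P.IsMaximal] (g : Gal(E/N)) [(g • P).IsMaximal] {x y : E}
    (hy : y ≠ 0) (h : lcv P x ≤ lcv P y) : lcv (g • P) (g x) ≤ lcv (g • P) (g y) := by
  rw [lc_val_le_iff P hy] at h
  rw [lc_val_le_iff (g • P) ((map_ne_zero g).2 hy), ← map_div₀]
  exact hna_loc_smul P g h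

theorem hna_locNorm_smul {ζ α b : E} (hζ : IsPrimitiveRoot ζ ℓ) {U : Subgroup Gal(E/N)}
    (hζU : ζ ∈ fld U) (hα : α ^ ℓ ∈ fld U) (hb : b ∈ fld U) (P : Ideal (𝓞 E)) [P.IsMaximal]
    {g : Gal(E/N)} (hg : g ∈ U) [(g • P).IsMaximal] (h : lcLocNorm ℓ U P ζ α b) :
    lcLocNorm ℓ U (g • P) ζ α b := by
  intro t ht
  obtain ⟨c, hc, hle⟩ := h (g⁻¹ t) ((map_ne_zero _).2 ht)
  refine ⟨c, hc, ?_⟩
  have hx : lcNF ℓ ζ α c - b ∈ fld U := sub_mem (lc_isNorm_mem hζ hζU hα ⟨c, hc, rfl⟩) hb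
  have hgx : g (lcNF ℓ ζ α c - b) = lcNF ℓ ζ α c - b :=
    (IntermediateField.mem_fixedField_iff _ _).1 hx g hg
  have h1 := hna_val_smul P g ((map_ne_zero _).2 ht) hle
  rw [hgx] at h1
  have h2 : g (g⁻¹ t) = t := by
    rw [← AlgEquiv.mul_apply, mul_inv_cancel, AlgEquiv.one_apply]
  rwa [h2] at h1

theorem hna_locNorm_mono {ζ α b : E} {U U' : Subgroup Gal(E/N)} (h : U' ≤ U)
    (P : Ideal (𝓞 E)) [P.IsMaximal] (hl : lcLocNorm ℓ U P ζ α b) : lcLocNorm ℓ U' P ζ α b := by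
  intro t ht
  obtain ⟨c, hc, hle⟩ := hl t ht
  exact ⟨c, fun j => lc_fld_mono h (hc j), hle⟩

/-! ### Almost all primes are good -/

omit [Field N] [NumberField N] [Algebra N E] [IsGalois N E] in
theorem hna_exists_int_le (x : E) : ∃ d : ℤ, d ≠ 0 ∧
    ∀ (P : Ideal (𝓞 E)) [P.IsMaximal], (d : 𝓞 E) ∉ P → lcv P x ≤ 1 := by
  obtain ⟨d, hd0, hint⟩ := ((IsFractionRing.isAlgebraic_iff ℤ ℚ E).2
    (Algebra.IsAlgebraic.isAlgebraic (R := ℚ) x)).exists_integral_multiple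
  refine ⟨d, hd0, fun P _ hd => ?_⟩
  rw [lc_val_le_one_iff]
  refine ⟨⟨d • x, hint⟩, (d : 𝓞 E), hd, ?_⟩
  show x * ((d : 𝓞 E) : E) = d • x
  rw [zsmul_eq_mul, mul_comm]
  simp

omit [Field N] [NumberField N] [Algebra N E] [IsGalois N E] in
theorem hna_exists_int {x : E} (hx : x ≠ 0) : ∃ d : ℤ, d ≠ 0 ∧
    ∀ (P : Ideal (𝓞 E)) [P.IsMaximal], (d : 𝓞 E) ∉ P → lcv P x = 1 := by
  obtain ⟨d, hd0, hd⟩ := hna_exists_int_le x
  obtain ⟨d', hd0', hd'⟩ := hna_exists_int_le x⁻¹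
  refine ⟨d * d', mul_ne_zero hd0 hd0', fun P _ hP => ?_⟩
  have h1 : lcv P x ≤ 1 := hd P fun h => hP (by push_cast; exact P.mul_mem_right _ h)
  have h2 : lcv P x⁻¹ ≤ 1 := hd' P fun h => hP (by push_cast; exact P.mul_mem_left _ h)
  refine le_antisymm h1 ?_
  calc (1 : (lcVS P).ValueGroup) = lcv P x * lcv P x⁻¹ := by
        rw [← map_mul, mul_inv_cancel₀ hx, map_one]
    _ ≤ lcv P x * 1 := mul_le_mul_right h2 _
    _ = lcv P x := mul_one _

/-- H1.  Sketch: for `U ⊇ H` open with `ζ, α^ℓ, b ∈ K_U` let `C_U` = set of maximal `P` with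
`¬ lcLocNorm ℓ U P`.  Nonempty: `LCHnt` + N0 (`lcIsNorm U → lcIsNorm H`).  `C_U` only depends on
`below U P`, and by L4 only finitely many primes of `K_U` occur (divisors of `ℓ α^ℓ b`), so `C_U` is
closed in `PrimeSpectrum (𝓞 E)` (finite union of fibres over closed points).  `C_{U'} ⊆ C_U` for
`U' ≤ U` (lcLocNorm is monotone).  Quasi-compactness of the prime spectrum.
(Proof given here: `Q` = ultralimit of primes along an ultrafilter containing all `C_U`; it is a prime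
containing a nonzero integer, hence maximal; `below U Q` is finitely generated, so some `P ∈ C_U` has
`below U P = below U Q`, and `P = g Q` with `g ∈ U` by V8.) -/
theorem lc_exists_prime (hE : RadClosed E) (hℓ : ℓ ≠ 2) (hnt : LCHnt ℓ N E)
    {H : Subgroup Gal(E/N)} {ζ α b : E}
    (hζ : IsPrimitiveRoot ζ ℓ) (hζH : ζ ∈ fld H) (hα0 : α ≠ 0) (hα : α ^ ℓ ∈ fld H) (hb0 : b ≠ 0)
    (hb : b ∈ fld H) (hnn : ¬ lcIsNorm ℓ H ζ α b) :
    ∃ Q : Ideal (𝓞 E), ∃ _ : Q.IsMaximal, ∀ U : Subgroup Gal(E/N), IsOpen (U : Set Gal(E/N)) →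
      H ≤ U → ζ ∈ fld U → α ^ ℓ ∈ fld U → b ∈ fld U → ¬ lcLocNorm ℓ U Q ζ α b := by
  classical
  set 𝒰 : Set (Subgroup Gal(E/N)) := {U | IsOpen (U : Set Gal(E/N)) ∧ H ≤ U ∧ ζ ∈ fld U ∧
    α ^ ℓ ∈ fld U ∧ b ∈ fld U} with h𝒰
  set C : Subgroup Gal(E/N) → Set (Ideal (𝓞 E)) := fun U =>
    {P | ∃ _ : P.IsMaximal, ¬ lcLocNorm ℓ U P ζ α b} with hC
  have hne : ∀ U ∈ 𝒰, (C U).Nonempty := by
    rintro U ⟨hUo, hHU, h1, h2, h3⟩
    by_contra hemp
    rw [Set.not_nonempty_iff_eq_empty] at hemp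
    apply hnn
    refine lc_isNorm_mono hHU (hnt U hUo ζ α b hζ h1 hα0 h2 hb0 h3 fun P _ => ?_)
    by_contra hP
    have hmem : P ∈ C U := ⟨inferInstance, hP⟩
    rw [hemp] at hmem
    exact hmem
  have hmono : ∀ {U U' : Subgroup Gal(E/N)}, U' ≤ U → C U' ⊆ C U := by
    rintro U U' hle P ⟨hP, hbad⟩
    exact ⟨hP, fun hl => hbad (hna_locNorm_mono hle P hl)⟩
  have hinf : ∀ {U U' : Subgroup Gal(E/N)}, U ∈ 𝒰 → U' ∈ 𝒰 → U ⊓ U' ∈ 𝒰 := by
    rintro U U' ⟨a1, a2, a3, a4, a5⟩ ⟨b1, b2, -, -, -⟩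
    exact ⟨a1.inter b1, le_inf a2 b2, lc_fld_mono inf_le_left a3, lc_fld_mono inf_le_left a4,
      lc_fld_mono inf_le_left a5⟩
  have hU0 : (lcStab N ζ ⊓ (lcStab N (α ^ ℓ) ⊓ lcStab N b)) ∈ 𝒰 :=
    ⟨(lc_stab_isOpen ζ).inter ((lc_stab_isOpen (α ^ ℓ)).inter (lc_stab_isOpen b)),
      le_inf (lc_le_stab hζH) (le_inf (lc_le_stab hα) (lc_le_stab hb)),
      lc_mem_fld_of_le_stab inf_le_left,
      lc_mem_fld_of_le_stab (inf_le_right.trans inf_le_left),
      lc_mem_fld_of_le_stab (inf_le_right.trans inf_le_right)⟩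
  have : Nonempty 𝒰 := ⟨⟨_, hU0⟩⟩
  have hF : (⨅ U : 𝒰, Filter.principal (C U.1)).NeBot := by
    apply Filter.iInf_neBot_of_directed'
    · intro U U'
      exact ⟨⟨U.1 ⊓ U'.1, hinf U.2 U'.2⟩, Filter.principal_mono.2 (hmono inf_le_left),
        Filter.principal_mono.2 (hmono inf_le_right)⟩
    · intro U
      exact Filter.principal_neBot_iff.2 (hne U.1 U.2)
  obtain ⟨𝔉, h𝔉⟩ := Ultrafilter.exists_le (⨅ U : 𝒰, Filter.principal (C U.1))
  have hmem : ∀ U ∈ 𝒰, ∀ᶠ P in (𝔉 : Filter (Ideal (𝓞 E))), P ∈ C U := fun U hU =>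
    h𝔉 (Filter.mem_iInf_of_mem (⟨U, hU⟩ : 𝒰) (Filter.mem_principal_self _))
  have hprime : (hnaLim 𝔉).IsPrime := hna_lim_isPrime (by
    filter_upwards [hmem _ hU0] with P hP
    obtain ⟨h, -⟩ := hP
    exact h.isPrime)
  obtain ⟨da, hda0, hda⟩ := hna_exists_int hα0
  obtain ⟨db, hdb0, hdb⟩ := hna_exists_int hb0
  have hm : (((ℓ : ℤ) * (da * db) : ℤ) : 𝓞 E) ∈ hnaLim 𝔉 := by
    rw [hna_mem_lim]
    filter_upwards [hmem _ hU0] with P hP
    obtain ⟨hPm, hbad⟩ := hP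
    by_contra hnot
    apply hbad
    refine lc_locNorm_of_unit P hE hℓ hU0.1 hζ hU0.2.2.1 hU0.2.2.2.1 hU0.2.2.2.2 ?_ (hda P ?_)
      (hdb P ?_)
    · intro hov
      apply hnot
      have hov' : ((ℓ : ℕ) : 𝓞 E) ∈ P := hov
      push_cast
      exact P.mul_mem_right _ hov'
    · intro h
      apply hnot
      push_cast
      exact P.mul_mem_left _ (P.mul_mem_right _ h)
    · intro h
      apply hnot
      push_cast
      exact P.mul_mem_left _ (P.mul_mem_left _ h)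
  have hmax : (hnaLim 𝔉).IsMaximal := by
    have hcomap : ((hnaLim 𝔉).comap (algebraMap ℤ (𝓞 E))).IsMaximal := by
      have hpr : ((hnaLim 𝔉).comap (algebraMap ℤ (𝓞 E))).IsPrime := Ideal.comap_isPrime _ _
      refine hpr.isMaximal ?_
      intro hbot
      have h1 : ((ℓ : ℤ) * (da * db)) ∈ (hnaLim 𝔉).comap (algebraMap ℤ (𝓞 E)) := by
        simpa using hm
      rw [hbot, Ideal.mem_bot] at h1
      exact (mul_ne_zero (by exact_mod_cast (Fact.out : ℓ.Prime).ne_zero)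
        (mul_ne_zero hda0 hdb0)) h1
    exact Ideal.isMaximal_of_isIntegral_of_isMaximal_comap _ hcomap
  refine ⟨hnaLim 𝔉, hmax, fun U hUo hHU h1 h2 h3 hloc => ?_⟩
  have hU : U ∈ 𝒰 := ⟨hUo, hHU, h1, h2, h3⟩
  have := hna_numberField hUo
  obtain ⟨s, hs⟩ := (IsNoetherian.noetherian (below U (hnaLim 𝔉)) :
    (below U (hnaLim 𝔉)).FG)
  have hev : ∀ᶠ P in (𝔉 : Filter (Ideal (𝓞 E))),
      ∀ y ∈ s, algebraMap (𝓞 (fld U)) (𝓞 E) y ∈ P := by
    rw [Filter.eventually_all_finset]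
    intro y hy
    have hy' : y ∈ below U (hnaLim 𝔉) := hs ▸ Submodule.subset_span hy
    exact hna_mem_lim.1 hy'
  obtain ⟨P, ⟨hPm, hbad⟩, hPs⟩ := ((hmem U hU).and hev).exists
  have hle : below U (hnaLim 𝔉) ≤ below U P := by
    rw [← hs]
    exact Submodule.span_le.2 fun y hy => hPs y hy
  have hq : (below U (hnaLim 𝔉)).IsMaximal := Ideal.isMaximal_comap_of_isIntegral_of_isMaximal _
  have hp : (below U P).IsMaximal := Ideal.isMaximal_comap_of_isIntegral_of_isMaximal _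
  have heq : below U (hnaLim 𝔉) = below U P := hq.eq_of_le hp.ne_top hle
  obtain ⟨g, hgU, hg⟩ := lc_transitive (hnaLim 𝔉) (U.isClosed_of_isOpen hUo) P (by
    intro y hy
    have hint : IsIntegral ℤ (⟨(y : E), hy⟩ : fld U) :=
      (isIntegral_algebraMap_iff (algebraMap (fld U) E).injective).1
        (RingOfIntegers.isIntegral_coe y)
    have hy' : algebraMap (𝓞 (fld U)) (𝓞 E) ⟨⟨(y : E), hy⟩, hint⟩ = y := RingOfIntegers.ext rfl
    have e1 : (⟨⟨(y : E), hy⟩, hint⟩ : 𝓞 (fld U)) ∈ below U (hnaLim 𝔉) ↔ y ∈ hnaLim 𝔉 := by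
      conv_rhs => rw [← hy']
      exact Iff.rfl
    have e2 : (⟨⟨(y : E), hy⟩, hint⟩ : 𝓞 (fld U)) ∈ below U P ↔ y ∈ P := by
      conv_rhs => rw [← hy']
      exact Iff.rfl
    rw [← e1, ← e2, heq])
  subst hg
  exact hbad (hna_locNorm_smul hζ h1 h2 h3 (hnaLim 𝔉) hgU hloc)

end

end Claimed.Agent.R239
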