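/-
Row 239, package LC (local correspondence, Thm 2.4').  Sub-captain: helper75.
FILE LC/HN_b.lean = subtask LC.HN-b.  ONE OWNER (see table subtask; owner: helper51); the owner replaces every sorry IN PLACE
(statements are frozen: ask helper75 before changing one) and may add private helper lemmas / helper files
LC/HN_b_*.lean.  You may import further LC files that do not (transitively) import this one.
Notation of the sketches: G' = Gal(E/N), v_P = lcv P, D_P = decomp N P, I_P = inert N P, cl(τ) = lcCl τ,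
K_U = fld U, K_U^h = fld (U ⊓ D_P) (henselisation of K_U at P inside E).  Labels (P4, V3, L1, ...) refer to
the doc-strings of the other LC files; index: LC/Chain.lean.
-/
import Claimed.Agent.R239.LC.LOC_c
import Claimed.Agent.R239.LC.PROF_a
import Claimed.Agent.R239.LC.Stab

set_option autoImplicit false

namespace Claimed.Agent.R239

open NumberField
open scoped Pointwise

section tools

variable {G : Type*} [Group G] [TopologicalSpace G] [IsTopologicalGroup G] [CompactSpace G]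
  [TotallyDisconnectedSpace G]

/-- a closed subgroup is separated from every outside point by an open subgroup -/
theorem hnb_exists_open_sep {H : Subgroup G} (hH : IsClosed (H : Set G)) {g : G} (hg : g ∉ H) :
    ∃ U : Subgroup G, IsOpen (U : Set G) ∧ H ≤ U ∧ g ∉ U := by
  have ho : IsOpen ((fun x => g * x) ⁻¹' ((H : Set G)ᶜ)) :=
    hH.isOpen_compl.preimage (continuous_const_mul _)
  obtain ⟨V, hVn, hVo, hVs⟩ := prof_exists_normal ho (by simpa using hg)
  refine ⟨H ⊔ V, Subgroup.isOpen_mono le_sup_right hVo, le_sup_left, fun hmem => ?_⟩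
  have hmem' : g ∈ ((H ⊔ V : Subgroup G) : Set G) := hmem
  rw [Subgroup.mul_normal] at hmem'
  obtain ⟨h, hh, v, hv, rfl⟩ := Set.mem_mul.1 hmem'
  have h1 : v⁻¹ ∈ V := V.inv_mem hv
  have h2 := hVs h1
  simp only [Set.mem_preimage, Set.mem_compl_iff, SetLike.mem_coe] at h2
  apply h2
  simpa using hh

/-- compactness: if `H ⊓ D ≤ W` with `H`, `D` closed and `W` open then `U ⊓ D ≤ W` for some open
subgroup `U ⊇ H` -/
theorem hnb_exists_open_inf_le {H D W : Subgroup G} (hH : IsClosed (H : Set G))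
    (hD : IsClosed (D : Set G)) (hW : IsOpen (W : Set G)) (h : H ⊓ D ≤ W) :
    ∃ U : Subgroup G, IsOpen (U : Set G) ∧ H ≤ U ∧ U ⊓ D ≤ W := by
  classical
  have hK : IsCompact ((D : Set G) ∩ (W : Set G)ᶜ) := (hD.inter hW.isClosed_compl).isCompact
  have hsep : ∀ g : G, g ∈ (D : Set G) ∩ (W : Set G)ᶜ →
      ∃ U : Subgroup G, IsOpen (U : Set G) ∧ H ≤ U ∧ g ∉ U := by
    intro g hg
    exact hnb_exists_open_sep hH fun hgH => hg.2 (h ⟨hgH, hg.1⟩)
  choose! U hUo hHU hgU using hsep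
  obtain ⟨t, htsub, htfin, hcov⟩ := hK.elim_finite_subcover_image (b := (D : Set G) ∩ (W : Set G)ᶜ)
    (c := fun g => ((U g : Subgroup G) : Set G)ᶜ)
    (fun g hg => ((U g).isClosed_of_isOpen (hUo g hg)).isOpen_compl)
    (fun g hg => Set.mem_biUnion hg (hgU g hg))
  refine ⟨⨅ g ∈ t, U g, ?_, ?_, ?_⟩
  · have e : ((⨅ g ∈ t, U g : Subgroup G) : Set G) = ⋂ g ∈ t, (U g : Set G) := by
      simp [Subgroup.coe_iInf]
    rw [e]
    exact htfin.isOpen_biInter fun g hg => hUo g (htsub hg)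
  · exact le_iInf₂ fun g hg => hHU g (htsub hg)
  · rintro x ⟨hxU, hxD⟩
    by_contra hxW
    obtain ⟨g, hg, hxg⟩ := Set.mem_iUnion₂.1 (hcov ⟨hxD, hxW⟩)
    apply hxg
    have := (Subgroup.mem_iInf.1 hxU) g
    exact (Subgroup.mem_iInf.1 this) hg

end tools

section

variable {N E : Type*} [Field N] [NumberField N] [Field E] [Algebra N E] [IsGalois N E]
  [CharZero E] [Algebra.IsAlgebraic ℚ E]
variable {ℓ : ℕ} [Fact ℓ.Prime]

/-- H2.  Sketch: the coefficients `c_j` (`j < ℓ`) have open stabilisers, `W` their intersection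
(also with the stabilisers of `ζ, α^ℓ, b`), `H ⊓ D_Q ≤ W`.  `H ⊓ D_Q = ⋂_{U ⊇ H open} (U ⊓ D_Q)`
(H closed) and compactness give `U ⊇ H` open with `U ⊓ D_Q ≤ W`; replace `U` by a smaller one
fixing `ζ, α^ℓ, b`; then `lcIsNorm (U ⊓ D_Q)`, so `lcLocNorm U Q` by L3a. -/
theorem lc_not_isNorm_decomp {H : Subgroup Gal(E/N)} (hH : IsClosed (H : Set Gal(E/N)))
    {ζ α b : E} (hζH : ζ ∈ fld H) (hα : α ^ ℓ ∈ fld H) (hb : b ∈ fld H)
    (Q : Ideal (𝓞 E)) [Q.IsMaximal]
    (hQ : ∀ U : Subgroup Gal(E/N), IsOpen (U : Set Gal(E/N)) →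
      H ≤ U → ζ ∈ fld U → α ^ ℓ ∈ fld U → b ∈ fld U → ¬ lcLocNorm ℓ U Q ζ α b) :
    ¬ lcIsNorm ℓ (H ⊓ decomp N Q) ζ α b := by
  rintro ⟨c, hc, hcb⟩
  -- the common stabiliser of the relevant coefficients
  set W : Subgroup Gal(E/N) := ⨅ j ∈ Finset.range ℓ, lcStab N (c j) with hWdef
  have hWo : IsOpen (W : Set Gal(E/N)) := by
    have e : (W : Set Gal(E/N)) = ⋂ j ∈ Finset.range ℓ, (lcStab N (c j) : Set Gal(E/N)) := by
      simp [hWdef, Subgroup.coe_iInf]
    rw [e]
    exact isOpen_biInter_finset fun j _ => lc_stab_isOpen (c j)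
  have hle : H ⊓ decomp N Q ≤ W := le_iInf₂ fun j _ => lc_le_stab (hc j)
  obtain ⟨U, hUo, hHU, hUW⟩ := hnb_exists_open_inf_le hH (lc_decomp_isClosed Q) hWo hle
  set U' : Subgroup Gal(E/N) := U ⊓ (lcStab N ζ ⊓ (lcStab N (α ^ ℓ) ⊓ lcStab N b)) with hU'
  have hU'o : IsOpen (U' : Set Gal(E/N)) :=
    hUo.inter ((lc_stab_isOpen ζ).inter ((lc_stab_isOpen (α ^ ℓ)).inter (lc_stab_isOpen b)))
  have hHU' : H ≤ U' :=
    le_inf hHU (le_inf (lc_le_stab hζH) (le_inf (lc_le_stab hα) (lc_le_stab hb)))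
  refine hQ U' hU'o hHU' (lc_mem_fld_of_le_stab (inf_le_right.trans inf_le_left))
    (lc_mem_fld_of_le_stab (inf_le_right.trans (inf_le_right.trans inf_le_left)))
    (lc_mem_fld_of_le_stab (inf_le_right.trans (inf_le_right.trans inf_le_right))) ?_
  refine lc_locNorm_of_isNorm Q hU'o ⟨fun j => if j < ℓ then c j else 0, fun j => ?_, ?_⟩
  · by_cases hj : j < ℓ
    · simp only [if_pos hj]
      refine lc_mem_fld_of_le_stab ?_
      have h1 : U' ⊓ decomp N Q ≤ W := (inf_le_inf_right _ inf_le_left).trans hUW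
      exact h1.trans (iInf₂_le j (Finset.mem_range.2 hj))
    · simp only [if_neg hj]
      exact zero_mem _
  · rw [← hcb]
    unfold lcNF
    refine Finset.prod_congr rfl fun i _ => Finset.sum_congr rfl fun j hj => ?_
    simp only [if_pos (Finset.mem_range.1 hj)]

end

end Claimed.Agent.R239
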