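/-
Row 239, package LC (local correspondence, Thm 2.4').  Sub-captain: helper75.
FILE LC/HN_c.lean = subtask LC.HN-c.  ONE OWNER (see table subtask); the owner replaces every sorry IN PLACE
(statements are frozen: ask helper75 before changing one) and may add private helper lemmas / helper files
LC/HN_c_*.lean.  You may import further LC files that do not (transitively) import this one.
Notation of the sketches: G' = Gal(E/N), v_P = lcv P, D_P = decomp N P, I_P = inert N P, cl(τ) = lcCl τ,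
K_U = fld U, K_U^h = fld (U ⊓ D_P) (henselisation of K_U at P inside E).  Labels (P4, V3, L1, ...) refer to
the doc-strings of the other LC files; index: LC/Chain.lean.
-/
import Claimed.Agent.R239.LC.HN_a
import Claimed.Agent.R239.LC.HN_b
import Claimed.Agent.R239.LC.PROF_c
import Claimed.Agent.R239.LC.KUM_a
import Claimed.Agent.R239.LC.NN
import Claimed.Agent.R239.LC.NormGrp

set_option autoImplicit false

namespace Claimed.Agent.R239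

open NumberField
open scoped Pointwise

section

variable {N E : Type*} [Field N] [NumberField N] [Field E] [Algebra N E] [IsGalois N E]
  [CharZero E] [Algebra.IsAlgebraic ℚ E]
variable {ℓ : ℕ} [Fact ℓ.Prime]

/-- H3 (Frattini step).  Sketch: `Z = H ⊓ D_Q` closed.  If `Z ≠ H`, P7 gives `c ≠ 1` trivial on `Z`,
`c = ca^i cb^j` (P9), `γ = α^i β^j` satisfies `h γ = ζ^(c h) γ`, so `γ ∈ fld Z`.  If `ℓ ∤ j`:
`b^j = γ^ℓ (α^ℓ)^(-i)` is a norm over `fld Z` (N4, N3, N1) and so is `b^ℓ`, hence `b`.  If `ℓ ∣ j`: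
`ℓ ∤ i`, `α ∈ fld Z`, split case N2.  Contradiction. -/
theorem lc_le_decomp (hℓ : ℓ ≠ 2) {τ σ : Gal(E/N)} (hp : LCPair ℓ τ σ) {ζ α β : E}
    (hζ : IsPrimitiveRoot ζ ℓ) (hα0 : α ≠ 0) (hβ0 : β ≠ 0) (hα : α ^ ℓ ∈ fld (lcCl2 τ σ))
    (hβ : β ^ ℓ ∈ fld (lcCl2 τ σ)) (h1 : τ α = α) (h2 : σ α ≠ α) (h3 : τ β ≠ β) (h4 : σ β = β)
    (Q : Ideal (𝓞 E)) [Q.IsMaximal]
    (hQ : ¬ lcIsNorm ℓ (lcCl2 τ σ ⊓ decomp N Q) ζ α (β ^ ℓ)) : lcCl2 τ σ ≤ decomp N Q := by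
  by_contra hnot
  set H : Subgroup Gal(E/N) := lcCl2 τ σ with hHdef
  set Z : Subgroup Gal(E/N) := H ⊓ decomp N Q with hZdef
  have hHcl : IsClosed (H : Set Gal(E/N)) := Subgroup.isClosed_topologicalClosure _
  have hZcl : IsClosed (Z : Set Gal(E/N)) := by
    rw [hZdef, Subgroup.coe_inf]
    exact hHcl.inter (lc_decomp_isClosed Q)
  have hZH : Z ≤ H := inf_le_left
  have hne : Z ≠ H := by
    intro h
    apply hnot
    rw [← h]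
    exact inf_le_right
  have hpro : ∀ h ∈ H, IsProL ℓ h := fun h hh => prof_isProL_cl2 hp.proτ hp.proσ hp.conj_mem hh
  have hζH : ζ ∈ fld H := lc_pair_zeta_mem hp hζ.pow_eq_one
  obtain ⟨c, hc, hc1, hcZ⟩ := prof_frattini hHcl hZcl hpro hZH hne
  obtain ⟨ca, hca, hαc⟩ := kum_char hζ hζH hα0 hα
  obtain ⟨cb, hcb, hβc⟩ := kum_char hζ hζH hβ0 hβ
  have hαc' : ∀ h : H, h.1 α = lcZ ζ (ca h) * α := hαc
  have hβc' : ∀ h : H, h.1 β = lcZ ζ (cb h) * β := hβc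
  have key : ∀ {x : E} (_ : x ≠ 0) {a : Multiplicative (ZMod ℓ)} {g : Gal(E/N)},
      g x = lcZ ζ a * x → (g x = x ↔ a = 1) := by
    intro x hx a g hg
    rw [hg, ← lcZ_eq_one_iff hζ a]
    constructor
    · intro h
      exact mul_right_cancel₀ hx (by rw [h, one_mul])
    · intro h
      rw [h, one_mul]
  have hh1 : ∀ hτ : τ ∈ H, ca ⟨τ, hτ⟩ = 1 ∧ cb ⟨τ, hτ⟩ ≠ 1 := fun hτ =>
    ⟨(key hα0 (hαc' ⟨τ, hτ⟩)).1 h1, fun h => h3 ((key hβ0 (hβc' ⟨τ, hτ⟩)).2 h)⟩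
  have hh2 : ∀ hσ : σ ∈ H, ca ⟨σ, hσ⟩ ≠ 1 ∧ cb ⟨σ, hσ⟩ = 1 := fun hσ =>
    ⟨fun h => h2 ((key hα0 (hαc' ⟨σ, hσ⟩)).2 h), (key hβ0 (hβc' ⟨σ, hσ⟩)).1 h4⟩
  obtain ⟨i, j, hij⟩ := prof_pair_span ca cb c hca hcb hc hh1 hh2
  -- the element γ
  have hγ : α ^ i * β ^ j ∈ fld Z := by
    rw [IntermediateField.mem_fixedField_iff]
    intro z hz
    have hzH : z ∈ H := hZH hz
    have e1 := hαc' ⟨z, hzH⟩
    have e2 := hβc' ⟨z, hzH⟩
    have e3 := hcZ ⟨z, hzH⟩ hz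
    rw [hij] at e3
    have e4 : lcZ ζ (ca ⟨z, hzH⟩) ^ i * lcZ ζ (cb ⟨z, hzH⟩) ^ j = 1 := by
      rw [← lcZ_pow hζ.pow_eq_one, ← lcZ_pow hζ.pow_eq_one, ← lcZ_mul hζ.pow_eq_one, e3, lcZ_one]
    simp only at e1 e2
    rw [map_mul, map_pow, map_pow, e1, e2, mul_pow, mul_pow]
    calc lcZ ζ (ca ⟨z, hzH⟩) ^ i * α ^ i * (lcZ ζ (cb ⟨z, hzH⟩) ^ j * β ^ j)
        = (lcZ ζ (ca ⟨z, hzH⟩) ^ i * lcZ ζ (cb ⟨z, hzH⟩) ^ j) * (α ^ i * β ^ j) := by ring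
      _ = α ^ i * β ^ j := by rw [e4, one_mul]
  have hζZ : ζ ∈ fld Z := lc_fld_mono hZH hζH
  have hαZ : α ^ ℓ ∈ fld Z := lc_fld_mono hZH hα
  have hβZ : β ^ ℓ ∈ fld Z := lc_fld_mono hZH hβ
  apply hQ
  by_cases hj : ℓ ∣ j
  · -- then `ℓ ∤ i` and `α ∈ fld Z`
    have hi : ¬ ℓ ∣ i := by
      intro hi
      apply hc1
      ext h
      obtain ⟨i', rfl⟩ := hi
      obtain ⟨j', rfl⟩ := hj
      rw [hij, pow_mul, pow_mul, lc_mult_zmod_pow, lc_mult_zmod_pow]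
      simp
    obtain ⟨j', rfl⟩ := hj
    have hβj : β ^ (ℓ * j') ∈ fld Z := by
      rw [pow_mul]
      exact pow_mem hβZ j'
    have hαi : α ^ i ∈ fld Z := by
      have : α ^ i = α ^ i * β ^ (ℓ * j') * (β ^ (ℓ * j'))⁻¹ := by
        field_simp
      rw [this]
      exact (fld Z).mul_mem hγ ((fld Z).inv_mem hβj)
    exact lc_isNorm_split hζ hζZ hα0 (lc_mem_of_pow_mem hα0 hi hαi hαZ) hβZ
  · -- `b ^ j` is a norm
    apply lc_isNorm_of_pow hℓ hζ hζZ hα0 hαZ hβZ (pow_ne_zero _ hβ0) hj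
    have e : (β ^ ℓ) ^ j = (α ^ i * β ^ j) ^ ℓ * (1 ^ ℓ * (α ^ ℓ) ^ i)⁻¹ := by
      have : (α ^ ℓ) ^ i ≠ 0 := pow_ne_zero _ (pow_ne_zero _ hα0)
      field_simp
      ring
    rw [e]
    refine lc_isNorm_mul hζ.pow_eq_one hαZ (lc_isNorm_lth hℓ hζ hαZ hγ) ?_
    refine lc_isNorm_inv hζ hζZ hα0 hαZ ?_ (lc_isNorm_monomial hℓ hζ hαZ (fld Z).one_mem i)
    simpa using pow_ne_zero i (pow_ne_zero ℓ hα0)

end

section

variable {N E : Type*} [Field N] [NumberField N] [Field E] [Algebra N E] [IsGalois N E]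
  [CharZero E] [Algebra.IsAlgebraic ℚ E]
variable {ℓ : ℕ} [Fact ℓ.Prime]

/-- H4 = P8 + K1 + K3 + NN + H1 + H2 + H3. -/
theorem lc_pair_le_decomp (hE : RadClosed E) (hℓ : ℓ ≠ 2) (hnt : LCHnt ℓ N E)
    {τ σ : Gal(E/N)} (hp : LCPair ℓ τ σ) :
    ∃ Q : Ideal (𝓞 E), Q.IsMaximal ∧ lcCl2 τ σ ≤ decomp N Q := by
  obtain ⟨ζ, α, β, hζ, hζH, hα0, hβ0, hα, hβ, h1, h2, h3, h4⟩ := lc_pair_data hE hp
  have hcl : IsClosed ((lcCl2 τ σ : Subgroup Gal(E/N)) : Set Gal(E/N)) :=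
    Subgroup.isClosed_topologicalClosure _
  have hnn := lc_not_norm hE hp.rel hζ hζH hα0 hβ0 hα hβ h1 h2 h3
  obtain ⟨Q, hQm, hQ⟩ := lc_exists_prime hE hℓ hnt hζ hζH hα0 hα (pow_ne_zero ℓ hβ0) hβ hnn
  have hnd := lc_not_isNorm_decomp hcl hζH hα hβ Q hQ
  exact ⟨Q, hQm, lc_le_decomp hℓ hp hζ hα0 hβ0 hα hβ h1 h2 h3 h4 Q hnd⟩

end

end Claimed.Agent.R239
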