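/-
Row 239, package LC (local correspondence, Thm 2.4').  Sub-captain: helper75.
FILE LC/IN.lean = subtask LC.IN.  ONE OWNER (see table subtask); the owner replaces every sorry IN PLACE
(statements are frozen: ask helper75 before changing one) and may add private helper lemmas / helper files
LC/IN_*.lean.  You may import further LC files that do not (transitively) import this one.
Notation of the sketches: G' = Gal(E/N), v_P = lcv P, D_P = decomp N P, I_P = inert N P, cl(τ) = lcCl τ,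
K_U = fld U, K_U^h = fld (U ⊓ D_P) (henselisation of K_U at P inside E).  Labels (P4, V3, L1, ...) refer to
the doc-strings of the other LC files; index: LC/Chain.lean.
-/
import Claimed.Agent.R239.LC.VAL_b
import Claimed.Agent.R239.LC.PROF_a
import Claimed.Agent.R239.LC.TC_a

set_option autoImplicit false
set_option linter.style.haveILetI false
set_option linter.unusedSectionVars false

namespace Claimed.Agent.R239

open NumberField
open scoped Pointwise

/-! ### automorphisms of algebraic extensions of `𝔽_p` -/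

/-- In a field of characteristic `p`, an element `z` which is integral over `ℤ` lies in a finite
subfield; every automorphism acts on it as a power of Frobenius. -/
theorem lc_fp_aux {κ : Type*} [Field κ] (p : ℕ) [Fact p.Prime] [CharP κ p] {z : κ}
    (hz : IsIntegral ℤ z) (φ : κ ≃+* κ) :
    (∃ d, 0 < d ∧ z ^ p ^ d = z) ∧ ∃ i, φ z = z ^ p ^ i := by
  letI : Algebra (ZMod p) κ := ZMod.algebra κ p
  have hz' : IsIntegral (ZMod p) z := hz.tower_top
  let l := IntermediateField.adjoin (ZMod p) {z}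
  haveI : FiniteDimensional (ZMod p) l := IntermediateField.adjoin.finiteDimensional hz'
  haveI : Finite l := Module.finite_of_finite (ZMod p)
  let zl : l := ⟨z, IntermediateField.mem_adjoin_simple_self _ z⟩
  constructor
  · refine ⟨Module.finrank (ZMod p) l, Module.finrank_pos, ?_⟩
    haveI := Fintype.ofFinite l
    have h1 := FiniteField.pow_card zl
    rw [Fintype.card_eq_nat_card, Module.natCard_eq_pow_finrank (K := ZMod p), Nat.card_zmod] at h1
    exact congrArg (fun x : l => (x : κ)) h1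
  · let ψ : κ ≃ₐ[ZMod p] κ := AlgEquiv.ofRingEquiv (f := φ) (fun r => by
      have : (φ : κ →+* κ).comp (algebraMap (ZMod p) κ) = algebraMap (ZMod p) κ :=
        Subsingleton.elim _ _
      exact DFunLike.congr_fun this r)
    obtain ⟨i, hi⟩ := FiniteField.exists_forall_apply_eq_pow (ZMod p) p l (ψ.restrictNormal l)
    refine ⟨i, ?_⟩
    have h1 := hi zl
    have h2 := ψ.restrictNormal_commutes l zl
    rw [h1, Nat.card_zmod] at h2
    exact h2.symm

/-- automorphisms of an algebraic extension of `𝔽_p` commute -/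
theorem lc_fp_comm {κ : Type*} [Field κ] (p : ℕ) [Fact p.Prime] [CharP κ p]
    (hint : ∀ z : κ, IsIntegral ℤ z) (φ ψ : κ ≃+* κ) (z : κ) : φ (ψ z) = ψ (φ z) := by
  obtain ⟨i, hi⟩ := (lc_fp_aux p (hint z) φ).2
  obtain ⟨j, hj⟩ := (lc_fp_aux p (hint z) ψ).2
  rw [hj, hi, map_pow, map_pow, hi, hj, ← pow_mul, ← pow_mul, mul_comm]

theorem lc_pow_pow_mul_eq {κ : Type*} [Monoid κ] {z : κ} {q : ℕ} {m : ℕ} (h : z ^ q ^ m = z)
    (t : ℕ) : z ^ q ^ (m * t) = z := by
  induction t with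
  | zero => simp
  | succ t ih => rw [Nat.mul_succ, pow_add, pow_mul, ih, h]

/-- the automorphism group of an algebraic extension of `𝔽_p` containing all `𝔽_{p^M}` is
torsion free -/
theorem lc_fp_torsion_free {κ : Type*} [Field κ] (p : ℕ) [Fact p.Prime] [CharP κ p]
    (hint : ∀ z : κ, IsIntegral ℤ z)
    (hprim : ∀ M : ℕ, 0 < M → ∃ w : κ, IsPrimitiveRoot w (p ^ M - 1)) (φ : κ ≃+* κ) {n : ℕ}
    (hn : 0 < n) (h : ∀ z, (⇑φ)^[n] z = z) (z : κ) : φ z = z := by
  have hp : p.Prime := Fact.out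
  obtain ⟨m, hm, hzm⟩ := (lc_fp_aux p (hint z) φ).1
  have hM : 0 < n * m := Nat.mul_pos hn hm
  obtain ⟨w, hw⟩ := hprim (n * m) hM
  obtain ⟨k, hk⟩ := (lc_fp_aux p (hint w) φ).2
  have hone : ∀ j : ℕ, 1 ≤ p ^ j := fun j => Nat.one_le_pow _ _ hp.pos
  have hNpos : 0 < p ^ (n * m) - 1 := by
    have : p ^ 1 < p ^ (n * m + 1) := Nat.pow_lt_pow_right hp.one_lt (by omega)
    have h2 : p ^ (n * m + 1) = p ^ (n * m) * p := pow_succ _ _
    have h3 : 1 < p ^ (n * m) := Nat.one_lt_pow hM.ne' hp.one_lt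
    omega
  have hw0 : w ≠ 0 := hw.ne_zero hNpos.ne'
  have hiter : ∀ t : ℕ, (⇑φ)^[t] w = w ^ p ^ (k * t) := by
    intro t
    induction t with
    | zero => simp
    | succ t ih =>
      rw [Function.iterate_succ_apply', ih, map_pow, hk, ← pow_mul, Nat.mul_succ, pow_add,
        mul_comm (p ^ (k * t))]
  have h1 : w ^ p ^ (k * n) = w := by rw [← hiter n, h w]
  have h2 : w ^ (p ^ (k * n) - 1) = 1 := by
    have : w ^ (p ^ (k * n) - 1) * w = 1 * w := by
      rw [← pow_succ, Nat.sub_add_cancel (hone _), h1, one_mul]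
    exact mul_right_cancel₀ hw0 this
  have h3 : p ^ (n * m) - 1 ∣ p ^ (k * n) - 1 := hw.dvd_of_pow_eq_one _ h2
  have h4 : p ^ (n * m) - 1 = p ^ (Nat.gcd (n * m) (k * n)) - 1 := by
    rw [← Nat.pow_sub_one_gcd_pow_sub_one, Nat.gcd_eq_left h3]
  have h5 : p ^ (n * m) = p ^ (Nat.gcd (n * m) (k * n)) := by
    have a1 := hone (n * m)
    have a2 := hone (Nat.gcd (n * m) (k * n))
    omega
  have h6 : n * m = Nat.gcd (n * m) (k * n) := Nat.pow_right_injective hp.two_le h5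
  have h7 : n * m ∣ k * n := by
    rw [h6]
    exact Nat.gcd_dvd_right _ _
  have h8 : m ∣ k := by
    rw [mul_comm k n] at h7
    exact Nat.dvd_of_mul_dvd_mul_left hn h7
  obtain ⟨t, rfl⟩ := h8
  rcases eq_or_ne z 0 with rfl | hz0
  · exact map_zero φ
  have hz1 : z ^ (p ^ m - 1) = 1 := by
    have : z ^ (p ^ m - 1) * z = 1 * z := by
      rw [← pow_succ, Nat.sub_add_cancel (hone _), hzm, one_mul]
    exact mul_right_cancel₀ hz0 this
  have hz2 : z ^ (p ^ (n * m) - 1) = 1 := by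
    have hd : p ^ m - 1 ∣ p ^ (n * m) - 1 := Nat.pow_sub_one_dvd_pow_sub_one p (Dvd.intro_left n rfl)
    obtain ⟨c, hc⟩ := hd
    rw [hc, pow_mul, hz1, one_pow]
  haveI : NeZero (p ^ (n * m) - 1) := ⟨hNpos.ne'⟩
  obtain ⟨a, -, ha⟩ := hw.eq_pow_of_pow_eq_one hz2
  rw [← ha, map_pow, hk, ← pow_mul, mul_comm, pow_mul, ha]
  exact lc_pow_pow_mul_eq hzm t


/-! ### the residue field of a prime of `E` -/

section

variable {N E : Type*} [Field N] [NumberField N] [Field E] [Algebra N E] [IsGalois N E]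
  [CharZero E] [Algebra.IsAlgebraic ℚ E]
variable (Q : Ideal (𝓞 E)) [Q.IsMaximal]

/-- the automorphism of the residue field induced by an element of the decomposition group -/
noncomputable def lcResAut (g : decomp N Q) : (𝓞 E ⧸ Q) ≃+* (𝓞 E ⧸ Q) :=
  (Ideal.Quotient.stabilizerHom Q (Q.under ℤ) Gal(E/N) g).toRingEquiv

theorem lcResAut_mk (g : decomp N Q) (y : 𝓞 E) :
    lcResAut Q g (Ideal.Quotient.mk Q y) = Ideal.Quotient.mk Q ((g : Gal(E/N)) • y) := rfl

theorem lc_res_isIntegral (z : 𝓞 E ⧸ Q) : IsIntegral ℤ z := by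
  obtain ⟨y, rfl⟩ := Ideal.Quotient.mk_surjective z
  exact (RingOfIntegers.isIntegral y).map (Ideal.Quotient.mkₐ ℤ Q)

theorem lc_res_charP {p : ℕ} (hp : p.Prime) (hpQ : Over Q p) : CharP (𝓞 E ⧸ Q) p := by
  have h0 : ((p : ℕ) : 𝓞 E ⧸ Q) = 0 := by
    rw [← map_natCast (Ideal.Quotient.mk Q)]
    exact Ideal.Quotient.eq_zero_iff_mem.2 hpQ
  haveI : Nontrivial (𝓞 E ⧸ Q) := Ideal.Quotient.nontrivial_iff.2 (Ideal.IsMaximal.ne_top ‹_›)
  exact ringChar.of_eq (CharP.ringChar_of_prime_eq_zero hp h0)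

theorem lc_mem_inert_iff {x : Gal(E/N)} :
    x ∈ inert N Q ↔ ∀ y : 𝓞 E, Ideal.Quotient.mk Q (x • y) = Ideal.Quotient.mk Q y := by
  constructor
  · intro h y
    exact Ideal.Quotient.eq.2 (h y)
  · intro h y
    exact Ideal.Quotient.eq.1 (h y)

end

section

variable {N E : Type*} [Field N] [NumberField N] [Field E] [Algebra N E] [IsGalois N E]
  [CharZero E] [Algebra.IsAlgebraic ℚ E]
variable {ℓ : ℕ} [Fact ℓ.Prime]
variable (Q : Ideal (𝓞 E)) [Q.IsMaximal]

/-- I1 (`D/I` is abelian).  Sketch: `κ = 𝓞 E / Q` is algebraic over `𝔽_p`; on the finite subfield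
generated by `ȳ` both `ḡ`, `h̄` are powers of Frobenius. -/
theorem lc_comm_mem_inert {g h : Gal(E/N)} (hg : g ∈ decomp N Q) (hh : h ∈ decomp N Q) :
    g * h * g⁻¹ * h⁻¹ ∈ inert N Q := by
  obtain ⟨p, hp, hpQ⟩ := lc_exists_over Q
  haveI : Fact p.Prime := ⟨hp⟩
  letI : Field (𝓞 E ⧸ Q) := Ideal.Quotient.field Q
  haveI : CharP (𝓞 E ⧸ Q) p := lc_res_charP Q hp hpQ
  rw [lc_mem_inert_iff]
  intro y
  have key := lc_fp_comm p (lc_res_isIntegral Q) (lcResAut Q ⟨g, hg⟩) (lcResAut Q ⟨h, hh⟩)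
    (Ideal.Quotient.mk Q (g⁻¹ • h⁻¹ • y))
  simp only [lcResAut_mk, smul_inv_smul] at key
  rw [mul_smul, mul_smul, mul_smul]
  exact key

end

section

variable {N E : Type*} [Field N] [NumberField N] [Field E] [Algebra N E] [IsGalois N E]
  [CharZero E] [Algebra.IsAlgebraic ℚ E]
variable {ℓ : ℕ} [Fact ℓ.Prime]
variable (Q : Ideal (𝓞 E)) [Q.IsMaximal]

/-- the residue field contains the primitive roots of unity of order prime to `p` -/
theorem lc_res_exists_prim (hE : RadClosed E) {m : ℕ} (hm0 : 0 < m) (hm : (m : 𝓞 E) ∉ Q) :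
    ∃ w : 𝓞 E ⧸ Q, IsPrimitiveRoot w m := by
  have hprime : Q.IsPrime := Ideal.IsMaximal.isPrime ‹_›
  obtain ⟨ζ, hζ⟩ := hE.prim m hm0
  have hint : IsIntegral ℤ ζ :=
    IsIntegral.of_pow hm0 (by rw [hζ.pow_eq_one]; exact isIntegral_one)
  let ζ' : 𝓞 E := ⟨ζ, hint⟩
  have hinj : Function.Injective (algebraMap (𝓞 E) E) := FaithfulSMul.algebraMap_injective _ _
  have hζ' : algebraMap (𝓞 E) E ζ' = ζ := rfl
  have hpow : ∀ a : ℕ, ζ' ^ a = 1 ↔ ζ ^ a = 1 := by
    intro a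
    rw [← hζ', ← map_pow, ← map_one (algebraMap (𝓞 E) E), hinj.eq_iff]
  refine ⟨Ideal.Quotient.mk Q ζ', ?_, ?_⟩
  · rw [← map_pow, (hpow m).2 hζ.pow_eq_one, map_one]
  · intro a ha
    apply hζ.dvd_of_pow_eq_one
    rw [← hpow]
    apply lc_root_eq_one_of_sub_mem Q hm
    · rw [← pow_mul, mul_comm, pow_mul, (hpow m).2 hζ.pow_eq_one, one_pow]
    · rw [← map_pow, ← map_one (Ideal.Quotient.mk Q)] at ha
      exact Ideal.Quotient.eq.1 ha

/-- I2 (`D/I` is torsion free).  Sketch: `κ ⊇ 𝔽_{p^m}` for all `m` (roots of unity of `E`, RadClosed).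
On `𝔽_{p^(n m)}`, `ḡ = Frob^k`, `n k ≡ 0 mod n m`, so `m ∣ k` and `ḡ = 1` on `𝔽_{p^m}`. -/
theorem lc_inert_of_pow (hE : RadClosed E) {g : Gal(E/N)} (hg : g ∈ decomp N Q) {n : ℕ}
    (hn : 0 < n) (h : g ^ n ∈ inert N Q) : g ∈ inert N Q := by
  obtain ⟨p, hp, hpQ⟩ := lc_exists_over Q
  haveI : Fact p.Prime := ⟨hp⟩
  letI : Field (𝓞 E ⧸ Q) := Ideal.Quotient.field Q
  haveI : CharP (𝓞 E ⧸ Q) p := lc_res_charP Q hp hpQ
  have hprim : ∀ M : ℕ, 0 < M → ∃ w : 𝓞 E ⧸ Q, IsPrimitiveRoot w (p ^ M - 1) := by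
    intro M hM
    have h1 : 1 < p ^ M := Nat.one_lt_pow hM.ne' hp.one_lt
    apply lc_res_exists_prim Q hE (by omega)
    intro hmem
    apply Ideal.IsMaximal.ne_top ‹Q.IsMaximal›
    rw [Ideal.eq_top_iff_one]
    have h2 : ((p ^ M : ℕ) : 𝓞 E) ∈ Q := by
      rw [Nat.cast_pow]
      exact Ideal.pow_mem_of_mem Q hpQ M hM
    have h3 : ((p ^ M : ℕ) : 𝓞 E) - ((p ^ M - 1 : ℕ) : 𝓞 E) = 1 := by
      rw [Nat.cast_sub h1.le]
      simp
    rw [← h3]
    exact Q.sub_mem h2 hmem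
  have hiter : ∀ (t : ℕ) (y : 𝓞 E), (⇑(lcResAut Q ⟨g, hg⟩))^[t] (Ideal.Quotient.mk Q y)
      = Ideal.Quotient.mk Q (g ^ t • y) := by
    intro t
    induction t with
    | zero => intro y; simp
    | succ t ih =>
      intro y
      rw [Function.iterate_succ_apply', ih, lcResAut_mk, pow_succ', mul_smul]
  rw [lc_mem_inert_iff] at h ⊢
  intro y
  have := lc_fp_torsion_free p (lc_res_isIntegral Q) hprim (lcResAut Q ⟨g, hg⟩) hn (by
    intro z
    obtain ⟨y, rfl⟩ := Ideal.Quotient.mk_surjective z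
    rw [hiter, h]) (Ideal.Quotient.mk Q y)
  exact this

end

section

variable {N E : Type*} [Field N] [NumberField N] [Field E] [Algebra N E] [IsGalois N E]
  [CharZero E] [Algebra.IsAlgebraic ℚ E]
variable {ℓ : ℕ} [Fact ℓ.Prime]
variable (Q : Ideal (𝓞 E)) [Q.IsMaximal]

/-- I3.  Sketch: `x^ℓ = τ⁻¹ σ τ σ⁻¹ ∈ I_Q` (I1), `x^ℓ ≠ 1`, so `τ^(ℓ^k) ∈ cl(x^ℓ) ≤ I_Q` (P4, V7b);
I2. -/
theorem lc_tau_mem_inert (hE : RadClosed E) {τ σ : Gal(E/N)} (hp : LCPair ℓ τ σ)
    (hQ : lcCl2 τ σ ≤ decomp N Q) : τ ∈ inert N Q := by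
  have hℓ : ℓ.Prime := Fact.out
  have hτD : τ ∈ decomp N Q :=
    hQ (Subgroup.le_topologicalClosure _ (Subgroup.subset_closure (by simp)))
  have hσD : σ ∈ decomp N Q :=
    hQ (Subgroup.le_topologicalClosure _ (Subgroup.subset_closure (by simp)))
  obtain ⟨x, hx, hrel⟩ := hp.rel
  have hy : x ^ ℓ = τ⁻¹ * σ * τ⁻¹⁻¹ * σ⁻¹ := by
    rw [inv_inv, mul_assoc, mul_assoc, ← mul_assoc σ, hrel, inv_mul_cancel_left]
  have hyI : x ^ ℓ ∈ inert N Q := by
    rw [hy]
    exact lc_comm_mem_inert Q (inv_mem hτD) hσD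
  have hy1 : x ^ ℓ ≠ 1 := by
    intro h1
    apply hp.ne
    rw [hrel, h1, mul_one]
  obtain ⟨k, hk⟩ := prof_pow_mem_cl hp.proτ (pow_mem hx ℓ) hy1
  have hle : lcCl (x ^ ℓ) ≤ inert N Q :=
    Subgroup.topologicalClosure_minimal _ ((Subgroup.zpowers_le).2 hyI) (lc_inert_isClosed Q)
  exact lc_inert_of_pow Q hE hτD (pow_pos hℓ.pos k) (hle hk)

end

end Claimed.Agent.R239
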