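/-
Row 239, package LC (local correspondence, Thm 2.4').  Sub-captain: helper75.
FILE LC/TC_b.lean = subtask LC.TC-b.  ONE OWNER (see table subtask; owner: helper199); the owner replaces every sorry IN PLACE
(statements are frozen: ask helper75 before changing one) and may add private helper lemmas / helper files
LC/TC_b_*.lean.  You may import further LC files that do not (transitively) import this one.
Notation of the sketches: G' = Gal(E/N), v_P = lcv P, D_P = decomp N P, I_P = inert N P, cl(τ) = lcCl τ,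
K_U = fld U, K_U^h = fld (U ⊓ D_P) (henselisation of K_U at P inside E).  Labels (P4, V3, L1, ...) refer to
the doc-strings of the other LC files; index: LC/Chain.lean.
-/
import Claimed.Agent.R239.LC.Basic

set_option autoImplicit false

namespace Claimed.Agent.R239

open NumberField
open scoped Pointwise

section

variable {K L : Type*} [Field K] [Field L] [Algebra K L]
variable {ℓ : ℕ} [Fact ℓ.Prime]

/-- the defining property of `chi`. -/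
theorem lc_chi_spec (hL : RadClosed L) (γ : Gal(L/K)) {m : ℕ} {t : L} (ht : t ^ ℓ ^ m = 1) :
    γ t = t ^ ((chi ℓ K L γ).val.toZModPow m).val := by
  have hp : ℓ.Prime := Fact.out
  have (i : ℕ) : HasEnoughRootsOfUnity L (ℓ ^ i) :=
    ⟨hL.prim _ (pow_pos hp.pos i), rootsOfUnity.isCyclic _ _⟩
  exact cyclotomicCharacter.spec ℓ (MulSemiringAction.toRingAut Gal(L/K) L γ) t ht

/-- integral powers of an automorphism acting on an eigenvector with fixed eigenvalue. -/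
theorem lc_zpow_eigen {s : Gal(L/K)} {t ϖ : L} (ht0 : t ≠ 0) (hst : s t = t) (hs : s ϖ = t * ϖ)
    (c : ℤ) : (s ^ c) ϖ = t ^ c * ϖ := by
  have hnat : ∀ k : ℕ, (s ^ k) ϖ = t ^ k * ϖ := by
    intro k
    induction k with
    | zero => simp
    | succ k ih =>
      rw [pow_succ', AlgEquiv.mul_apply, ih, map_mul, map_pow, hst, hs]
      ring
  have hnatt : ∀ k : ℕ, (s ^ k) t = t := by
    intro k
    induction k with
    | zero => simp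
    | succ k ih => rw [pow_succ', AlgEquiv.mul_apply, ih, hst]
  rcases Int.eq_nat_or_neg c with ⟨k, rfl | rfl⟩
  · rw [zpow_natCast, zpow_natCast, hnat]
  · rw [zpow_neg, zpow_neg, zpow_natCast, zpow_natCast]
    have h1 : (s ^ k) ((t ^ k)⁻¹ * ϖ) = ϖ := by
      rw [map_mul, map_inv₀, map_pow, hnatt, hnat, inv_mul_cancel_left₀ (pow_ne_zero _ ht0)]
    have h2 : (s ^ k)⁻¹ ((s ^ k) ((t ^ k)⁻¹ * ϖ)) = (s ^ k)⁻¹ ϖ := by rw [h1]
    rw [← AlgEquiv.mul_apply, inv_mul_cancel, AlgEquiv.one_apply] at h2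
    exact h2.symm

/-- evaluation at `x` is locally constant on the Galois group. -/
theorem lc_isOpen_eval [Algebra.IsIntegral K L] (x y : L) : IsOpen {γ : Gal(L/K) | γ x = y} := by
  let _ : TopologicalSpace L := ⊥
  have : DiscreteTopology L := ⟨rfl⟩
  have : ContinuousSMul Gal(L/K) L :=
    continuousSMul_iff_stabilizer_isOpen.2 stabilizer_isOpen_of_isIntegral
  exact (isOpen_discrete {y}).preimage
    ((continuous_id.smul continuous_const : Continuous fun γ : Gal(L/K) => γ • x))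

/-- T3 in one field. -/
theorem lc_chi_detect (hL : RadClosed L) {s γ : Gal(L/K)}
    (hμ : ∀ (n : ℕ) (ξ : L), ξ ^ ℓ ^ n = 1 → s ξ = ξ)
    {p : ℕ} (hp : ∃ (n : ℕ) (ϖ : L), ϖ ^ ℓ ^ n = (p : L) ∧ s ϖ ≠ ϖ) (n : ℕ) :
    ∃ ϖ : L, ∀ c : ℤ, (s ^ c) ϖ = (γ * s * γ⁻¹) ϖ →
      (c : ZMod (ℓ ^ n)) = (chi ℓ K L γ).val.toZModPow n := by
  have hℓ : ℓ.Prime := Fact.out
  obtain ⟨n₀, ϖ₀, hϖ₀, hsϖ₀⟩ := hp
  have hϖ₀0 : ϖ₀ ≠ 0 := by
    rintro rfl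
    exact hsϖ₀ (map_zero _)
  obtain ⟨ϖ, hϖ⟩ := hL.root (ℓ ^ n) (pow_pos hℓ.pos n) ϖ₀
  have hϖ0 : ϖ ≠ 0 := by
    rintro rfl
    rw [zero_pow (pow_pos hℓ.pos n).ne'] at hϖ
    exact hϖ₀0 hϖ.symm
  have hϖp : ϖ ^ ℓ ^ (n + n₀) = (p : L) := by rw [pow_add, pow_mul, hϖ, hϖ₀]
  refine ⟨ϖ, fun c hc => ?_⟩
  -- `t = s ϖ / ϖ`
  have ht : (s ϖ / ϖ) ^ ℓ ^ (n + n₀) = 1 := by
    rw [div_pow, ← map_pow, hϖp, map_natCast, ← hϖp, div_self (pow_ne_zero _ hϖ0)]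
  have htn : (s ϖ / ϖ) ^ ℓ ^ n ≠ 1 := by
    rw [div_pow, ← map_pow, hϖ]
    intro h
    exact hsϖ₀ ((div_eq_one_iff_eq hϖ₀0).1 h)
  have hsϖ : s ϖ = s ϖ / ϖ * ϖ := by field_simp
  generalize s ϖ / ϖ = t at ht htn hsϖ
  have ht0 : t ≠ 0 := by
    rintro rfl
    rw [zero_pow (pow_pos hℓ.pos _).ne'] at ht
    exact zero_ne_one ht
  have hst : s t = t := hμ _ t ht
  -- the conjugate
  have hu : (γ⁻¹ ϖ / ϖ) ^ ℓ ^ (n + n₀) = 1 := by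
    rw [div_pow, ← map_pow, hϖp, map_natCast, ← hϖp, div_self (pow_ne_zero _ hϖ0)]
  have hγϖ : γ⁻¹ ϖ = γ⁻¹ ϖ / ϖ * ϖ := by field_simp
  have hconj : (γ * s * γ⁻¹) ϖ = γ t * ϖ := by
    rw [AlgEquiv.mul_apply, AlgEquiv.mul_apply]
    have h1 : s (γ⁻¹ ϖ) = t * γ⁻¹ ϖ := by
      conv_lhs => rw [hγϖ]
      rw [map_mul, hμ _ _ hu, hsϖ]
      conv_rhs => rw [hγϖ]
      ring
    rw [h1, map_mul, ← AlgEquiv.mul_apply γ γ⁻¹, mul_inv_cancel, AlgEquiv.one_apply]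
  rw [hconj, lc_zpow_eigen ht0 hst hsϖ, lc_chi_spec hL γ ht] at hc
  have hc' := mul_right_cancel₀ hϖ0 hc
  rw [← zpow_natCast] at hc'
  have h1 : t ^ (c - (((chi ℓ K L γ).val.toZModPow (n + n₀)).val : ℤ)) = 1 := by
    rw [zpow_sub₀ ht0, hc', div_self (zpow_ne_zero _ ht0)]
  have h2 := ((IsPrimitiveRoot.orderOf t).zpow_eq_one_iff_dvd _).1 h1
  obtain ⟨j, -, hj⟩ := (Nat.dvd_prime_pow hℓ).1 (orderOf_dvd_of_pow_eq_one ht)
  have hnj : n ≤ j := by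
    by_contra hcon
    apply htn
    rw [← orderOf_dvd_iff_pow_eq_one, hj]
    exact pow_dvd_pow ℓ (by omega)
  have h3 : ((ℓ ^ n : ℕ) : ℤ) ∣ c - (((chi ℓ K L γ).val.toZModPow (n + n₀)).val : ℤ) := by
    refine dvd_trans ?_ h2
    rw [hj]
    exact_mod_cast pow_dvd_pow ℓ hnj
  have h4 : (c : ZMod (ℓ ^ n)) = ((((chi ℓ K L γ).val.toZModPow (n + n₀)).val : ℤ) : ZMod (ℓ ^ n)) := by
    rw [eq_comm, ZMod.intCast_eq_intCast_iff_dvd_sub]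
    exact h3
  rw [h4, Int.cast_natCast, ZMod.natCast_val, PadicInt.cast_toZModPow n (n + n₀) (Nat.le_add_right _ _)]

end

section

variable {N E : Type*} [Field N] [NumberField N] [Field E] [Algebra N E] [IsGalois N E]
  [CharZero E] [Algebra.IsAlgebraic ℚ E]
variable {ℓ : ℕ} [Fact ℓ.Prime]
variable {M Ω : Type*} [Field M] [NumberField M] [Field Ω] [Algebra M Ω] [IsGalois M Ω]

/-- T3 (norm identity; pure Galois/Kummer algebra, no primes; `Γ` acts on `Ω` through `ρ` and on `E`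
through `φ`; in the application `Γ = ↥T`, `ρ` = inclusion).  Sketch: compatible roots `ϖ_n` of `p`
and `ϖ'_n` of `q`; `t_n(h) = h ϖ_n / ϖ_n`; `t_n(g h g⁻¹) = g (t_n h) = t_n(h)^(chi g)`; the order of
`t_n(τ)` is `≥ ℓ^(n - n₀ + 1)`.  Fix `n`.  `g τ g⁻¹ ∈ cl τ` gives `c ∈ ℤ` with `g τ g⁻¹ τ^(-c)` fixing
`ϖ_m` and `φ` of it fixing `ϖ'_m'`; compare: `c ≡ chi g`, `c ≡ chi (φ g)` modulo `ℓ^n`. -/
theorem lc_chi_eq {Γ : Type*} [Group Γ] [TopologicalSpace Γ] [IsTopologicalGroup Γ]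
    (hΩ : RadClosed Ω) (hE : RadClosed E) (ρ : Γ →* Gal(Ω/M)) (hρ : Continuous ρ)
    (φ : Γ →* Gal(E/N)) (hφ : Continuous φ) {τ g : Γ}
    (hμ : ∀ (n : ℕ) (ξ : Ω), ξ ^ ℓ ^ n = 1 → ρ τ ξ = ξ)
    (hμ' : ∀ (n : ℕ) (ξ : E), ξ ^ ℓ ^ n = 1 → φ τ ξ = ξ)
    {p q : ℕ} (hp : ∃ (n : ℕ) (ϖ : Ω), ϖ ^ ℓ ^ n = (p : Ω) ∧ ρ τ ϖ ≠ ϖ)
    (hq : ∃ (n : ℕ) (ϖ : E), ϖ ^ ℓ ^ n = (q : E) ∧ φ τ ϖ ≠ ϖ)
    (hg : g * τ * g⁻¹ ∈ lcCl τ) : chi ℓ N E (φ g) = chi ℓ M Ω (ρ g) := by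
  apply Units.ext
  rw [← PadicInt.ext_of_toZModPow]
  intro n
  obtain ⟨ϖ, hϖ⟩ := lc_chi_detect hΩ (γ := ρ g) hμ hp n
  obtain ⟨ϖ', hϖ'⟩ := lc_chi_detect hE (γ := φ g) hμ' hq n
  -- the open set of `h` with `ρ h ϖ = ρ (g τ g⁻¹) ϖ` and `φ h ϖ' = φ (g τ g⁻¹) ϖ'`
  have hO1 : IsOpen {h : Γ | ρ h ϖ = ρ (g * τ * g⁻¹) ϖ} :=
    (lc_isOpen_eval ϖ (ρ (g * τ * g⁻¹) ϖ)).preimage hρ
  have hO2 : IsOpen {h : Γ | φ h ϖ' = φ (g * τ * g⁻¹) ϖ'} :=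
    (lc_isOpen_eval ϖ' (φ (g * τ * g⁻¹) ϖ')).preimage hφ
  have hg' : g * τ * g⁻¹ ∈ closure ((Subgroup.zpowers τ : Subgroup Γ) : Set Γ) := hg
  obtain ⟨h, ⟨hh1, hh2⟩, hhz⟩ := mem_closure_iff.1 hg' _ (hO1.inter hO2) ⟨rfl, rfl⟩
  obtain ⟨c, rfl⟩ := Subgroup.mem_zpowers_iff.1 hhz
  have e1 := hϖ c (by
    have : ρ (τ ^ c) ϖ = ρ (g * τ * g⁻¹) ϖ := hh1
    rwa [map_zpow, map_mul, map_mul, map_inv] at this)
  have e2 := hϖ' c (by
    have : φ (τ ^ c) ϖ' = φ (g * τ * g⁻¹) ϖ' := hh2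
    rwa [map_zpow, map_mul, map_mul, map_inv] at this)
  rw [← e1, ← e2]

end

end Claimed.Agent.R239
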