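/-
Row 239, package LC (local correspondence, Thm 2.4').  Sub-captain: helper75.
FILE LC/MAIN.lean = subtask LC.MAIN.  ONE OWNER (see table subtask); the owner replaces every sorry IN PLACE
(statements are frozen: ask helper75 before changing one) and may add private helper lemmas / helper files
LC/MAIN_*.lean.  You may import further LC files that do not (transitively) import this one.
Notation of the sketches: G' = Gal(E/N), v_P = lcv P, D_P = decomp N P, I_P = inert N P, cl(τ) = lcCl τ,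
K_U = fld U, K_U^h = fld (U ⊓ D_P) (henselisation of K_U at P inside E).  Labels (P4, V3, L1, ...) refer to
the doc-strings of the other LC files; index: LC/Chain.lean.
-/
import Claimed.Agent.R239.LC.SRC_d
import Claimed.Agent.R239.LC.J
import Claimed.Agent.R239.LC.HN_c
import Claimed.Agent.R239.LC.EX_f
import Claimed.Agent.R239.LC.IN
import Claimed.Agent.R239.LC.UQ
import Claimed.Agent.R239.LC.TC_b

set_option autoImplicit false

namespace Claimed.Agent.R239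

open NumberField
open scoped Pointwise

section

variable {N E : Type*} [Field N] [Field E] [Algebra N E]

theorem lc_smul_isMaximal (g : Gal(E/N)) (Q : Ideal (𝓞 E)) [Q.IsMaximal] : (g • Q).IsMaximal := by
  rw [Ideal.pointwise_smul_eq_comap]
  exact Ideal.comap_isMaximal_of_equiv _

theorem lc_mem_decomp_smul {g h : Gal(E/N)} {Q : Ideal (𝓞 E)} (hh : g * h * g⁻¹ ∈ decomp N Q) :
    h ∈ decomp N (g⁻¹ • Q) := by
  rw [MulAction.mem_stabilizer_iff] at hh ⊢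
  calc h • g⁻¹ • Q = g⁻¹ • ((g * h * g⁻¹) • Q) := by simp [mul_smul]
    _ = g⁻¹ • Q := by rw [hh]

end

section

variable {G G' : Type*} [Group G] [TopologicalSpace G] [IsTopologicalGroup G]
  [Group G'] [TopologicalSpace G'] [IsTopologicalGroup G']

theorem lc_map_mem_cl (φ : G →* G') (hφ : Continuous φ) {τ x : G} (hx : x ∈ lcCl τ) :
    φ x ∈ lcCl (φ τ) := by
  have h1 : φ '' (closure (Subgroup.zpowers τ : Set G)) ⊆ closure (φ '' (Subgroup.zpowers τ : Set G)) :=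
    image_closure_subset_closure_image hφ
  have h2 : φ '' (Subgroup.zpowers τ : Set G) ⊆ (Subgroup.zpowers (φ τ) : Set G') := by
    rintro _ ⟨y, ⟨n, rfl⟩, rfl⟩
    exact ⟨n, by simp⟩
  exact closure_mono h2 (h1 ⟨x, hx, rfl⟩)

end

section

variable {K F : Type*} [Field K] [NumberField K] [Field F] [Algebra K F] [IsGalois K F]
  [CharZero F] [Algebra.IsAlgebraic ℚ F] {ℓ : ℕ} [Fact ℓ.Prime]

/-- inertia at `R ∤ ℓ` fixes the `ℓ`-power roots of unity -/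
theorem lc_inert_fix_mu (R : Ideal (𝓞 F)) [R.IsMaximal] (hR : ¬ Over R ℓ)
    {t : Gal(F/K)} (ht : t ∈ inert K R) (n : ℕ) (ξ : F) (hξ : ξ ^ ℓ ^ n = 1) : t ξ = ξ := by
  have hv : lcv R ξ = 1 := by
    have : lcv R ξ ^ (ℓ ^ n) = 1 := by rw [← map_pow, hξ, map_one]
    exact (pow_eq_one_iff.1 this).resolve_right (pow_ne_zero n (Fact.out : ℓ.Prime).ne_zero)
  exact lc_inert_fix_root R hR ht hv n (by rw [hξ, map_one])

end

section

variable {M Ω N E : Type*} [Field M] [NumberField M] [Field Ω] [Algebra M Ω] [IsGalois M Ω]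
  [CharZero Ω] [Algebra.IsAlgebraic ℚ Ω]
  [Field N] [NumberField N] [Field E] [Algebra N E] [IsGalois N E]
  [CharZero E] [Algebra.IsAlgebraic ℚ E]
variable {ℓ : ℕ} [Fact ℓ.Prime]

/-- **Theorem 2.4'** (partial local correspondence).  `φ` is defined on the open subgroup `T`; `τ` a tame
generator at `P ∤ ℓ` for `M_U`, `U ≤ T`, active for `φ`.  Then there is a unique prime `Q` of `E` with
`φ τ ∈ D_Q`; `Q ∤ ℓ`, `φ τ ∈ I_Q`, `φ` is injective on `cl τ`, and every `g ∈ T` normalising `cl τ` (e.g.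
the Frobenius lift of S6) satisfies `φ g ∈ D_Q` and the norm identity `χ_ℓ(φ g) = χ_ℓ(g)`.
Assembly: S7, G4, M0, H4, E6, I3, UQ, J2; `φ g ∈ D_Q`: `φ τ ∈ D_{(φ g)⁻¹ Q}` + UQ; norm identity: T3
(`Γ = T`, `ρ = T.subtype`) with S3, T1, and T2 applied to `β` of P8/K1. -/
theorem lc_thm24 (hΩ : RadClosed Ω) (hE : RadClosed E) (hℓ : ℓ ≠ 2) (hnt : LCHnt ℓ N E)
    (hlni : LCLni ℓ N E) {T : Subgroup Gal(Ω/M)} (hT : IsOpen (T : Set Gal(Ω/M)))
    (φ : T →* Gal(E/N)) (hφ : Continuous φ)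
    {U : Subgroup Gal(Ω/M)} (hU : IsOpen (U : Set Gal(Ω/M))) (hUT : U ≤ T)
    (P : Ideal (𝓞 Ω)) [P.IsMaximal]
    (hP : ¬ Over P ℓ) {τ : Gal(Ω/M)} (hτ : IsTameGen ℓ U P τ) (hact : φ ⟨τ, hUT hτ.mem.2⟩ ≠ 1) :
    ∃ Q : Ideal (𝓞 E), Q.IsMaximal ∧ ¬ Over Q ℓ ∧ φ ⟨τ, hUT hτ.mem.2⟩ ∈ inert N Q ∧
      (∀ Q' : Ideal (𝓞 E), Q'.IsMaximal → φ ⟨τ, hUT hτ.mem.2⟩ ∈ decomp N Q' → Q' = Q) ∧
      (∀ (x : Gal(Ω/M)) (hx : x ∈ T), x ∈ lcCl τ → φ ⟨x, hx⟩ = 1 → x = 1) ∧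
      ∀ (g : Gal(Ω/M)) (hg : g ∈ T), g * τ * g⁻¹ ∈ lcCl τ →
        φ ⟨g, hg⟩ ∈ decomp N Q ∧ chi ℓ N E (φ ⟨g, hg⟩) = chi ℓ M Ω g := by
  obtain ⟨σ, hσ, hpair⟩ := lct_exists_pair P hΩ hP hU hτ
  have hτT : τ ∈ T := hUT hτ.mem.2
  have hσT : σ ∈ T := hUT hσ.2
  have hTc : IsClosed (T : Set Gal(Ω/M)) := Subgroup.isClosed_of_isOpen T hT
  have : CompactSpace T := hTc.isClosedEmbedding_subtypeVal.compactSpace
  have hpT : LCPair ℓ (⟨τ, hτT⟩ : T) ⟨σ, hσT⟩ := lc_pair_subtype hT hτT hσT hpair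
  have hp' : LCPair ℓ (φ ⟨τ, hτT⟩) (φ ⟨σ, hσT⟩) := lc_pair_map hE hℓ φ hφ hpT hact
  obtain ⟨Q, hQm, hQ⟩ := lc_pair_le_decomp hE hℓ hnt hp'
  have := hQm
  have hQℓ : ¬ Over Q ℓ := lc_not_over_ell hE hℓ hlni hp' Q hQ
  have hin : φ ⟨τ, hτT⟩ ∈ inert N Q := lc_tau_mem_inert Q hE hp' hQ
  have hdec : φ ⟨τ, hτT⟩ ∈ decomp N Q := hQ (lc_left_mem_cl2 _ _)
  have huniq : ∀ Q' : Ideal (𝓞 E), Q'.IsMaximal → φ ⟨τ, hτT⟩ ∈ decomp N Q' → Q' = Q := by
    intro Q' hQ' h'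
    have := hQ'
    exact lc_unique_prime Q hE hp'.proτ hact Q' hdec h'
  refine ⟨Q, hQm, hQℓ, hin, huniq, ?_, ?_⟩
  · intro x hx hxcl h1
    have := lc_injOn_cl hE hℓ φ hφ hpT.proτ hact ((lc_mem_cl_subtype hTc hτT hx).2 hxcl) h1
    simpa using congrArg Subtype.val this
  · intro g hg hgcl
    have hgT : (⟨g, hg⟩ : T) * ⟨τ, hτT⟩ * (⟨g, hg⟩ : T)⁻¹ ∈ lcCl (⟨τ, hτT⟩ : T) := by
      have hmem : g * τ * g⁻¹ ∈ T := T.mul_mem (T.mul_mem hg hτT) (T.inv_mem hg)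
      exact (lc_mem_cl_subtype hTc hτT hmem).2 hgcl
    constructor
    · have h1 : φ ⟨g, hg⟩ * φ ⟨τ, hτT⟩ * (φ ⟨g, hg⟩)⁻¹ ∈ decomp N Q := by
        have := lc_map_mem_cl φ hφ hgT
        rw [map_mul, map_mul, map_inv] at this
        exact hQ (lc_cl_le_cl2 _ _ this)
      have h2 := lc_mem_decomp_smul h1
      have h3 := huniq _ (lc_smul_isMaximal _ Q) h2
      rw [MulAction.mem_stabilizer_iff]
      calc φ ⟨g, hg⟩ • Q = φ ⟨g, hg⟩ • ((φ ⟨g, hg⟩)⁻¹ • Q) := by rw [h3]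
        _ = Q := by simp
    · obtain ⟨p, hpp, hp⟩ := lc_exists_over P
      obtain ⟨q, hqp, hq⟩ := lc_exists_over Q
      obtain ⟨ζ, α, β, hζ, hζH, hα0, hβ0, hα, hβ, h1, h2, h3, h4⟩ := lc_pair_data hE hp'
      have := lc_chi_eq hΩ hE (T.subtype) continuous_subtype_val φ hφ (τ := ⟨τ, hτT⟩)
        (g := ⟨g, hg⟩) (p := p) (q := q)
        (fun n ξ hξ => lc_inert_fix_mu P hP hτ.mem.1 n ξ hξ)
        (fun n ξ hξ => lc_inert_fix_mu Q hQℓ hin n ξ hξ)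
        (lct_gen_moves P hΩ hP hp hpp.ne_zero hU hτ)
        (lc_tame_detect hE Q hQℓ hq hqp.ne_zero hin hβ0
          ((IntermediateField.mem_fixedField_iff _ _).1 hβ _ (lc_left_mem_cl2 _ _)) h3)
        hgT
      exact this

end

end Claimed.Agent.R239
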