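/-
Row 239, package LC (local correspondence, Thm 2.4').  Sub-captain: helper75.
FILE LC/COV_c.lean = subtask LC.COV-c (owner helper75).  Cofinite coverage, assembled from C1, C2, S2, S8 and Thm 2.4'.
-/
import Claimed.Agent.R239.LC.MAIN
import Claimed.Agent.R239.LC.COV_a
import Claimed.Agent.R239.LC.COV_b
import Claimed.Agent.R239.Tame.HilBasic

set_option autoImplicit false

namespace Claimed.Agent.R239

open NumberField
open scoped Pointwise

section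

variable {ℓ : ℕ} [Fact ℓ.Prime]

/-- finitely many characters are trivial on an open subgroup -/
theorem lc_fin_chars_trivial {G : Type*} [Group G] [TopologicalSpace G] [IsTopologicalGroup G]
    [CompactSpace G] {R : Subgroup G} (hR : IsOpen (R : Set G)) :
    {c : G →* Multiplicative (ZMod ℓ) | ∀ r ∈ R, c r = 1}.Finite := by
  have : Finite (G ⧸ R) := Subgroup.quotient_finite_of_isOpen R hR
  let f : {c : G →* Multiplicative (ZMod ℓ) | ∀ r ∈ R, c r = 1} → (G ⧸ R → Multiplicative (ZMod ℓ)) :=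
    fun c => fun q => c.1 q.out
  have hf : Function.Injective f := by
    intro c c' h
    apply Subtype.ext
    ext g
    have h1 := congrFun h (g : G ⧸ R)
    have key : ∀ c : {c : G →* Multiplicative (ZMod ℓ) | ∀ r ∈ R, c r = 1},
        c.1 ((g : G ⧸ R).out) = c.1 g := by
      intro c
      have h2 : g⁻¹ * ((g : G ⧸ R).out) ∈ R := by
        rw [← QuotientGroup.eq]
        exact (QuotientGroup.out_eq' _).symm
      have h3 := c.2 _ h2
      rw [map_mul, map_inv] at h3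
      exact (inv_mul_eq_one.1 h3).symm
    have h4 : c.1 ((g : G ⧸ R).out) = c'.1 ((g : G ⧸ R).out) := h1
    rw [key c, key c'] at h4
    rw [h4]
  have := Finite.of_injective f hf
  exact Set.toFinite _

end

section

variable {M Ω N E : Type*} [Field M] [NumberField M] [Field Ω] [Algebra M Ω] [IsGalois M Ω]
  [CharZero Ω] [Algebra.IsAlgebraic ℚ Ω]
  [Field N] [NumberField N] [Field E] [Algebra N E] [IsGalois N E]
  [CharZero E] [Algebra.IsAlgebraic ℚ E]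
variable {ℓ : ℕ} [Fact ℓ.Prime]

/-- the primes of `K_V` hit by an active tame generator for `T` -/
def lcHit (ℓ : ℕ) {T : Subgroup Gal(Ω/M)} (φ : T →* Gal(E/N)) (V : Subgroup Gal(E/N))
    (w : Ideal (𝓞 (fld V))) : Prop :=
  ∃ (P : Ideal (𝓞 Ω)) (τ : Gal(Ω/M)) (hτ : IsTameGen ℓ T P τ) (Q : Ideal (𝓞 E)),
    P.IsMaximal ∧ ¬ Over P ℓ ∧ Q.IsMaximal ∧ φ ⟨τ, hτ.mem.2⟩ ≠ 1 ∧
    φ ⟨τ, hτ.mem.2⟩ ∈ inert N Q ∧ below V Q = w

/-- coverage at a level `V` containing `ζ` and normalised by the image of `φ` -/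
theorem lc_cover_core (hΩ : RadClosed Ω) (hE : RadClosed E) (hℓ : ℓ ≠ 2) (hnt : LCHnt ℓ N E)
    (hlni : LCLni ℓ N E) {T : Subgroup Gal(Ω/M)} (hT : IsOpen (T : Set Gal(Ω/M)))
    (φ : T →* Gal(E/N)) (hφ : Continuous φ) (hφo : IsOpen (Set.range φ))
    {V : Subgroup Gal(E/N)} (hV : IsOpen (V : Set Gal(E/N)))
    (hn : ∀ t : T, ∀ v ∈ V, φ t * v * (φ t)⁻¹ ∈ V)
    {ζ : E} (hζ : IsPrimitiveRoot ζ ℓ) (hζV : ζ ∈ fld V) :
    {w : Ideal (𝓞 (fld V)) | w.IsMaximal ∧ ¬ lcHit ℓ φ V w}.Finite := by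
  classical
  set T₁ : Subgroup Gal(Ω/M) := (V.comap φ).map T.subtype with hT₁def
  have hmem : ∀ x : Gal(Ω/M), x ∈ T₁ ↔ ∃ h : x ∈ T, φ ⟨x, h⟩ ∈ V := by
    intro x
    rw [hT₁def, Subgroup.mem_map]
    constructor
    · rintro ⟨t, ht, rfl⟩
      exact ⟨t.2, ht⟩
    · rintro ⟨h, hx⟩
      exact ⟨⟨x, h⟩, hx, rfl⟩
  have hT₁T : T₁ ≤ T := fun x hx => ((hmem x).1 hx).1
  have hT₁o : IsOpen (T₁ : Set Gal(Ω/M)) := by
    have h1 : IsOpen ((V.comap φ : Subgroup T) : Set T) := hV.preimage hφ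
    have h2 := hT.isOpenEmbedding_subtypeVal.isOpenMap _ h1
    have h3 : (T₁ : Set Gal(Ω/M)) = Subtype.val '' ((V.comap φ : Subgroup T) : Set T) := by
      rw [hT₁def, Subgroup.coe_map]
      rfl
    rw [h3]
    exact h2
  have hT₁n : ∀ u ∈ T, ∀ v ∈ T₁, u * v * u⁻¹ ∈ T₁ := by
    intro u hu v hv
    obtain ⟨hvT, hvV⟩ := (hmem v).1 hv
    refine (hmem _).2 ⟨T.mul_mem (T.mul_mem hu hvT) (T.inv_mem hu), ?_⟩
    have := hn ⟨u, hu⟩ _ hvV
    rw [← map_inv, ← map_mul, ← map_mul] at this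
    exact this
  let ψ : T₁ →* V := (φ.comp (Subgroup.inclusion hT₁T)).codRestrict V
    (fun t => ((hmem t.1).1 t.2).2)
  have hψv : ∀ t : T₁, (ψ t : Gal(E/N)) = φ ⟨t.1, hT₁T t.2⟩ := fun t => rfl
  have hψc : Continuous ψ :=
    Continuous.subtype_mk (hφ.comp (continuous_inclusion hT₁T)) _
  have hψo : IsOpen (ψ.range : Set V) := by
    have h1 : (ψ.range : Set V) = Subtype.val ⁻¹' (Set.range φ) := by
      ext v
      constructor
      · rintro ⟨t, rfl⟩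
        exact ⟨⟨t.1, hT₁T t.2⟩, rfl⟩
      · rintro ⟨t, ht⟩
        have ht₁ : t.1 ∈ T₁ := (hmem _).2 ⟨t.2, by rw [Subtype.coe_eta, ht]; exact v.2⟩
        exact ⟨⟨t.1, ht₁⟩, Subtype.ext ht⟩
    rw [h1]
    exact hφo.preimage continuous_subtype_val
  have : CompactSpace V :=
    (Subgroup.isClosed_of_isOpen V hV).isClosedEmbedding_subtypeVal.compactSpace
  have hX := lc_fin_chars_trivial (ℓ := ℓ) hψo
  have hF := lc_fin_unram (ℓ := ℓ) hΩ hT₁o
  obtain ⟨C, hC⟩ := lc_many_kummer hE hV hζ hζV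
  by_contra hinf
  obtain ⟨J, hJsub, hJcard⟩ :=
    (Set.not_finite.mp hinf |> fun h => h).exists_subset_card_eq (C * (hX.toFinset.card * hF.toFinset.card))
  obtain ⟨S, hS1, hS2⟩ := hC J (fun w hw => (hJsub hw).1)
  have hSF : ∀ c ∈ S, c.comp ψ ∈ hF.toFinset := by
    intro c hc
    rw [Set.Finite.mem_toFinset]
    refine ⟨(hS2 c hc).1.comp hψc, ?_⟩
    intro P _ hP g hg
    obtain ⟨p, hpp, hp⟩ := lc_exists_over P
    obtain ⟨τ, hτ⟩ := lct_exists_gen P hΩ hP hp hpp.ne_zero hT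
    obtain ⟨k, hk⟩ := lct_sub P hΩ hP hT₁o hT₁T hT₁n hτ
    let c' : ↥(inert M P ⊓ T₁) →* Multiplicative (ZMod ℓ) :=
      (c.comp ψ).comp (Subgroup.inclusion inf_le_right)
    have hc'c : Continuous c' :=
      ((hS2 c hc).1.comp hψc).comp (continuous_inclusion inf_le_right)
    by_cases h1 : c' ⟨τ ^ ℓ ^ k, hk.mem⟩ = 1
    · have h2 := hk.gen c' hc'c h1
      have h3 := DFunLike.congr_fun h2 ⟨g.1, ⟨hg, g.2⟩⟩
      exact h3
    · exfalso
      have hpow : φ ⟨τ ^ ℓ ^ k, hT₁T hk.mem.2⟩ = φ ⟨τ, hτ.mem.2⟩ ^ ℓ ^ k := by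
        rw [← map_pow]
        rfl
      have hact : φ ⟨τ, hτ.mem.2⟩ ≠ 1 := by
        intro h
        apply h1
        have h4 : ψ ⟨τ ^ ℓ ^ k, hk.mem.2⟩ = 1 := by
          apply Subtype.ext
          rw [hψv, hpow, h, one_pow]
          rfl
        change c (ψ ⟨τ ^ ℓ ^ k, hk.mem.2⟩) = 1
        rw [h4, map_one]
      obtain ⟨Q, hQm, hQℓ, hin, -⟩ := lc_thm24 hΩ hE hℓ hnt hlni hT φ hφ hT le_rfl P hP hτ hact
      have hhit : lcHit ℓ φ V (below V Q) := ⟨P, τ, hτ, Q, ‹_›, hP, hQm, hact, hin, rfl⟩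
      have hnJ : below V Q ∉ J := fun h => (hJsub h).2 hhit
      have h5 := (hS2 c hc).2 Q hQℓ hnJ (ψ ⟨τ ^ ℓ ^ k, hk.mem.2⟩) (by
        rw [hψv, hpow]
        exact Subgroup.pow_mem _ hin _)
      exact h1 h5
  have hcard : S.card ≤ hX.toFinset.card * hF.toFinset.card := by
    have h1 := Finset.card_le_mul_card_image (f := fun c : V →* Multiplicative (ZMod ℓ) => c.comp ψ) S
      hX.toFinset.card (by
        intro b hb
        obtain ⟨c₀, hc₀, rfl⟩ := Finset.mem_image.1 hb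
        apply Finset.card_le_card_of_injOn (fun a => a * c₀⁻¹)
        · intro a ha
          have ha' := (Finset.mem_filter.1 ha).2
          simp only [Set.Finite.coe_toFinset, Set.mem_ofPred_eq]
          rintro r ⟨t, rfl⟩
          have := DFunLike.congr_fun ha' t
          simp only [MonoidHom.comp_apply] at this
          rw [MonoidHom.mul_apply, MonoidHom.inv_apply, this, mul_inv_cancel]
        · intro a _ a' _ h
          exact mul_right_cancel h)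
    refine h1.trans (Nat.mul_le_mul_left _ (Finset.card_le_card ?_))
    intro b hb
    obtain ⟨c₀, hc₀, rfl⟩ := Finset.mem_image.1 hb
    exact hSF c₀ hc₀
  have h6 : ℓ ^ J.card ≤ J.card := by
    calc ℓ ^ J.card ≤ C * S.card := hS1
      _ ≤ C * (hX.toFinset.card * hF.toFinset.card) := Nat.mul_le_mul_left _ hcard
      _ = J.card := hJcard.symm
  exact absurd h6 (not_le.2 (Nat.lt_pow_self (Fact.out : ℓ.Prime).one_lt))

omit [CharZero E] [Algebra.IsAlgebraic ℚ E] in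
/-- the prime below at a lower level is determined by the prime below at a higher level -/
theorem lc_below_congr {V₁ V : Subgroup Gal(E/N)} (h : V₁ ≤ V) {Q Q' : Ideal (𝓞 E)}
    (hQ : below V₁ Q = below V₁ Q') : below V Q = below V Q' := by
  ext x
  have hxE : IsIntegral ℤ (((x : fld V) : E)) :=
    (RingOfIntegers.isIntegral_coe x).algebraMap
  have hx1 : ((x : fld V) : E) ∈ fld V₁ := lc_fld_mono h (x : fld V).2
  have hx2 : IsIntegral ℤ (⟨((x : fld V) : E), hx1⟩ : fld V₁) :=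
    (isIntegral_algebraMap_iff (FaithfulSMul.algebraMap_injective (fld V₁) E)).1 hxE
  let x' : 𝓞 (fld V₁) := ⟨⟨((x : fld V) : E), hx1⟩, hx2⟩
  have hxx : algebraMap (𝓞 (fld V₁)) (𝓞 E) x' = algebraMap (𝓞 (fld V)) (𝓞 E) x :=
    RingOfIntegers.ext rfl
  have key : ∀ R : Ideal (𝓞 E), x ∈ below V R ↔ x' ∈ below V₁ R := by
    intro R
    rw [Ideal.mem_under, Ideal.mem_under, hxx]
  rw [key, key, hQ]

/-- **Cofinite coverage** (last sentence of Thm 2.4). -/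
theorem lc_cover (hΩ : RadClosed Ω) (hE : RadClosed E) (hℓ : ℓ ≠ 2) (hnt : LCHnt ℓ N E)
    (hlni : LCLni ℓ N E) {T : Subgroup Gal(Ω/M)} (hT : IsOpen (T : Set Gal(Ω/M)))
    (φ : T →* Gal(E/N)) (hφ : Continuous φ) (hφo : IsOpen (Set.range φ))
    {V : Subgroup Gal(E/N)} (hV : IsOpen (V : Set Gal(E/N))) (hr : ∀ t, φ t ∈ V) :
    {w : Ideal (𝓞 (fld V)) | w.IsMaximal ∧
      ¬ ∃ (P : Ideal (𝓞 Ω)) (τ : Gal(Ω/M)) (hτ : IsTameGen ℓ T P τ) (Q : Ideal (𝓞 E)),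
        P.IsMaximal ∧ ¬ Over P ℓ ∧ Q.IsMaximal ∧ φ ⟨τ, hτ.mem.2⟩ ≠ 1 ∧
        φ ⟨τ, hτ.mem.2⟩ ∈ inert N Q ∧ below V Q = w}.Finite := by
  obtain ⟨ζ, hζ⟩ := hE.prim ℓ (Fact.out : ℓ.Prime).pos
  set V₁ : Subgroup Gal(E/N) := V ⊓ lcStab N ζ with hV₁
  have hV₁V : V₁ ≤ V := inf_le_left
  have hV₁o : IsOpen (V₁ : Set Gal(E/N)) := hV.inter (lc_stab_isOpen ζ)
  have hζV₁ : ζ ∈ fld V₁ := lc_mem_fld_of_le_stab inf_le_right
  have hn : ∀ t : T, ∀ v ∈ V₁, φ t * v * (φ t)⁻¹ ∈ V₁ := by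
    intro t v hv
    refine ⟨V.mul_mem (V.mul_mem (hr t) hv.1) (V.inv_mem (hr t)), ?_⟩
    obtain ⟨a, ha⟩ : ∃ a : ℕ, (φ t)⁻¹ ζ = ζ ^ a := by
      have h1 : ((φ t)⁻¹ ζ) ^ ℓ = 1 := by rw [← map_pow, hζ.pow_eq_one, map_one]
      have : NeZero ℓ := ⟨(Fact.out : ℓ.Prime).ne_zero⟩
      obtain ⟨i, -, hi⟩ := hζ.eq_pow_of_pow_eq_one h1
      exact ⟨i, hi.symm⟩
    change φ t (v ((φ t)⁻¹ ζ)) = ζ
    rw [ha, map_pow, lc_mem_stab.1 hv.2, ← ha]
    change (φ t * (φ t)⁻¹) ζ = ζ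
    rw [mul_inv_cancel]
    rfl
  have hcore := lc_cover_core hΩ hE hℓ hnt hlni hT φ hφ hφo hV₁o hn hζ hζV₁
  have hex : ∀ w : Ideal (𝓞 (fld V)), ∃ Q : Ideal (𝓞 E), w.IsMaximal →
      (Q.IsMaximal ∧ below V Q = w) := by
    intro w
    by_cases hw : w.IsMaximal
    · obtain ⟨Q, hQ⟩ := hbas_exists_above V w
      exact ⟨Q, fun _ => hQ⟩
    · exact ⟨⊥, fun h => absurd h hw⟩
  choose Qf hQf using hex
  refine Set.Finite.of_injOn (f := fun w => below V₁ (Qf w)) ?_ ?_ hcore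
  · rintro w ⟨hw, hmiss⟩
    have := (hQf w hw).1
    refine ⟨hbas_below_isMaximal V₁ (Qf w), ?_⟩
    rintro ⟨P, τ, hτ, Q, hPm, hP, hQm, hact, hin, hbel⟩
    exact hmiss ⟨P, τ, hτ, Q, hPm, hP, hQm, hact, hin,
      (lc_below_congr hV₁V hbel).trans (hQf w hw).2⟩
  · rintro w ⟨hw, -⟩ w' ⟨hw', -⟩ h
    rw [← (hQf w hw).2, ← (hQf w' hw').2]
    exact lc_below_congr hV₁V h

end

end Claimed.Agent.R239
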